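import Vale.Agent.P237.Four.Cert
import Vale.Agent.P237.Five.Moment

/-!
# P237, `n = 5`: the profile `f = (A / (π²/2))^(1/4)` of a body in John position
-/

namespace Vale.Agent.P237.Five

open MeasureTheory Set Filter Topology Metric
open scoped Pointwise RealInnerProductSpace ENNReal

/-- The radius of the four-dimensional ball with the volume of the section. -/
noncomputable def profile (K : Set (E 5)) (u : E 5) (t : ℝ) : ℝ :=
  (sliceVol K u t / (Real.pi ^ 2 / 2)) ^ (1 / 4 : ℝ)

lemma pi_sq_half_pos : (0 : ℝ) < Real.pi ^ 2 / 2 := by positivity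

/-- Petty's inequality in dimension four, in internal form. -/
lemma petty_four_vol {C : Set (E 4)} (hC : Body C) :
    1024 / 81 * vol C ^ (4 - 1) ≤ vol (projBody C) := by
  have h := (Four.petty_four_full C hC.convex hC.compact hC.interior_nonempty).2.1
  rwa [projectionBody_eq hyps (by norm_num : (2 : ℕ) ≤ 4) hC] at h

lemma volume_ball_perp {u : E 5} (hu : ‖u‖ = 1) (r : ℝ) (hr : 0 ≤ r) :
    volume (closedBall (0 : Perp u) r) = ENNReal.ofReal (Real.pi ^ 2 / 2 * r ^ 4) := by
  obtain ⟨e⟩ := exists_perpIso (n := 4) hu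
  have h := e.measurePreserving.measure_preimage
    (s := closedBall (0 : E 4) r) measurableSet_closedBall.nullMeasurableSet
  rw [show e ⁻¹' closedBall (0 : E 4) r = closedBall 0 r by ext y; simp] at h
  rw [h, Four.volume_ball4 r hr]

lemma profile_nonneg {K : Set (E 5)} {u : E 5} (t : ℝ) : 0 ≤ profile K u t :=
  Real.rpow_nonneg (div_nonneg ENNReal.toReal_nonneg pi_sq_half_pos.le) _

lemma profile_pow_four {K : Set (E 5)} {u : E 5} (t : ℝ) :
    profile K u t ^ 4 = sliceVol K u t / (Real.pi ^ 2 / 2) := by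
  rw [profile, show (1 / 4 : ℝ) = ((4 : ℕ) : ℝ)⁻¹ by norm_num]
  exact Real.rpow_inv_natCast_pow (div_nonneg ENNReal.toReal_nonneg pi_sq_half_pos.le) (by norm_num)

lemma profile_cube {K : Set (E 5)} {u : E 5} (t : ℝ) :
    profile K u t ^ 3 = sliceVol K u t ^ ((((4 : ℕ) : ℝ) - 1) / ((4 : ℕ) : ℝ)) /
      (Real.pi ^ 2 / 2) ^ (3 / 4 : ℝ) := by
  have h0 : (0 : ℝ) ≤ sliceVol K u t := ENNReal.toReal_nonneg
  rw [profile, ← Real.rpow_natCast, ← Real.rpow_mul (div_nonneg h0 pi_sq_half_pos.le),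
    Real.div_rpow h0 pi_sq_half_pos.le]
  norm_num

/-- All that the one-dimensional lemma and the John sum use about the profile. -/
theorem profile_facts {K : Set (E 5)} (hK : SymBody K)
    (hmin : ∀ L : Set (E 5), Body L → R K ≤ R L) (hb : closedBall 0 1 ⊆ K)
    (hK2 : K ⊆ closedBall 0 √5) {u : E 5} (hu : ‖u‖ = 1) (h1 : ∀ x ∈ K, ⟪x, u⟫ ≤ 1) :
    ConcaveOn ℝ (Icc (-1 : ℝ) 1) (profile K u) ∧ (∀ t, profile K u (-t) = profile K u t) ∧
    profile K u 0 ≤ √5 ∧ (∀ t ∈ Icc (-1 : ℝ) 1, √(1 - t ^ 2) ≤ profile K u t) ∧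
    (∫ t in (-1 : ℝ)..1, profile K u t ^ 4) = vol K / (Real.pi ^ 2 / 2) ∧
    (∫ t in (-1 : ℝ)..1, t ^ 2 * profile K u t ^ 4) =
      (∫ x in K, ⟪x, u⟫ ^ 2) / (Real.pi ^ 2 / 2) ∧
    1024 / 81 * ((∫ t in (-1 : ℝ)..1, profile K u t ^ 3) ^ 4 /
      (∫ t in (-1 : ℝ)..1, profile K u t ^ 4) ^ 3) ≤ R K := by
  have hc := pi_sq_half_pos
  have huK : u ∈ K := hb (mem_closedBall_zero_iff.2 hu.le)
  have hA : SliceTop.Adm K u := ⟨hK, hu, h1, huK⟩
  have haff : ∀ t, affSlice K u t = sliceVol K u t := fun t => by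
    rw [affSlice, hu, one_smul, inv_one, one_smul]
  obtain ⟨hconc, heven, hnn, hI⟩ := SliceTop.facts (m := 4) (by norm_num) hA
  have hfour := fun t => profile_pow_four (K := K) (u := u) t
  have hsl : ∀ g : ℝ → ℝ, Continuous g →
      ∫ t in (-1 : ℝ)..1, g t * sliceVol K u t = ∫ x in K, g ⟪x, u⟫ := fun g hg => by
    have hu0 : u ≠ 0 := by intro h; simp [h] at hu
    have := integral_affSlice hK hu0 h1 hg
    rwa [funext haff, hu, one_pow, one_mul] at this
  refine ⟨?_, fun t => by simp only [profile, heven], ?_, fun t ht => ?_, ?_, ?_, ?_⟩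
  · have h := hconc.smul (inv_nonneg.2 (Real.rpow_nonneg hc.le (1 / 4 : ℝ)))
    refine h.congr fun t _ => ?_
    simp only [profile, smul_eq_mul]
    rw [Real.div_rpow (hnn t) hc.le]
    norm_num
    ring
  · have hsub : {y : Perp u | (0 : ℝ) • u + (y : E 5) ∈ K} ⊆ closedBall 0 √5 := fun y hy => by
      simpa using hK2 hy
    have h0 : sliceVol K u 0 ≤ Real.pi ^ 2 / 2 * √5 ^ 4 := by
      refine le_trans (ENNReal.toReal_mono measure_closedBall_lt_top.ne (measure_mono hsub)) ?_
      rw [volume_ball_perp hu √5 (Real.sqrt_nonneg _), ENNReal.toReal_ofReal (by positivity)]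
    refine le_of_pow_le_pow_left₀ four_ne_zero (Real.sqrt_nonneg _) ?_
    rw [hfour, div_le_iff₀ hc]
    linarith
  · have hq : 0 ≤ 1 - t ^ 2 := by nlinarith [ht.1, ht.2]
    have hsub : closedBall (0 : Perp u) √(1 - t ^ 2) ⊆
        {y : Perp u | t • u + (y : E 5) ∈ K} := fun y hy => by
      refine hb ?_
      rw [mem_closedBall_zero_iff] at hy ⊢
      have h2 := norm_sq_perpCoord hu (t, y)
      change ‖perpCoord u (t, y)‖ ≤ 1
      have h3 := pow_le_pow_left₀ (norm_nonneg y) hy 2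
      rw [Real.sq_sqrt hq] at h3
      nlinarith [norm_nonneg (perpCoord u (t, y))]
    have hfin : volume {y : Perp u | t • u + (y : E 5) ∈ K} ≠ ⊤ := by
      refine ne_top_of_le_ne_top (measure_closedBall_lt_top (x := (0 : Perp u)) (r := √5)).ne
        (measure_mono fun y hy => ?_)
      have h2 := norm_sq_perpCoord hu (t, y)
      have h3 : ‖perpCoord u (t, y)‖ ≤ √5 := mem_closedBall_zero_iff.1 (hK2 hy)
      rw [mem_closedBall_zero_iff]
      nlinarith [norm_nonneg (perpCoord u (t, y)), norm_nonneg y, sq_nonneg t, Real.sqrt_nonneg 5]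
    have h0 := ENNReal.toReal_mono hfin (measure_mono (μ := volume) hsub)
    rw [volume_ball_perp hu _ (Real.sqrt_nonneg _), ENNReal.toReal_ofReal (by positivity)] at h0
    refine le_of_pow_le_pow_left₀ four_ne_zero (profile_nonneg t) ?_
    rw [hfour, le_div_iff₀ hc]
    rw [sliceVol] at *
    linarith
  · simp only [hfour, intervalIntegral.integral_div, hI]
  · simp only [hfour, ← mul_div_assoc, intervalIntegral.integral_div]
    rw [hsl (fun t => t ^ 2) (by fun_prop)]
  · have hbound := affine_slice_bound hyps.toDualityHyps hyps.pvProj hyps.basic hyps.projBody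
      (m := 4) (by norm_num) (r := 1024 / 81) (by norm_num) (fun C hC => petty_four_vol hC) hK
      hmin h1 huK (by rw [real_inner_self_eq_norm_sq, hu]; norm_num)
    simp only [haff] at hbound
    refine le_of_eq_of_le ?_ hbound
    simp only [profile_cube, hfour, intervalIntegral.integral_div, Nat.reduceSub, div_pow]
    rw [← Real.rpow_natCast ((Real.pi ^ 2 / 2) ^ (3 / 4 : ℝ)) 4, ← Real.rpow_mul hc.le]
    norm_num
    field_simp
    ring

end Vale.Agent.P237.Five
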