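import Vale.Agent.P237.Five.Key
import Vale.Agent.P237.Four.OneDim

/-!
# P237, `n = 5`: polynomial bounds for the integrals of the circle

`circU x = ∫₀ˣ (1 - z²)^(3/2)` lies between `x * serL (x²)` and `x * serU (x²)`; `capI s` lies
between two truncations of its power series in `s`.
-/

namespace Vale.Agent.P237.Five.Cert

open MeasureTheory Set Real intervalIntegral

/-- `∫₀ˣ (1 - z²)^(3/2)`. -/
noncomputable def circU (x : ℝ) : ℝ := ∫ z in (0 : ℝ)..x, √(1 - z ^ 2) ^ 3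

/-- Upper bound for `circU x / x` at `u = x²`. -/
noncomputable def serU (u : ℝ) : ℝ :=
  1 - u / 2 + 3 / 40 * u ^ 2 + 1 / 112 * u ^ 3 + 1 / 144 * u ^ 4

/-- Lower bound for `circU x / x` at `u = x²`. -/
noncomputable def serL (u : ℝ) : ℝ :=
  1 - u / 2 + 3 / 40 * u ^ 2 + 1 / 112 * u ^ 3 + 1 / 384 * u ^ 4

/-- Truncated series of `capI`. -/
noncomputable def serC (s : ℝ) : ℝ :=
  s ^ 5 / 5 + s ^ 7 / 14 + s ^ 9 / 24 + 5 / 176 * s ^ 11

lemma cube_le {u : ℝ} (h0 : 0 ≤ u) (h1 : u ≤ 1) :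
    √(1 - u) ^ 3 ≤ 1 - 3 / 2 * u + 3 / 8 * u ^ 2 + 1 / 16 * u ^ 3 + 1 / 16 * u ^ 4 := by
  have hq := sq_sqrt (show 0 ≤ 1 - u by linarith)
  have hw : √(1 - u) ≤ 1 - u / 2 - u ^ 2 / 8 - u ^ 3 / 16 := by
    rw [sqrt_le_left]
    · nlinarith [pow_nonneg h0 4, pow_nonneg h0 5, pow_nonneg h0 6]
    · nlinarith [pow_le_one₀ h0 h1 (n := 2), pow_le_one₀ h0 h1 (n := 3)]
  rw [pow_succ, hq]
  have := mul_le_mul_of_nonneg_left hw (show 0 ≤ 1 - u by linarith)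
  linear_combination this

lemma cube_ge {u : ℝ} (h0 : 0 ≤ u) (h1 : u ≤ 1) :
    1 - 3 / 2 * u + 3 / 8 * u ^ 2 + 1 / 16 * u ^ 3 + 3 / 128 * u ^ 4 ≤ √(1 - u) ^ 3 := by
  set p := 1 - 3 / 2 * u + 3 / 8 * u ^ 2 + 1 / 16 * u ^ 3 + 3 / 128 * u ^ 4 with hp
  have hq := sq_sqrt (show 0 ≤ 1 - u by linarith)
  have hn : 0 ≤ √(1 - u) ^ 3 := by positivity
  rcases le_total p 0 with hp0 | hp0
  · linarith
  have hu : u ≤ 94 / 100 := by
    by_contra hu
    nlinarith [mul_nonneg (sub_nonneg.2 h1) (sub_nonneg.2 (not_le.1 hu).le),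
      mul_nonneg (mul_nonneg (sub_nonneg.2 h1) (sub_nonneg.2 (not_le.1 hu).le)) h0]
  have key : p ^ 2 ≤ (√(1 - u) ^ 3) ^ 2 := by
    rw [← pow_mul, show 3 * 2 = 2 * 3 from rfl, pow_mul, hq]
    have h5 : 0 ≤ u ^ 5 * (3 / 128 - 11 / 512 * u - 3 / 1024 * u ^ 2 - 9 / 16384 * u ^ 3) :=
      mul_nonneg (pow_nonneg h0 5) (by nlinarith)
    rw [hp]
    nlinarith
  nlinarith

lemma cont_circle : Continuous fun z : ℝ => √(1 - z ^ 2) ^ 3 := by fun_prop

lemma poly8 (x a b c d : ℝ) :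
    ∫ z in (0 : ℝ)..x, (1 + a * z ^ 2 + b * z ^ 4 + c * z ^ 6 + d * z ^ 8) =
      x + a * x ^ 3 / 3 + b * x ^ 5 / 5 + c * x ^ 7 / 7 + d * x ^ 9 / 9 := by
  repeat rw [intervalIntegral.integral_add
    (Continuous.intervalIntegrable (by fun_prop) _ _)
    (Continuous.intervalIntegrable (by fun_prop) _ _)]
  simp only [intervalIntegral.integral_const_mul, integral_pow, intervalIntegral.integral_const]
  norm_num
  ring

lemma circU_le {x : ℝ} (h0 : 0 ≤ x) (h1 : x ≤ 1) : circU x ≤ x * serU (x ^ 2) := by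
  have e : (∫ z in (0 : ℝ)..x, (1 + (-3 / 2) * z ^ 2 + 3 / 8 * z ^ 4 + 1 / 16 * z ^ 6 + 1 / 16 * z ^ 8))
      = x * serU (x ^ 2) := by
    rw [poly8, serU]; ring
  rw [← e]
  refine integral_mono_on h0 (cont_circle.intervalIntegrable _ _)
    ((by fun_prop : Continuous _).intervalIntegrable _ _) fun z hz => ?_
  refine (cube_le (sq_nonneg z) (pow_le_one₀ hz.1 (hz.2.trans h1))).trans_eq ?_
  ring

lemma circU_ge {x : ℝ} (h0 : 0 ≤ x) (h1 : x ≤ 1) : x * serL (x ^ 2) ≤ circU x := by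
  have e : (∫ z in (0 : ℝ)..x, (1 + (-3 / 2) * z ^ 2 + 3 / 8 * z ^ 4 + 1 / 16 * z ^ 6 + 3 / 128 * z ^ 8))
      = x * serL (x ^ 2) := by
    rw [poly8, serL]; ring
  rw [← e]
  refine integral_mono_on h0 ((by fun_prop : Continuous _).intervalIntegrable _ _)
    (cont_circle.intervalIntegrable _ _) fun z hz => ?_
  refine le_of_eq_of_le ?_ (cube_ge (sq_nonneg z) (pow_le_one₀ hz.1 (hz.2.trans h1)))
  ring

lemma circU_one : circU 1 = 3 * π / 16 := Four.Prof4.cube_circle.1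

lemma capI_eq (s : ℝ) : capI s = 3 * π / 16 - circU (√(1 - s ^ 2)) := by
  rw [← circU_one, capI, circU, circU,
    ← integral_add_adjacent_intervals (a := (0 : ℝ)) (b := √(1 - s ^ 2))
      (cont_circle.intervalIntegrable _ _) (cont_circle.intervalIntegrable _ _)]
  ring

lemma series_low {x u : ℝ} (hx : 0 ≤ x) (hu : 0 ≤ u) (hu1 : u ≤ 1) (ex : x ^ 2 = 1 - u) :
    x * (1 + u / 2 + 3 / 8 * u ^ 2 + 5 / 16 * u ^ 3) ≤ 1 := by
  have hw : x ≤ 1 - u / 2 - u ^ 2 / 8 - u ^ 3 / 16 := by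
    refine le_of_pow_le_pow_left₀ two_ne_zero ?_ ?_
    · nlinarith [pow_le_one₀ hu hu1 (n := 2), pow_le_one₀ hu hu1 (n := 3)]
    · rw [ex]; nlinarith [pow_nonneg hu 4, pow_nonneg hu 5, pow_nonneg hu 6]
  refine (mul_le_mul_of_nonneg_right hw (by positivity)).trans ?_
  nlinarith [pow_nonneg hu 4, pow_nonneg hu 5, pow_nonneg hu 6]

lemma series_high {x u T : ℝ} (hx : 0 < x) (hu : 0 ≤ u) (ex : x ^ 2 = 1 - u)
    (hT : 1 ≤ T * (1 - u)) :
    1 ≤ x * (1 + u / 2 + 3 / 8 * u ^ 2 + 5 / 16 * u ^ 3 + 35 / 128 * T * u ^ 4) := by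
  have h1u : 0 < 1 - u := by nlinarith
  have hu1 : u ≤ 1 := by linarith
  have hT0 : 0 ≤ T := by nlinarith
  set a := 1 - u / 2 - u ^ 2 / 8 - u ^ 3 / 16 - 5 / 128 * u ^ 4 with ha
  set w := 1 + u / 2 + 3 / 8 * u ^ 2 + 5 / 16 * u ^ 3 + 35 / 128 * T * u ^ 4 with hw
  have hw0 : 0 ≤ w := by positivity
  have h2 : a ≤ w * (1 - u) := by
    rw [ha, hw]; nlinarith [mul_le_mul_of_nonneg_left hT (pow_nonneg hu 4)]
  have ha0 : 0 ≤ a := by
    rw [ha]; nlinarith [pow_le_one₀ hu hu1 (n := 2), pow_le_one₀ hu hu1 (n := 3),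
      pow_le_one₀ hu hu1 (n := 4)]
  have e : a ^ 2 - (1 - u) =
      u ^ 5 * (7 / 128 + 7 / 512 * u + 5 / 1024 * u ^ 2 + 25 / 16384 * u ^ 3) := by
    rw [ha]; ring
  have h3 : 0 ≤ u ^ 5 * (7 / 128 + 7 / 512 * u + 5 / 1024 * u ^ 2 + 25 / 16384 * u ^ 3) := by
    positivity
  have h4 : a ^ 2 ≤ (w * (1 - u)) ^ 2 := pow_le_pow_left₀ ha0 h2 2
  have h5 : 1 * (1 - u) ≤ w ^ 2 * (1 - u) * (1 - u) :=
    calc 1 * (1 - u) ≤ a ^ 2 := by linarith
      _ ≤ (w * (1 - u)) ^ 2 := h4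
      _ = _ := by ring
  have h6 : (1 : ℝ) ^ 2 ≤ (x * w) ^ 2 := by
    rw [one_pow, mul_pow, ex, mul_comm (1 - u)]; exact le_of_mul_le_mul_right h5 h1u
  exact le_of_pow_le_pow_left₀ two_ne_zero (by positivity) h6

/-- `∫_b^1 (1 - x²)^(3/2)`. -/
noncomputable def capB (b : ℝ) : ℝ := 3 * π / 16 - circU b

/-- A truncated series as a function of `b`. -/
noncomputable def serB (k : ℝ) (b : ℝ) : ℝ :=
  serC (√(1 - b ^ 2)) + k * √(1 - b ^ 2) ^ 13

lemma hasDeriv_capB (k : ℝ) {b : ℝ} (h0 : 0 ≤ b) (h1 : b < 1) :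
    HasDerivAt (fun x => capB x - serB k x)
      (-√(1 - b ^ 2) ^ 3 + b * √(1 - b ^ 2) ^ 3 *
        (1 + √(1 - b ^ 2) ^ 2 / 2 + 3 / 8 * √(1 - b ^ 2) ^ 4 + 5 / 16 * √(1 - b ^ 2) ^ 6
          + 13 * k * √(1 - b ^ 2) ^ 8)) b := by
  have hpos : 0 < 1 - b ^ 2 := by nlinarith
  have hs : HasDerivAt (fun x => √(1 - x ^ 2)) (-b / √(1 - b ^ 2)) b := by
    have := ((hasDerivAt_pow 2 b).const_sub 1).sqrt hpos.ne'
    convert this using 1
    field_simp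
    ring
  have hU : HasDerivAt circU (√(1 - b ^ 2) ^ 3) b :=
    intervalIntegral.integral_hasDerivAt_right (cont_circle.intervalIntegrable _ _)
      (cont_circle.stronglyMeasurableAtFilter _ _) cont_circle.continuousAt
  unfold capB serB serC
  have hd := ((hU.const_sub (3 * π / 16))).sub
    (((((hs.pow 5).div_const 5).add ((hs.pow 7).div_const 14)).add ((hs.pow 9).div_const 24)).add
      ((hs.pow 11).const_mul (5 / 176)) |>.add ((hs.pow 13).const_mul k))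
  refine hd.congr_deriv ?_
  have := (sqrt_pos.2 hpos).ne'
  field_simp
  ring

lemma capB_mono (k : ℝ) {b : ℝ} (h0 : 0 ≤ b) (h1 : b ≤ 1)
    (h : ∀ x ∈ Ioo b 1, x * (1 + √(1 - x ^ 2) ^ 2 / 2 + 3 / 8 * √(1 - x ^ 2) ^ 4
      + 5 / 16 * √(1 - x ^ 2) ^ 6 + 13 * k * √(1 - x ^ 2) ^ 8) ≤ 1) :
    serB k b ≤ capB b := by
  have hc : Continuous fun x => capB x - serB k x := by
    unfold capB serB serC
    have : Continuous circU :=
      intervalIntegral.continuous_primitive (fun a b => cont_circle.intervalIntegrable a b) 0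
    fun_prop
  have hm : AntitoneOn (fun x => capB x - serB k x) (Icc b 1) :=
    antitoneOn_of_hasDerivWithinAt_nonpos (convex_Icc b 1) hc.continuousOn
      (fun x hx => (hasDeriv_capB k (h0.trans (interior_subset hx).1)
        (by rw [interior_Icc] at hx; exact hx.2)).hasDerivWithinAt) fun x hx => by
        rw [interior_Icc] at hx
        have := mul_le_mul_of_nonneg_left (h x hx) (pow_nonneg (sqrt_nonneg (1 - x ^ 2)) 3)
        linarith
  have := hm (left_mem_Icc.2 h1) (right_mem_Icc.2 h1) h1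
  simp only [capB, serB, circU_one, serC] at this ⊢
  norm_num at this
  linarith

lemma capB_anti (k : ℝ) {b : ℝ} (h0 : 0 ≤ b) (h1 : b ≤ 1)
    (h : ∀ x ∈ Ioo b 1, 1 ≤ x * (1 + √(1 - x ^ 2) ^ 2 / 2 + 3 / 8 * √(1 - x ^ 2) ^ 4
      + 5 / 16 * √(1 - x ^ 2) ^ 6 + 13 * k * √(1 - x ^ 2) ^ 8)) :
    capB b ≤ serB k b := by
  have hc : Continuous fun x => capB x - serB k x := by
    unfold capB serB serC
    have : Continuous circU :=
      intervalIntegral.continuous_primitive (fun a b => cont_circle.intervalIntegrable a b) 0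
    fun_prop
  have hm : MonotoneOn (fun x => capB x - serB k x) (Icc b 1) :=
    monotoneOn_of_hasDerivWithinAt_nonneg (convex_Icc b 1) hc.continuousOn
      (fun x hx => (hasDeriv_capB k (h0.trans (interior_subset hx).1)
        (by rw [interior_Icc] at hx; exact hx.2)).hasDerivWithinAt) fun x hx => by
        rw [interior_Icc] at hx
        have := mul_le_mul_of_nonneg_left (h x hx) (pow_nonneg (sqrt_nonneg (1 - x ^ 2)) 3)
        linarith
  have := hm (left_mem_Icc.2 h1) (right_mem_Icc.2 h1) h1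
  simp only [capB, serB, circU_one, serC] at this ⊢
  norm_num at this
  linarith

lemma capI_ge {s : ℝ} (h0 : 0 ≤ s) (h1 : s ≤ 1) : serC s ≤ capI s := by
  have hq : 0 ≤ 1 - s ^ 2 := by nlinarith
  have hb : √(1 - √(1 - s ^ 2) ^ 2) = s := by rw [sq_sqrt hq]; simp [sqrt_sq h0]
  have hb1 : √(1 - s ^ 2) ≤ 1 := sqrt_le_one.2 (by nlinarith)
  have := capB_mono 0 (sqrt_nonneg (1 - s ^ 2)) hb1 fun x hx => by
    have hx0 : 0 ≤ x := (sqrt_nonneg _).trans hx.1.le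
    have hu : 0 ≤ 1 - x ^ 2 := by nlinarith [hx.2]
    have e2 := sq_sqrt hu
    rw [show √(1 - x ^ 2) ^ 4 = (√(1 - x ^ 2) ^ 2) ^ 2 by ring,
      show √(1 - x ^ 2) ^ 6 = (√(1 - x ^ 2) ^ 2) ^ 3 by ring, e2, mul_zero, zero_mul, add_zero]
    exact series_low hx0 hu (by nlinarith) (by ring)
  rw [serB, hb] at this
  rw [capI_eq]
  simpa [capB] using this

lemma capI_le {s T : ℝ} (h0 : 0 ≤ s) (h1 : s ≤ 1) (hT : 1 ≤ T * (1 - s ^ 2)) :
    capI s ≤ serC s + T * (35 / (128 * 13)) * s ^ 13 := by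
  have hq : 0 ≤ 1 - s ^ 2 := by nlinarith
  have hb : √(1 - √(1 - s ^ 2) ^ 2) = s := by rw [sq_sqrt hq]; simp [sqrt_sq h0]
  have hb1 : √(1 - s ^ 2) ≤ 1 := sqrt_le_one.2 (by nlinarith)
  have hT0 : 0 ≤ T := by nlinarith
  have := capB_anti (T * (35 / (128 * 13))) (sqrt_nonneg (1 - s ^ 2)) hb1 fun x hx => by
    have hx0 : 0 < x := lt_of_le_of_lt (sqrt_nonneg _) hx.1
    have hu : 0 ≤ 1 - x ^ 2 := by nlinarith [hx.2]
    have hxs : 1 - s ^ 2 ≤ x ^ 2 := by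
      nlinarith [sq_sqrt hq, hx.1, sqrt_nonneg (1 - s ^ 2)]
    have e2 := sq_sqrt hu
    rw [show √(1 - x ^ 2) ^ 4 = (√(1 - x ^ 2) ^ 2) ^ 2 by ring,
      show √(1 - x ^ 2) ^ 6 = (√(1 - x ^ 2) ^ 2) ^ 3 by ring,
      show √(1 - x ^ 2) ^ 8 = (√(1 - x ^ 2) ^ 2) ^ 4 by ring, e2,
      show 13 * (T * (35 / (128 * 13))) = 35 / 128 * T by ring]
    exact series_high hx0 hu (by ring) (by rw [sub_sub_cancel]; nlinarith)
  rw [serB, hb] at this
  rw [capI_eq]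
  simpa [capB] using this

end Vale.Agent.P237.Five.Cert
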