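import Vale.Agent.P237.Five.Key
import Vale.Agent.P237.Five.CapData

/-!
# P237, `n = 5`: the cap integral `capI`: closed form, convexity and certified tables

`capI s = (3/8) arcsin s - s √(1 - s²) (3 + 2 s²)/8` and `capI' s = s⁴/√(1 - s²)`.
-/

namespace Vale.Agent.P237.Five

open MeasureTheory Set Real intervalIntegral

/-- The closed form of `capI`. -/
noncomputable def capF (s : ℝ) : ℝ :=
  3 / 8 * arcsin s - s * √(1 - s ^ 2) * (3 + 2 * s ^ 2) / 8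

lemma one_sub_sq_pos {x : ℝ} (h : x ∈ Ioo (-1 : ℝ) 1) : 0 < 1 - x ^ 2 := by
  nlinarith [h.1, h.2]

lemma hasDerivAt_sqrt_one_sub {x : ℝ} (h : x ∈ Ioo (-1 : ℝ) 1) :
    HasDerivAt (fun y => √(1 - y ^ 2)) (-x / √(1 - x ^ 2)) x := by
  have h1 : HasDerivAt (fun y : ℝ => 1 - y ^ 2) (-(2 * x)) x := by
    simpa using (hasDerivAt_pow 2 x).const_sub 1
  refine (h1.sqrt (one_sub_sq_pos h).ne').congr_deriv ?_
  have := (Real.sqrt_pos.2 (one_sub_sq_pos h)).ne'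
  field_simp

lemma hasDerivAt_capF {x : ℝ} (h : x ∈ Ioo (-1 : ℝ) 1) :
    HasDerivAt capF (x ^ 4 / √(1 - x ^ 2)) x := by
  have ha := (hasDerivAt_arcsin (ne_of_gt h.1) (ne_of_lt h.2)).const_mul (3 / 8)
  have hp : HasDerivAt (fun y : ℝ => 3 + 2 * y ^ 2) (2 * (2 * x)) x := by
    simpa using ((hasDerivAt_pow 2 x).const_mul 2).const_add 3
  have hb := (((hasDerivAt_id x).fun_mul (hasDerivAt_sqrt_one_sub h)).fun_mul hp).div_const 8
  refine (ha.sub hb).congr_deriv ?_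
  have hw := (Real.sqrt_pos.2 (one_sub_sq_pos h)).ne'
  simp only [id_eq, one_div]
  field_simp
  rw [Real.sq_sqrt (one_sub_sq_pos h).le]
  ring

lemma capI_eq {s : ℝ} (h0 : 0 ≤ s) (h1 : s ≤ 1) : capI s = capF s := by
  have hq : 0 ≤ 1 - s ^ 2 := by nlinarith
  set b := √(1 - s ^ 2) with hb
  have hb0 : 0 ≤ b := Real.sqrt_nonneg _
  have hb1 : b ≤ 1 := Real.sqrt_le_one.2 (by nlinarith)
  have hbs : √(1 - b ^ 2) = s := by
    rw [hb, Real.sq_sqrt hq, show 1 - (1 - s ^ 2) = s ^ 2 by ring, Real.sqrt_sq h0]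
  let F : ℝ → ℝ := fun x => (x * (5 - 2 * x ^ 2) * √(1 - x ^ 2) + 3 * arcsin x) / 8
  have hF : ∀ x ∈ Ioo b 1, HasDerivAt F (√(1 - x ^ 2) ^ 3) x := by
    intro x hx
    have h' : x ∈ Ioo (-1 : ℝ) 1 := ⟨by linarith [hx.1], hx.2⟩
    have hp : HasDerivAt (fun y : ℝ => 5 - 2 * y ^ 2) (-(2 * (2 * x))) x := by
      simpa using ((hasDerivAt_pow 2 x).const_mul 2).const_sub 5
    refine (((((hasDerivAt_id x).fun_mul hp).fun_mul (hasDerivAt_sqrt_one_sub h')).fun_add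
      ((hasDerivAt_arcsin (ne_of_gt h'.1) (ne_of_lt h'.2)).const_mul 3)).div_const 8).congr_deriv ?_
    have hw := (Real.sqrt_pos.2 (one_sub_sq_pos h')).ne'
    simp only [id_eq, one_div]
    field_simp
    rw [show √(1 - x ^ 2) ^ 4 = (√(1 - x ^ 2) ^ 2) ^ 2 by ring,
      Real.sq_sqrt (one_sub_sq_pos h').le]
    ring
  have hint := integral_eq_sub_of_hasDerivAt_of_le hb1 (by fun_prop : Continuous F).continuousOn hF
    ((by fun_prop : Continuous fun x : ℝ => √(1 - x ^ 2) ^ 3).intervalIntegrable b 1)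
  rw [capI, ← hb, hint]
  have hcs : arcsin b = π / 2 - arcsin s := by
    have h2 : arcsin s = arccos b := by
      rw [arccos_eq_arcsin hb0, hbs]
    rw [h2, arccos]
    ring
  simp only [F, hbs, hcs, capF, arcsin_one, ← hb]
  rw [show (1 : ℝ) - 1 ^ 2 = 0 by norm_num, Real.sqrt_zero, hb, Real.sq_sqrt hq]
  ring

lemma capF_continuous : Continuous capF := by unfold capF; fun_prop

lemma capI_continuousOn : ContinuousOn capI (Icc 0 1) :=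
  capF_continuous.continuousOn.congr fun _ hx => capI_eq hx.1 hx.2

lemma capI_hasDerivAt {x : ℝ} (h : x ∈ Ioo (0 : ℝ) 1) :
    HasDerivAt capI (x ^ 4 / √(1 - x ^ 2)) x := by
  refine (hasDerivAt_capF ⟨by linarith [h.1], h.2⟩).congr_of_eventuallyEq ?_
  filter_upwards [Ioo_mem_nhds h.1 h.2] with y hy using capI_eq hy.1.le hy.2.le

lemma capDer_mono {x y : ℝ} (hx : 0 ≤ x) (hxy : x ≤ y) (hy : y < 1) :
    x ^ 4 / √(1 - x ^ 2) ≤ y ^ 4 / √(1 - y ^ 2) := by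
  have h1 : 0 < 1 - y ^ 2 := by nlinarith
  exact div_le_div₀ (by positivity) (pow_le_pow_left₀ hx hxy 4) (Real.sqrt_pos.2 h1)
    (Real.sqrt_le_sqrt (by nlinarith))

theorem convexOn_capI : ConvexOn ℝ (Icc (0 : ℝ) 1) capI := by
  refine MonotoneOn.convexOn_of_deriv (convex_Icc 0 1) capI_continuousOn ?_ ?_
  · rw [interior_Icc]
    exact fun x hx => (capI_hasDerivAt hx).differentiableAt.differentiableWithinAt
  · rw [interior_Icc]
    intro x hx y hy hxy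
    rw [(capI_hasDerivAt hx).deriv, (capI_hasDerivAt hy).deriv]
    exact capDer_mono hx.1.le hxy hy.2

theorem capI_ge_tangent {a s q : ℝ} (ha : 0 ≤ a) (has : a ≤ s) (hs : s ≤ 1) (hq : 0 ≤ q)
    (h : q ^ 2 * (1 - a ^ 2) ≤ a ^ 8) : capI a + q * (s - a) ≤ capI s := by
  rcases has.eq_or_lt with rfl | hlt
  · simp
  have ha1 : a < 1 := hlt.trans_le hs
  have hw : 0 < √(1 - a ^ 2) := Real.sqrt_pos.2 (by nlinarith)
  have hqd : q ≤ a ^ 4 / √(1 - a ^ 2) := by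
    rw [le_div_iff₀ hw]
    refine le_of_pow_le_pow_left₀ two_ne_zero (by positivity) ?_
    rw [mul_pow, Real.sq_sqrt (by nlinarith)]
    linarith [show (a ^ 4) ^ 2 = a ^ 8 by ring]
  have hsub : Icc a s ⊆ Icc (0 : ℝ) 1 := Icc_subset_Icc ha hs
  have hd : ∀ x ∈ interior (Icc a s), x ∈ Ioo (0 : ℝ) 1 := by
    rw [interior_Icc]
    exact fun x hx => ⟨by linarith [hx.1], by linarith [hx.2]⟩
  have := (convex_Icc a s).mul_sub_le_image_sub_of_le_deriv (capI_continuousOn.mono hsub)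
    (fun x hx => (capI_hasDerivAt (hd x hx)).differentiableAt.differentiableWithinAt)
    (C := q) (fun x hx => by
      rw [(capI_hasDerivAt (hd x hx)).deriv]
      refine hqd.trans (capDer_mono ha ?_ (hd x hx).2)
      rw [interior_Icc] at hx
      exact hx.1.le)
    a ⟨le_rfl, has⟩ s ⟨has, le_rfl⟩ has
  linarith

theorem capI_one : capI 1 = 3 * π / 16 := by
  rw [capI_eq zero_le_one le_rfl, capF, arcsin_one]
  simp
  ring

/-- Look up a table. -/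
def tGet (T : List (List ℤ)) (k : ℕ) : ℤ := (T.getD (k / 32) []).getD (k % 32) 0

/-- The certified lower bound for `capI (k/1024)`, unit `10⁻¹²`. -/
def capLo (k : ℕ) : ℤ := tGet capLoT k

/-- The certified upper bound for `capI (k/1024)`, unit `10⁻¹²`. -/
def capHi (k : ℕ) : ℤ := tGet capHiT k

/-- The check of one entry of the tables. -/
def rowOK (k : ℕ) : Bool :=
  decide (0 ≤ tGet sqLoT k ∧ tGet sqLoT k ^ 2 * 1024 ^ 2 ≤ (1024 ^ 2 - (k : ℤ) ^ 2) * 10 ^ 24 ∧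
    0 ≤ tGet sqHiT k ∧ (1024 ^ 2 - (k : ℤ) ^ 2) * 10 ^ 24 ≤ tGet sqHiT k ^ 2 * 1024 ^ 2 ∧
    (8 * 1024 ^ 3 * capLo k ≤ 3 * 1024 ^ 3 * tGet angLoT k
        - k * tGet sqHiT k * (3 * 1024 ^ 2 + 2 * (k : ℤ) ^ 2) ∨ capLo k = 0) ∧
    3 * 1024 ^ 3 * tGet angHiT k - k * tGet sqLoT k * (3 * 1024 ^ 2 + 2 * (k : ℤ) ^ 2) ≤
      8 * 1024 ^ 3 * capHi k)

/-- The check of one step of the angle tables. -/
def stepOK (k : ℕ) : Bool :=
  let D := tGet angLoT (k + 1) - tGet angLoT k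
  let G := tGet angHiT (k + 1) - tGet angHiT k
  decide (0 ≤ D ∧ D ≤ 10 ^ 12 ∧ 0 ≤ G ∧ G ≤ 10 ^ 12 ∧
    (96 * D * (10 ^ 12) ^ 3 - 16 * D ^ 3 * 10 ^ 12 + 5 * D ^ 4) * 1024 ≤
      96 * ((k + 1) * tGet sqLoT k - k * tGet sqHiT (k + 1)) * (10 ^ 12) ^ 3 ∧
    96 * ((k + 1) * tGet sqHiT k - k * tGet sqLoT (k + 1)) * (10 ^ 12) ^ 3 ≤
      (96 * G * (10 ^ 12) ^ 3 - 16 * G ^ 3 * 10 ^ 12 - 5 * G ^ 4) * 1024)

theorem rows_chunks : ((List.range 33).all fun c => (List.range 32).all fun d =>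
    decide (1024 < c * 32 + d) || rowOK (c * 32 + d)) = true := by decide +kernel

theorem rows_ok {k : ℕ} (hk : k ≤ 1024) : rowOK k = true := by
  have h := List.all_eq_true.1 (List.all_eq_true.1 rows_chunks (k / 32)
    (List.mem_range.2 (by omega))) (k % 32) (List.mem_range.2 (by omega))
  rw [Nat.div_add_mod' k 32, decide_eq_false (by omega), Bool.false_or] at h
  exact h

theorem steps_chunks : ((List.range 32).all fun c => (List.range 32).all fun d =>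
    stepOK (c * 32 + d)) = true := by decide +kernel

theorem steps_ok {k : ℕ} (hk : k < 1024) : stepOK k = true := by
  have h := List.all_eq_true.1 (List.all_eq_true.1 steps_chunks (k / 32)
    (List.mem_range.2 (by omega))) (k % 32) (List.mem_range.2 (by omega))
  rwa [Nat.div_add_mod' k 32] at h

/-- `rowOK` for given entries, read in `ℝ`. -/
lemma sqrt_aux {k : ℕ} {L H : ℤ} (h2 : L ^ 2 * 1024 ^ 2 ≤ (1024 ^ 2 - (k : ℤ) ^ 2) * 10 ^ 24)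
    (h3 : 0 ≤ H) (h4 : (1024 ^ 2 - (k : ℤ) ^ 2) * 10 ^ 24 ≤ H ^ 2 * 1024 ^ 2) :
    (L : ℝ) / 10 ^ 12 ≤ √(1 - ((k : ℝ) / 1024) ^ 2) ∧
      √(1 - ((k : ℝ) / 1024) ^ 2) ≤ (H : ℝ) / 10 ^ 12 := by
  rify at h2 h3 h4
  constructor
  · refine Real.le_sqrt_of_sq_le ?_
    field_simp
    linarith
  · refine Real.sqrt_le_iff.2 ⟨by positivity, ?_⟩
    field_simp
    linarith

lemma sqrt_bounds {k : ℕ} (hk : k ≤ 1024) :
    (tGet sqLoT k : ℝ) / 10 ^ 12 ≤ √(1 - ((k : ℝ) / 1024) ^ 2) ∧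
      √(1 - ((k : ℝ) / 1024) ^ 2) ≤ (tGet sqHiT k : ℝ) / 10 ^ 12 :=
  have h := of_decide_eq_true (rows_ok hk)
  sqrt_aux h.2.1 h.2.2.1 h.2.2.2.1

lemma pow_five_le {x : ℝ} (h0 : 0 ≤ x) (h1 : x ≤ 1) : x ^ 5 / 100 ≤ x ^ 4 * (5 / 96) := by
  linarith [pow_le_pow_of_le_one h0 h1 (show 4 ≤ 5 by norm_num), pow_nonneg h0 4]

lemma sin_step {S x e f p q u v : ℝ} (h1 : S - x ≤ e) (h2 : e ≤ f) (h3 : x + f ≤ p - q)
    (h4 : p ≤ u) (h5 : v ≤ q) : S ≤ u - v := by linarith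

lemma sin_step' {S x e f p q u v : ℝ} (h1 : -e ≤ S - x) (h2 : e ≤ f) (h3 : p - q ≤ x - f)
    (h4 : u ≤ p) (h5 : q ≤ v) : u - v ≤ S := by linarith

/-- One step of the angle tables for given entries. -/
lemma angle_step {k : ℕ} (hk : k + 1 ≤ 1024) {tl tl' th th' sl sh sl' sh' : ℤ}
    (ih1 : (tl : ℝ) / 10 ^ 12 ≤ arcsin ((k : ℝ) / 1024))
    (ih2 : arcsin ((k : ℝ) / 1024) ≤ (th : ℝ) / 10 ^ 12)
    (wa1 : (sl : ℝ) / 10 ^ 12 ≤ √(1 - ((k : ℝ) / 1024) ^ 2))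
    (wa2 : √(1 - ((k : ℝ) / 1024) ^ 2) ≤ (sh : ℝ) / 10 ^ 12)
    (wb1 : (sl' : ℝ) / 10 ^ 12 ≤ √(1 - (((k + 1 : ℕ) : ℝ) / 1024) ^ 2))
    (wb2 : √(1 - (((k + 1 : ℕ) : ℝ) / 1024) ^ 2) ≤ (sh' : ℝ) / 10 ^ 12)
    (hD0 : 0 ≤ tl' - tl) (hD1 : tl' - tl ≤ 10 ^ 12)
    (hG0 : 0 ≤ th' - th) (hG1 : th' - th ≤ 10 ^ 12)
    (hDl : (96 * (tl' - tl) * (10 ^ 12) ^ 3 - 16 * (tl' - tl) ^ 3 * 10 ^ 12
        + 5 * (tl' - tl) ^ 4) * 1024 ≤ 96 * ((k + 1) * sl - k * sh') * (10 ^ 12) ^ 3)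
    (hGu : 96 * ((k + 1) * sh - k * sl') * (10 ^ 12) ^ 3 ≤
      (96 * (th' - th) * (10 ^ 12) ^ 3 - 16 * (th' - th) ^ 3 * 10 ^ 12
        - 5 * (th' - th) ^ 4) * 1024) :
    (tl' : ℝ) / 10 ^ 12 ≤ arcsin (((k + 1 : ℕ) : ℝ) / 1024) ∧
      arcsin (((k + 1 : ℕ) : ℝ) / 1024) ≤ (th' : ℝ) / 10 ^ 12 := by
  have hk' : (k : ℝ) + 1 ≤ 1024 := by exact_mod_cast hk
  push_cast at wb1 wb2 ⊢
  set a := (k : ℝ) / 1024 with ha
  set b := ((k : ℝ) + 1) / 1024 with hb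
  have ha0 : 0 ≤ a := by positivity
  have hb0 : 0 ≤ b := by positivity
  have hab : a ≤ b := by rw [ha, hb]; linarith
  have hb1 : b ≤ 1 := by rw [hb, div_le_one (by norm_num)]; exact hk'
  set Δ := arcsin b - arcsin a with hΔ
  have hΔ0 : 0 ≤ Δ := sub_nonneg.2 (monotone_arcsin hab)
  have hΔ1 : Δ ≤ π / 2 := by
    have := arcsin_nonneg.2 ha0
    linarith [arcsin_le_pi_div_two b]
  have hsin : sin Δ = b * √(1 - a ^ 2) - √(1 - b ^ 2) * a := by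
    rw [hΔ, sin_sub, sin_arcsin (by linarith) hb1, sin_arcsin (by linarith) (hab.trans hb1),
      cos_arcsin, cos_arcsin]
  rify at hD0 hD1 hG0 hG1 hDl hGu
  set D : ℝ := ((tl' : ℝ) - tl) / 10 ^ 12 with hD
  set G : ℝ := ((th' : ℝ) - th) / 10 ^ 12 with hG
  have hD01 : 0 ≤ D ∧ D ≤ 1 := ⟨by rw [hD]; exact div_nonneg hD0 (by norm_num),
    by rw [hD, div_le_one (by norm_num)]; exact hD1⟩
  have hG01 : 0 ≤ G ∧ G ≤ 1 := ⟨by rw [hG]; exact div_nonneg hG0 (by norm_num),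
    by rw [hG, div_le_one (by norm_num)]; exact hG1⟩
  have hlo : D - D ^ 3 / 6 + D ^ 4 * (5 / 96) ≤
      b * ((sl : ℝ) / 10 ^ 12) - ((sh' : ℝ) / 10 ^ 12) * a := by
    rw [hD, ha, hb]
    clear * - hDl
    field_simp
    linarith
  have hhi : b * ((sh : ℝ) / 10 ^ 12) - ((sl' : ℝ) / 10 ^ 12) * a ≤
      G - G ^ 3 / 6 - G ^ 4 * (5 / 96) := by
    rw [hG, ha, hb]
    clear * - hGu
    field_simp
    linarith
  have e1 := Real.sin_bound (x := D) (by rw [abs_of_nonneg hD01.1]; exact hD01.2)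
  have e2 := Real.sin_bound (x := G) (by rw [abs_of_nonneg hG01.1]; exact hG01.2)
  rw [abs_le, abs_of_nonneg hD01.1] at e1
  rw [abs_le, abs_of_nonneg hG01.1] at e2
  have eD : D ^ 5 / 100 ≤ D ^ 4 * (5 / 96) := by
    exact pow_five_le hD01.1 hD01.2
  have eG : G ^ 5 / 100 ≤ G ^ 4 * (5 / 96) := by
    exact pow_five_le hG01.1 hG01.2
  have hsD : sin D ≤ sin Δ := by
    rw [hsin]
    exact sin_step e1.2 eD hlo (mul_le_mul_of_nonneg_left wa1 hb0)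
      (mul_le_mul_of_nonneg_right wb2 ha0)
  have hsG : sin Δ ≤ sin G := by
    rw [hsin]
    exact sin_step' e2.1 eG hhi (mul_le_mul_of_nonneg_left wa2 hb0)
      (mul_le_mul_of_nonneg_right wb1 ha0)
  have hpi := Real.two_le_pi
  have hmem : ∀ x : ℝ, 0 ≤ x → x ≤ π / 2 → x ∈ Icc (-(π / 2)) (π / 2) := fun x h h' =>
    ⟨by linarith, h'⟩
  have hDΔ : D ≤ Δ := (strictMonoOn_sin.le_iff_le (hmem D hD01.1 (by linarith [hD01.2]))
    (hmem Δ hΔ0 hΔ1)).1 hsD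
  have hΔG : Δ ≤ G := (strictMonoOn_sin.le_iff_le (hmem Δ hΔ0 hΔ1)
    (hmem G hG01.1 (by linarith [hG01.2]))).1 hsG
  rw [hD, sub_div] at hDΔ
  rw [hG, sub_div] at hΔG
  constructor <;> linarith

lemma angle_zero : tGet angLoT 0 = 0 ∧ tGet angHiT 0 = 0 := by decide +kernel

lemma angle_bounds : ∀ {k : ℕ}, k ≤ 1024 →
    (tGet angLoT k : ℝ) / 10 ^ 12 ≤ arcsin ((k : ℝ) / 1024) ∧
      arcsin ((k : ℝ) / 1024) ≤ (tGet angHiT k : ℝ) / 10 ^ 12 := by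
  intro k
  induction k with
  | zero =>
    intro
    simp [angle_zero.1, angle_zero.2]
  | succ k ih =>
    intro hk
    have h := of_decide_eq_true (steps_ok (k := k) (by omega))
    exact angle_step hk (ih (by omega)).1 (ih (by omega)).2 (sqrt_bounds (by omega)).1
      (sqrt_bounds (by omega)).2 (sqrt_bounds hk).1 (sqrt_bounds hk).2
      h.1 h.2.1 h.2.2.1 h.2.2.2.1 h.2.2.2.2.1 h.2.2.2.2.2

lemma capI_nonneg (s : ℝ) : 0 ≤ capI s :=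
  intervalIntegral.integral_nonneg (Real.sqrt_le_one.2 (by nlinarith [sq_nonneg s]))
    fun x _ => by positivity

/-- The upper and the lower bound for `capI` at given entries. -/
lemma capLo_aux {k : ℕ} (hk : k ≤ 1024) {c t w : ℤ}
    (h1 : (t : ℝ) / 10 ^ 12 ≤ arcsin ((k : ℝ) / 1024))
    (h2 : √(1 - ((k : ℝ) / 1024) ^ 2) ≤ (w : ℝ) / 10 ^ 12)
    (hl : 8 * 1024 ^ 3 * c ≤ 3 * 1024 ^ 3 * t - k * w * (3 * 1024 ^ 2 + 2 * (k : ℤ) ^ 2) ∨ c = 0) :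
    (c : ℝ) / 10 ^ 12 ≤ capI ((k : ℝ) / 1024) := by
  have hk1 : (k : ℝ) / 1024 ≤ 1 := by rw [div_le_one (by norm_num)]; exact_mod_cast hk
  have hk0 : (0 : ℝ) ≤ (k : ℝ) / 1024 := by positivity
  rcases hl with hl | hl
  · rw [capI_eq hk0 hk1, capF]
    rify at hl
    have hc : (0 : ℝ) ≤ (k : ℝ) / 1024 * (3 + 2 * ((k : ℝ) / 1024) ^ 2) := by positivity
    have h3 := mul_le_mul_of_nonneg_right h2 hc
    have h4 : (c : ℝ) / 10 ^ 12 ≤ 3 / 8 * ((t : ℝ) / 10 ^ 12) -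
        (w : ℝ) / 10 ^ 12 * ((k : ℝ) / 1024 * (3 + 2 * ((k : ℝ) / 1024) ^ 2)) / 8 := by
      clear * - hl
      field_simp
      linarith
    linarith
  · rw [hl, Int.cast_zero, zero_div]
    exact capI_nonneg _

lemma capHi_aux {k : ℕ} (hk : k ≤ 1024) {c t w : ℤ}
    (h1 : arcsin ((k : ℝ) / 1024) ≤ (t : ℝ) / 10 ^ 12)
    (h2 : (w : ℝ) / 10 ^ 12 ≤ √(1 - ((k : ℝ) / 1024) ^ 2))
    (hl : 3 * 1024 ^ 3 * t - k * w * (3 * 1024 ^ 2 + 2 * (k : ℤ) ^ 2) ≤ 8 * 1024 ^ 3 * c) :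
    capI ((k : ℝ) / 1024) ≤ (c : ℝ) / 10 ^ 12 := by
  have hk1 : (k : ℝ) / 1024 ≤ 1 := by rw [div_le_one (by norm_num)]; exact_mod_cast hk
  have hk0 : (0 : ℝ) ≤ (k : ℝ) / 1024 := by positivity
  rw [capI_eq hk0 hk1, capF]
  rify at hl
  have hc : (0 : ℝ) ≤ (k : ℝ) / 1024 * (3 + 2 * ((k : ℝ) / 1024) ^ 2) := by positivity
  have h3 := mul_le_mul_of_nonneg_right h2 hc
  have h4 : 3 / 8 * ((t : ℝ) / 10 ^ 12) -
      (w : ℝ) / 10 ^ 12 * ((k : ℝ) / 1024 * (3 + 2 * ((k : ℝ) / 1024) ^ 2)) / 8 ≤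
      (c : ℝ) / 10 ^ 12 := by
    clear * - hl
    field_simp
    linarith
  linarith

theorem capLo_le : ∀ k : ℕ, k ≤ 1024 → (capLo k : ℝ) / 10 ^ 12 ≤ capI ((k : ℝ) / 1024) :=
  fun _ hk => capLo_aux hk (angle_bounds hk).1 (sqrt_bounds hk).2
    (of_decide_eq_true (rows_ok hk)).2.2.2.2.1

theorem le_capHi : ∀ k : ℕ, k ≤ 1024 → capI ((k : ℝ) / 1024) ≤ (capHi k : ℝ) / 10 ^ 12 :=
  fun _ hk => capHi_aux hk (angle_bounds hk).2 (sqrt_bounds hk).1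
    (of_decide_eq_true (rows_ok hk)).2.2.2.2.2

end Vale.Agent.P237.Five
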