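import Vale.Agent.P237.Five.CertExpr

/-!
# P237, `n = 5`: leaves of the certificate for the first derivative, part 4
-/

namespace Vale.Agent.P237.Five.Cert

lemma okA78 : Tree.check LeafA.ok
    (.leaf (.lam ⟨.flat, 1404225, (-1201767), 421585, none, ⟨true, 0⟩, ⟨true, 0⟩, ⟨true, 0⟩, 1005615, 1050782⟩ ⟨1020992, 1126153, 1017906, 1008344, 1048670, 994820, 970735, 914749⟩ ⟨1200684, 664272, ⟨true, 0⟩⟩ 1015059 2))
    ⟨14336, 15360, 9216, 12288⟩ = true := by
  decide +kernel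

lemma okA79 : Tree.check LeafA.ok
    (.sS
      (.leaf (.start 1006421 1002563 998402 995211 (some ⟨(.node 2258 999997), 1822600, (-1677784), 302173, none, ⟨true, 0⟩, ⟨true, 0⟩, ⟨true, 0⟩, 999997, 1016968⟩)))
      (.leaf (.start 1000000 1000000 1000000 1000000 none)))
    ⟨15360, 16384, 9216, 10752⟩ = true := by
  decide +kernel

lemma okA80 : Tree.check LeafA.ok
    (.sS
      (.leaf (.lam ⟨.circ, 1822600, (-1677784), 302173, none, ⟨true, 0⟩, ⟨true, 0⟩, ⟨true, 0⟩, 937500, 1000000⟩ ⟨1005171, 1045915, 1006325, 1002065, 1018119, 998712, 988840, 966891⟩ ⟨1117187, 707044, ⟨true, 0⟩⟩ 1005482 2))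
      (.leaf (.start 1000000 1000000 1000000 1000000 none)))
    ⟨15360, 16384, 10752, 12288⟩ = true := by
  decide +kernel

lemma okA81 : Tree.check LeafA.ok
    (.sS
      (.sR
      (.leaf (.lam ⟨.flat, 1017848, (-607294), 824431, (some 1641026), ⟨true, 0⟩, ⟨true, 0⟩, ⟨true, 0⟩, 1062500, 1207032⟩ ⟨1504787, 2352929, 1178487, 1177578, 1408132, 902883, 807417, 526372⟩ ⟨1418884, 568766, ⟨true, 0⟩⟩ 1160325 2))
      (.leaf (.lam ⟨.flat, 1017848, (-607294), 824431, (some 1641026), ⟨true, 0⟩, ⟨true, 0⟩, ⟨true, 0⟩, 1196289, 1343750⟩ ⟨1970455, 3264456, 1271949, 1311676, 1605182, 844031, 743957, 411757⟩ ⟨1641112, 499243, ⟨true, 0⟩⟩ 1241564 2)))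
      (.leaf (.lam ⟨.flat, 1051504, (-693452), 723489, none, ⟨true, 0⟩, ⟨true, 0⟩, ⟨true, 0⟩, 1078125, 1310547⟩ ⟨1325584, 2437162, 1171166, 1119342, 1428084, 931962, 800349, 512668⟩ ⟨1868346, 462466, ⟨true, 0⟩⟩ 1132240 2)))
    ⟨8192, 12288, 12288, 18432⟩ = true := by
  decide +kernel

lemma okA82 : Tree.check LeafA.ok
    (.sS
      (.leaf (.lam ⟨.flat, 1017848, (-607294), 824431, (some 1641026), ⟨true, 0⟩, ⟨true, 0⟩, ⟨true, 0⟩, 1310546, 1625000⟩ ⟨2436159, 5283529, 1401659, 1427848, 1946120, 800431, 659583, 286950⟩ ⟨2250000, 380553, ⟨true, 0⟩⟩ 1332228 2))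
      (.leaf (.lam ⟨.chord, 1051504, (-693452), 723489, none, ⟨true, 0⟩, ⟨true, 0⟩, ⟨true, 0⟩, 1000000, 1539063⟩ ⟨1543998, 3100570, 1234465, 1189758, 1572449, 897095, 753598, 427975⟩ ⟨2250000, 386901, ⟨true, 0⟩⟩ 1174795 2)))
    ⟨8192, 12288, 18432, 24576⟩ = true := by
  decide +kernel

lemma okA83 : Tree.check LeafA.ok
    (.sR
      (.leaf (.lam ⟨.flat, 1152463, (-872935), 579601, none, ⟨true, 0⟩, ⟨true, 0⟩, ⟨true, 0⟩, 1050781, 1160157⟩ ⟨1125152, 1534842, 1073897, 1048297, 1186930, 970951, 898430, 725190⟩ ⟨1619933, 529974, ⟨true, 0⟩⟩ 1057333 2))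
      (.sS
      (.leaf (.lam ⟨.flat, 1113463, (-803601), 623435, none, ⟨true, 0⟩, ⟨true, 0⟩, ⟨true, 0⟩, 1131103, 1242188⟩ ⟨1338269, 1693119, 1109565, 1123614, 1234454, 929746, 876654, 673727⟩ ⟨1761841, 489657, ⟨true, 0⟩⟩ 1091305 2))
      (.leaf (.lam ⟨.flat, 1201616, (-937134), 535825, none, ⟨true, 0⟩, ⟨true, 0⟩, ⟨true, 0⟩, 1094726, 1194825⟩ ⟨1176397, 1409446, 1066333, 1067140, 1147147, 960200, 917779, 773060⟩ ⟨2250000, 410535, ⟨true, 0⟩⟩ 1050683 2))))
    ⟨12288, 14336, 12288, 18432⟩ = true := by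
  decide +kernel

lemma okA84 : Tree.check LeafA.ok
    (.leaf (.lam ⟨.flat, 1404225, (-1201767), 421585, none, ⟨true, 0⟩, ⟨true, 0⟩, ⟨true, 0⟩, 1028320, 1094727⟩ ⟨1044914, 1177398, 1026700, 1017729, 1067503, 989077, 959996, 884723⟩ ⟨1491851, 571013, ⟨true, 0⟩⟩ 1021013 2))
    ⟨14336, 15360, 12288, 15360⟩ = true := by
  decide +kernel

lemma okA85 : Tree.check LeafA.ok
    (.sS
      (.leaf (.lam ⟨.flat, 1822600, (-1677784), 302173, none, ⟨true, 0⟩, ⟨true, 0⟩, ⟨true, 0⟩, 1014892, 1039673⟩ ⟨1015903, 1054192, 1008649, 1006331, 1021334, 996064, 986894, 961192⟩ ⟨1190963, 670401, ⟨true, 0⟩⟩ 1007377 2))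
      (.leaf (.start 1000000 1000000 1000000 1000000 none)))
    ⟨15360, 16384, 12288, 13824⟩ = true := by
  decide +kernel

lemma okA86 : Tree.check LeafA.ok
    (.sS
      (.leaf (.lam ⟨.flat, 1822600, (-1677784), 302173, none, ⟨true, 0⟩, ⟨true, 0⟩, ⟨true, 0⟩, 1020660, 1051026⟩ ⟨1018481, 1059770, 1009641, 1007351, 1023492, 995433, 985592, 957395⟩ ⟨1350769, 618147, ⟨true, 0⟩⟩ 1007918 2))
      (.leaf (.start 1000000 1000000 1000000 1000000 none)))
    ⟨15360, 16384, 13824, 15360⟩ = true := by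
  decide +kernel

lemma okA87 : Tree.check LeafA.ok
    (.leaf (.lam ⟨.flat, 1404225, (-1201767), 421585, none, ⟨true, 0⟩, ⟨true, 0⟩, ⟨true, 0⟩, 1051025, 1116700⟩ ⟨1058769, 1192312, 1030007, 1023105, 1072891, 985825, 956980, 876410⟩ ⟨2090629, 441356, ⟨true, 0⟩⟩ 1021491 2))
    ⟨14336, 15360, 15360, 16896⟩ = true := by
  decide +kernel

lemma okA88 : Tree.check LeafA.ok
    (.leaf (.lam ⟨.flat, 1328377, (-1102700), 454469, none, ⟨true, 0⟩, ⟨true, 0⟩, ⟨true, 0⟩, 1090545, 1127686⟩ ⟨1118679, 1196655, 1037279, 1045880, 1074453, 972353, 956110, 874023⟩ ⟨1899276, 475390, ⟨true, 0⟩⟩ 1030868 2))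
    ⟨14336, 14848, 16896, 17664⟩ = true := by
  decide +kernel

lemma okA89 : Tree.check LeafA.ok
    (.leaf (.rel ⟨.flat, 1299605, (-1065120), 469660, none, ⟨true, 0⟩, ⟨true, 0⟩, ⟨true, 0⟩, 1113567, 1138672⟩ ⟨1155837, 1198747, 1041648, 1059640, 1075204, 964442, 955693, 872879⟩ 776124 728160 1102873))
    ⟨14336, 14592, 17664, 18432⟩ = true := by
  decide +kernel

lemma okA90 : Tree.check LeafA.ok
    (.leaf (.rel ⟨.flat, 1358705, (-1139627), 439031, none, ⟨true, 0⟩, ⟨true, 0⟩, ⟨true, 0⟩, 1098922, 1118414⟩ ⟨1120216, 1157512, 1033041, 1046455, 1060254, 972019, 964093, 896098⟩ 819827 774160 1079733))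
    ⟨14592, 14848, 17664, 18048⟩ = true := by
  decide +kernel

lemma okA91 : Tree.check LeafA.ok
    (.sR
      (.leaf (.rel ⟨.flat, 1342160, (-1118769), 446988, none, ⟨true, 0⟩, ⟨true, 0⟩, ⟨true, 0⟩, 1110829, 1120838⟩ ⟨1137923, 1163454, 1035713, 1053040, 1062428, 968215, 962860, 892664⟩ 797632 767254 1091242))
      (.leaf (.rel ⟨.chord, 1342160, (-1118769), 446988, none, ⟨true, 0⟩, ⟨true, 0⟩, ⟨true, 0⟩, 1000000, 1123261⟩ ⟨1138024, 1163489, 1035728, 1053078, 1062441, 968194, 962852, 892643⟩ 797508 767214 1091305)))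
    ⟨14592, 14720, 18048, 18432⟩ = true := by
  decide +kernel

lemma okA92 : Tree.check LeafA.ok
    (.leaf (.rel ⟨.chord, 1366779, (-1149269), 435078, none, ⟨true, 0⟩, ⟨true, 0⟩, ⟨true, 0⟩, 1000000, 1113090⟩ ⟨1127761, 1144653, 1032438, 1049268, 1055527, 970389, 966789, 903638⟩ 810253 789443 1084660))
    ⟨14720, 14784, 18048, 18240⟩ = true := by
  decide +kernel

lemma okA93 : Tree.check LeafA.ok
    (.leaf (.rel ⟨.chord, 1384710, (-1171291), 426899, none, ⟨true, 0⟩, ⟨true, 0⟩, ⟨true, 0⟩, 1000000, 1108076⟩ ⟨1120093, 1141377, 1031193, 1046409, 1054318, 972046, 967482, 905582⟩ 819984 793413 1079650))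
    ⟨14784, 14848, 18048, 18144⟩ = true := by
  decide +kernel

lemma okA94 : Tree.check LeafA.ok
    (.sS
      (.sR
      (.leaf (.rel ⟨.chord, 1380084, (-1165609), 428965, none, ⟨true, 0⟩, ⟨true, 0⟩, ⟨true, 0⟩, 1000000, 1108621⟩ ⟨1125009, 1141377, 1031753, 1048244, 1054318, 970982, 967482, 905582⟩ 813724 793413 1082842))
      .outT)
      .outT)
    ⟨14784, 14848, 18144, 18240⟩ = true := by
  decide +kernel

lemma okA95 : Tree.check LeafA.ok
    .outT
    ⟨14720, 14848, 18240, 18432⟩ = true := by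
  decide +kernel

lemma okA96 : Tree.check LeafA.ok
    (.sS
      (.leaf (.rel ⟨.flat, 1436392, (-1234219), 405498, none, ⟨true, 0⟩, ⟨true, 0⟩, ⟨true, 0⟩, 1076713, 1098923⟩ ⟨1088100, 1121217, 1025196, 1034350, 1046829, 979113, 971802, 917767⟩ 862640 818546 1058725))
      (.leaf (.rel ⟨.flat, 1543007, (-1359670), 368266, none, ⟨true, 0⟩, ⟨true, 0⟩, ⟨true, 0⟩, 1062377, 1083752⟩ ⟨1061458, 1095257, 1019038, 1024144, 1037066, 985200, 977510, 934034⟩ 900887 852800 1041134)))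
    ⟨14848, 15360, 16896, 17664⟩ = true := by
  decide +kernel

lemma okA97 : Tree.check LeafA.ok
    (.leaf (.rel ⟨.flat, 1414259, (-1207270), 414246, none, ⟨true, 0⟩, ⟨true, 0⟩, ⟨true, 0⟩, 1091403, 1101017⟩ ⟨1103985, 1126975, 1027697, 1040363, 1048976, 975572, 970558, 914248⟩ 841036 811242 1069127))
    ⟨14848, 14976, 17664, 17856⟩ = true := by
  decide +kernel

lemma okA98 : Tree.check LeafA.ok
    (.leaf (.rel ⟨.chord, 1403963, (-1194733), 418525, none, ⟨true, 0⟩, ⟨true, 0⟩, ⟨true, 0⟩, 1000000, 1103112⟩ ⟨1110606, 1132668, 1029113, 1042855, 1051092, 974115, 969337, 910800⟩ 832281 804120 1073478))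
    ⟨14848, 14912, 17856, 18048⟩ = true := by
  decide +kernel

lemma okA99 : Tree.check LeafA.ok
    (.leaf (.rel ⟨.flat, 1424689, (-1219753), 409942, none, ⟨true, 0⟩, ⟨true, 0⟩, ⟨true, 0⟩, 1093330, 1098196⟩ ⟨1104056, 1120156, 1026919, 1040390, 1046432, 975557, 972032, 918419⟩ 840942 819904 1069170))
    ⟨14912, 14976, 17856, 17952⟩ = true := by
  decide +kernel

lemma okA100 : Tree.check LeafA.ok
    (.sR
      (.leaf (.rel ⟨.chord, 1419327, (-1213280), 412111, none, ⟨true, 0⟩, ⟨true, 0⟩, ⟨true, 0⟩, 1000000, 1098699⟩ ⟨1107940, 1124254, 1027839, 1041853, 1047962, 974700, 971145, 915907⟩ 835789 814681 1071713))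
      (.sS
      (.leaf (.rel ⟨.chord, 1416693, (-1210101), 413190, none, ⟨true, 0⟩, ⟨true, 0⟩, ⟨true, 0⟩, 1000000, 1099202⟩ ⟨1110249, 1124254, 1028105, 1042721, 1047962, 974193, 971145, 915907⟩ 832750 814681 1073217))
      .outT))
    ⟨14912, 14944, 17952, 18048⟩ = true := by
  decide +kernel

lemma okA101 : Tree.check LeafA.ok
    (.sR
      (.leaf (.rel ⟨.chord, 1430086, (-1226212), 407766, none, ⟨true, 0⟩, ⟨true, 0⟩, ⟨true, 0⟩, 1000000, 1096742⟩ ⟨1104326, 1120156, 1026951, 1040492, 1046432, 975497, 972032, 918419⟩ 840582 819904 1069343))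
      .outT)
    ⟨14944, 14976, 17952, 18048⟩ = true := by
  decide +kernel

lemma okA102 : Tree.check LeafA.ok
    (.leaf (.rel ⟨.chord, 1459099, (-1260938), 396633, none, ⟨true, 0⟩, ⟨true, 0⟩, ⟨true, 0⟩, 1000000, 1093331⟩ ⟨1087937, 1110577, 1023940, 1034288, 1042844, 979150, 974121, 924354⟩ 862867 832320 1058611))
    ⟨14976, 15104, 17664, 17856⟩ = true := by
  decide +kernel

lemma okA103 : Tree.check LeafA.ok
    (.sS
      (.sR
      (.leaf (.rel ⟨.chord, 1447063, (-1246532), 401137, none, ⟨true, 0⟩, ⟨true, 0⟩, ⟨true, 0⟩, 1000000, 1094295⟩ ⟨1096371, 1110582, 1024921, 1037487, 1042846, 977262, 974120, 924351⟩ 851284 832313 1064135))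
      .outT)
      .outT)
    ⟨14976, 15104, 17856, 18048⟩ = true := by
  decide +kernel

lemma okA104 : Tree.check LeafA.ok
    (.sS
      (.sR
      (.leaf (.rel ⟨.chord, 1398989, (-1188677), 420641, none, ⟨true, 0⟩, ⟨true, 0⟩, ⟨true, 0⟩, 1000000, 1103635⟩ ⟨1116319, 1132669, 1029767, 1044997, 1051093, 972866, 969336, 910799⟩ 824842 804118 1077182))
      .outT)
      .outT)
    ⟨14848, 14912, 18048, 18144⟩ = true := by
  decide +kernel

lemma okA105 : Tree.check LeafA.ok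
    .outT
    ⟨14848, 14912, 18144, 18240⟩ = true := by
  decide +kernel

lemma okA106 : Tree.check LeafA.ok
    .outT
    ⟨14912, 14976, 18048, 18240⟩ = true := by
  decide +kernel

lemma okA107 : Tree.check LeafA.ok
    .outT
    ⟨14848, 14976, 18240, 18432⟩ = true := by
  decide +kernel

lemma okA108 : Tree.check LeafA.ok
    .outT
    ⟨14976, 15104, 18048, 18432⟩ = true := by
  decide +kernel

end Vale.Agent.P237.Five.Cert
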