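import Vale.Agent.P237.Five.CertExpr

/-!
# P237, `n = 5`: leaves of the certificate for the first derivative, part 5
-/

namespace Vale.Agent.P237.Five.Cert

lemma okA109 : Tree.check LeafA.ok
    (.sS
      (.sR
      (.leaf (.rel ⟨.chord, 1511875, (-1323038), 378039, none, ⟨true, 0⟩, ⟨true, 0⟩, ⟨true, 0⟩, 1000000, 1085512⟩ ⟨1074983, 1095269, 1020634, 1029344, 1037070, 982087, 977507, 934026⟩ 881145 852784 1050064))
      .outT)
      .outT)
    ⟨15104, 15360, 17664, 18048⟩ = true := by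
  decide +kernel

lemma okA110 : Tree.check LeafA.ok
    .outT
    ⟨15104, 15360, 18048, 18432⟩ = true := by
  decide +kernel

lemma okA111 : Tree.check LeafA.ok
    (.leaf (.lam ⟨.flat, 1822600, (-1677784), 302173, none, ⟨true, 0⟩, ⟨true, 0⟩, ⟨true, 0⟩, 1026428, 1062378⟩ ⟨1020059, 1062459, 1010158, 1007975, 1024530, 995048, 984968, 955577⟩ ⟨2250000, 418458, ⟨true, 0⟩⟩ 1007114 2))
    ⟨15360, 15872, 15360, 16896⟩ = true := by
  decide +kernel

lemma okA112 : Tree.check LeafA.ok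
    (.sR
      (.leaf (.start 1000000 1000000 1000000 1000000 none))
      (.sS
      (.leaf (.start 1007067 1002820 998242 994732 (some ⟨.flat, 2460781, (-2357802), 215092, none, ⟨true, 0⟩, ⟨true, 0⟩, ⟨true, 0⟩, 1014896, 1032197⟩)))
      (.leaf (.start 1000000 1000000 1000000 1000000 none))))
    ⟨15872, 16384, 15360, 16896⟩ = true := by
  decide +kernel

lemma okA113 : Tree.check LeafA.ok
    (.sR
      (.leaf (.rel ⟨.flat, 1822600, (-1677784), 302173, none, ⟨true, 0⟩, ⟨true, 0⟩, ⟨true, 0⟩, 1032196, 1068055⟩ ⟨1020471, 1062657, 1010232, 1008138, 1024606, 994947, 984922, 955443⟩ 965159 899109 1013809))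
      .outT)
    ⟨15360, 15872, 16896, 18432⟩ = true := by
  decide +kernel

lemma okA114 : Tree.check LeafA.ok
    (.sR
      (.sS
      (.leaf (.lam ⟨.flat, 2460781, (-2357802), 215092, none, ⟨true, 0⟩, ⟨true, 0⟩, ⟨true, 0⟩, 1016349, 1035080⟩ ⟨1007006, 1021601, 1003556, 1002796, 1008585, 998257, 994672, 984099⟩ ⟨2250000, 419984, ⟨true, 0⟩⟩ 1002490 2))
      .outT)
      .outT)
    ⟨15872, 16384, 16896, 18432⟩ = true := by
  decide +kernel

lemma okA115 : Tree.check LeafA.ok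
    (.leaf (.lam ⟨.chord, 1113463, (-803601), 623435, none, ⟨true, 0⟩, ⟨true, 0⟩, ⟨true, 0⟩, 1000000, 1324219⟩ ⟨1355390, 1765153, 1117635, 1129342, 1255200, 926796, 867570, 653000⟩ ⟨2250000, 402081, ⟨true, 0⟩⟩ 1092787 2))
    ⟨12288, 13312, 18432, 21504⟩ = true := by
  decide +kernel

lemma okA116 : Tree.check LeafA.ok
    (.leaf (.rel ⟨.flat, 1172546, (-893099), 560325, none, ⟨true, 0⟩, ⟨true, 0⟩, ⟨true, 0⟩, 1167846, 1226685⟩ ⟨1293770, 1421155, 1079398, 1108518, 1150950, 937640, 915883, 768278⟩ 637163 540602 1190746))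
    ⟨13312, 13824, 18432, 19968⟩ = true := by
  decide +kernel

lemma okA117 : Tree.check LeafA.ok
    (.leaf (.rel ⟨.chord, 1234103, (-979567), 511107, none, ⟨true, 0⟩, ⟨true, 0⟩, ⟨true, 0⟩, 1000000, 1181351⟩ ⟨1192603, 1297493, 1056322, 1072996, 1109793, 956921, 936966, 822566⟩ 734738 633967 1126604))
    ⟨13824, 14336, 18432, 19200⟩ = true := by
  decide +kernel

lemma okA118 : Tree.check LeafA.ok
    (.sS
      (.sR
      (.leaf (.lam ⟨.chord, 1215990, (-954124), 524194, none, ⟨true, 0⟩, ⟨true, 0⟩, ⟨true, 0⟩, 1000000, 1188103⟩ ⟨1247469, 1297634, 1062108, 1092475, 1109841, 946221, 936941, 822499⟩ ⟨2250000, 410956, ⟨true, 0⟩⟩ 1053933 2))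
      .outT)
      .outT)
    ⟨13824, 14336, 19200, 19968⟩ = true := by
  decide +kernel

lemma okA119 : Tree.check LeafA.ok
    (.sS
      (.sR
      (.leaf (.lam ⟨.chord, 1172546, (-893099), 560325, none, ⟨true, 0⟩, ⟨true, 0⟩, ⟨true, 0⟩, 1000000, 1242615⟩ ⟨1311803, 1421155, 1081186, 1114672, 1150950, 934401, 915883, 768278⟩ ⟨2250000, 407487, ⟨true, 0⟩⟩ 1069007 2))
      .outT)
      .outT)
    ⟨13312, 14336, 19968, 21504⟩ = true := by
  decide +kernel

lemma okA120 : Tree.check LeafA.ok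
    (.sS
      (.sR
      (.leaf (.lam ⟨.chord, 1113463, (-803601), 623435, none, ⟨true, 0⟩, ⟨true, 0⟩, ⟨true, 0⟩, 1000000, 1365235⟩ ⟨1473417, 1765153, 1128056, 1167697, 1255200, 907651, 867570, 653000⟩ ⟨2250000, 399279, ⟨true, 0⟩⟩ 1105864 2))
      .outT)
      .outT)
    ⟨12288, 14336, 21504, 24576⟩ = true := by
  decide +kernel

lemma okA121 : Tree.check LeafA.ok
    (.sS
      (.leaf (.rel ⟨.chord, 1286792, (-1048385), 476978, none, ⟨true, 0⟩, ⟨true, 0⟩, ⟨true, 0⟩, 1000000, 1144166⟩ ⟨1174615, 1204891, 1044393, 1066493, 1077405, 960564, 954472, 869539⟩ 754541 721675 1114987))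
      (.sR
      (.leaf (.rel ⟨.chord, 1312763, (-1081708), 462292, none, ⟨true, 0⟩, ⟨true, 0⟩, ⟨true, 0⟩, 1000000, 1133621⟩ ⟨1157229, 1183561, 1040119, 1060150, 1069735, 964152, 958744, 881266⟩ 774491 744589 1103729))
      .outT))
    ⟨14336, 14592, 18432, 18816⟩ = true := by
  decide +kernel

lemma okA122 : Tree.check LeafA.ok
    .outT
    ⟨14336, 14592, 18816, 19200⟩ = true := by
  decide +kernel

lemma okA123 : Tree.check LeafA.ok
    .outT
    ⟨14592, 14848, 18432, 19200⟩ = true := by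
  decide +kernel

lemma okA124 : Tree.check LeafA.ok
    .outT
    ⟨14336, 14848, 19200, 19968⟩ = true := by
  decide +kernel

lemma okA125 : Tree.check LeafA.ok
    .outT
    ⟨14848, 15360, 18432, 19968⟩ = true := by
  decide +kernel

lemma okA126 : Tree.check LeafA.ok
    .outT
    ⟨14336, 15360, 19968, 21504⟩ = true := by
  decide +kernel

lemma okA127 : Tree.check LeafA.ok
    .outT
    ⟨15360, 16384, 18432, 21504⟩ = true := by
  decide +kernel

lemma okA128 : Tree.check LeafA.ok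
    .outT
    ⟨14336, 16384, 21504, 24576⟩ = true := by
  decide +kernel

lemma okA129 : Tree.check LeafA.ok
    (.sS
      (.sR
      (.leaf (.lam ⟨.flat, 1000000, (-500490), 999022, (some 1003922), ⟨true, 0⟩, ⟨true, 0⟩, ⟨true, 0⟩, 1500000, 1650025⟩ ⟨9492187, 18763939, 1938744, 2460064, 3230945, 569717, 480474, 110919⟩ ⟨2062507, 400752, ⟨true, 0⟩⟩ 1948471 13570222))
      (.leaf (.lam ⟨.flat, 1000000, (-500490), 999022, (some 1003922), ⟨true, 0⟩, ⟨true, 0⟩, ⟨true, 0⟩, 1593750, 1743409⟩ ⟨12097122, 21558836, 2025386, 2710646, 3415467, 536204, 464081, 99949⟩ ⟨2107521, 387215, ⟨true, 0⟩⟩ 2040894 9937188)))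
      (.leaf (.lam ⟨.flat, 1000007, (-502462), 995105, (some 1015874), ⟨true, 0⟩, ⟨true, 0⟩, ⟨true, 0⟩, 1556640, 1786133⟩ ⟨10172187, 15923208, 1900568, 2529098, 3025604, 559947, 500602, 125451⟩ ⟨1960082, 399829, ⟨true, 0⟩⟩ 1908625 6549869)))
    ⟨0, 2048, 24576, 27648⟩ = true := by
  decide +kernel

lemma okA130 : Tree.check LeafA.ok
    (.leaf (.lam ⟨.flat, 1000000, (-501969), 996086, (some 1015874), ⟨true, 0⟩, ⟨true, 0⟩, ⟨true, 0⟩, 1687500, 1970704⟩ ⟨15204648, 27050362, 2143937, 2970233, 3739979, 506415, 438488, 84308⟩ ⟨2250000, 354358, ⟨true, 0⟩⟩ 2148848 7379530))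
    ⟨0, 2048, 27648, 30720⟩ = true := by
  decide +kernel

lemma okA131 : Tree.check LeafA.ok
    (.leaf (.lam ⟨.flat, 1000127, (-510100), 980274, (some 1066667), ⟨true, 0⟩, ⟨true, 0⟩, ⟨true, 0⟩, 1601562, 2007813⟩ ⟨9745008, 22887708, 2009813, 2486067, 3498170, 565985, 457193, 95564⟩ ⟨2250000, 351536, ⟨true, 0⟩⟩ 1964676 2))
    ⟨2048, 4096, 24576, 30720⟩ = true := by
  decide +kernel

lemma okA132 : Tree.check LeafA.ok
    (.leaf (.lam ⟨.flat, 1000000, (-508067), 984250, (some 1066667), ⟨true, 0⟩, ⟨true, 0⟩, ⟨true, 0⟩, 1875000, 2375000⟩ ⟨18833310, 48055189, 2404807, 3235717, 4706478, 480030, 379809, 54789⟩ ⟨2375000, 315789, ⟨true, 0⟩⟩ 2352908 4040548))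
    ⟨0, 4096, 30720, 36864⟩ = true := by
  decide +kernel

lemma okA133 : Tree.check LeafA.ok
    (.leaf (.lam ⟨.flat, 1002319, (-545176), 918558, (some 1333334), ⟨true, 0⟩, ⟨true, 0⟩, ⟨true, 0⟩, 1625000, 2359375⟩ ⟨5282526, 18834311, 1863470, 1945972, 3235786, 659614, 480024, 110608⟩ ⟨2359375, 317880, ⟨true, 0⟩⟩ 1735947 2))
    ⟨4096, 8192, 24576, 36864⟩ = true := by
  decide +kernel

lemma okA134 : Tree.check LeafA.ok
    (.sS
      (.sR
      (.leaf (.lam ⟨.flat, 1000000, (-508067), 984250, (some 1066667), ⟨true, 0⟩, ⟨true, 0⟩, ⟨true, 0⟩, 2250000, 2750000⟩ ⟨31691297, 48055189, 2512872, 3984519, 4706478, 421469, 379809, 54789⟩ ⟨2750000, 272727, ⟨true, 0⟩⟩ 2458544 2))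
      .outY)
      (.leaf (.start 9165079 2425797 574733 189844 (some ⟨.chord, 1002319, (-545176), 918558, (some 1333334), ⟨true, 0⟩, ⟨true, 0⟩, ⟨true, 0⟩, 1000000, 3062500⟩))))
    ⟨0, 8192, 36864, 49152⟩ = true := by
  decide +kernel

lemma okA135 : Tree.check LeafA.ok
    (.sS
      (.leaf (.lam ⟨.chord, 1017848, (-607294), 824431, (some 1641026), ⟨true, 0⟩, ⟨true, 0⟩, ⟨true, 0⟩, 1000000, 1906250⟩ ⟨2845440, 6789407, 1481506, 1519356, 2151457, 769951, 619502, 237753⟩ ⟨2250000, 359267, ⟨true, 0⟩⟩ 1394371 2))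
      (.leaf (.lam ⟨.chord, 1051504, (-693452), 723489, none, ⟨true, 0⟩, ⟨true, 0⟩, ⟨true, 0⟩, 1000000, 1767579⟩ ⟨1968141, 3100570, 1261731, 1311059, 1572449, 844279, 753598, 427975⟩ ⟨2250000, 369821, ⟨true, 0⟩⟩ 1210263 2)))
    ⟨8192, 12288, 24576, 30720⟩ = true := by
  decide +kernel

lemma okA136 : Tree.check LeafA.ok
    (.sS
      (.leaf (.lam ⟨.chord, 1017848, (-607294), 824431, (some 1641026), ⟨true, 0⟩, ⟨true, 0⟩, ⟨true, 0⟩, 1000000, 2187500⟩ ⟨4108553, 6789407, 1527843, 1759849, 2151457, 702390, 619502, 237753⟩ ⟨2250000, 337983, ⟨true, 0⟩⟩ 1452246 2))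
      .outT)
    ⟨8192, 12288, 30720, 36864⟩ = true := by
  decide +kernel

lemma okA137 : Tree.check LeafA.ok
    .outT
    ⟨12288, 16384, 24576, 36864⟩ = true := by
  decide +kernel

lemma okA138 : Tree.check LeafA.ok
    .outT
    ⟨8192, 16384, 36864, 49152⟩ = true := by
  decide +kernel

end Vale.Agent.P237.Five.Cert
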