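import Vale.Agent.P237.Five.CertExpr

/-!
# P237, `n = 5`: leaves of the certificate for the second derivative, part 1
-/

namespace Vale.Agent.P237.Five.Cert

lemma okB0 : Tree.check LeafB.ok
    (.leaf (.start 1000000 1000000 1000000 none))
    ⟨0, 4096, 0, 6144⟩ = true := by
  decide +kernel

lemma okB1 : Tree.check LeafB.ok
    (.sR
      (.leaf (.start 1000000 1000000 1000000 none))
      (.leaf (.start 1049272 1016161 1042564 (some ⟨(.node 337178 941440), 1000000, (-501969), 996086, (some 1015874), ⟨false, 77737⟩, ⟨true, 0⟩, ⟨true, 0⟩, 562500, 1000000⟩))))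
    ⟨0, 2048, 6144, 12288⟩ = true := by
  decide +kernel

lemma okB2 : Tree.check LeafB.ok
    (.sR
      (.leaf (.start 1000000 1000000 1000000 none))
      (.leaf (.weight ⟨(.node 236009 971750), 1000127, (-510100), 980274, (some 1066667), ⟨true, 75464⟩, ⟨true, 0⟩, ⟨true, 0⟩, 678710, 1000000⟩ 1076436 1339420 1024855 1102314 1065916 1288233 1103192 1476463 2)))
    ⟨2048, 4096, 6144, 12288⟩ = true := by
  decide +kernel

lemma okB3 : Tree.check LeafB.ok
    (.leaf (.start 1000000 1000000 1000000 none))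
    ⟨4096, 8192, 0, 6144⟩ = true := by
  decide +kernel

lemma okB4 : Tree.check LeafB.ok
    (.sR
      (.leaf (.start 1000000 1000000 1000000 none))
      (.leaf (.weight ⟨(.node 133259 991081), 1001222, (-527630), 947859, (some 1163637), ⟨true, 0⟩, ⟨true, 0⟩, ⟨true, 0⟩, 777343, 1019532⟩ 1096268 1384481 1031111 1114540 1082915 1325710 1130375 1543060 2)))
    ⟨4096, 6144, 6144, 12288⟩ = true := by
  decide +kernel

lemma okB5 : Tree.check LeafB.ok
    (.sR
      (.leaf (.weight ⟨.circ, 1005452, (-557709), 897043, (some 1333334), ⟨true, 0⟩, ⟨true, 0⟩, ⟨true, 0⟩, 375000, 1000000⟩ 1007631 1130166 1002537 1041631 1006610 1111876 1010188 1177217 2))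
      (.leaf (.weight ⟨(.node 54126 998534), 1005452, (-557709), 897043, (some 1333334), ⟨true, 0⟩, ⟨true, 0⟩, ⟨true, 0⟩, 858398, 1062500⟩ 1109840 1411855 1035349 1121837 1094524 1348397 1149072 1583873 2)))
    ⟨6144, 8192, 6144, 12288⟩ = true := by
  decide +kernel

lemma okB6 : Tree.check LeafB.ok
    (.leaf (.weight ⟨.chord, 1000000, (-501969), 996086, (some 1015874), ⟨true, 0⟩, ⟨true, 0⟩, ⟨true, 0⟩, 750000, 1047852⟩ 1160504 1776253 1050869 1211067 1137698 1645271 1219539 2151162 2))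
    ⟨0, 2048, 12288, 15360⟩ = true := by
  decide +kernel

lemma okB7 : Tree.check LeafB.ok
    (.leaf (.weight ⟨(.node 24219 999706), 1000000, (-500123), 999755, (some 1000978), ⟨true, 0⟩, ⟨true, 0⟩, ⟨true, 0⟩, 937500, 1014664⟩ 1548009 1733107 1156798 1201181 1460395 1610578 1790735 2081776 2))
    ⟨0, 512, 15360, 16128⟩ = true := by
  decide +kernel

lemma okB8 : Tree.check LeafB.ok
    (.sS
      (.sR
      (.leaf (.weight ⟨(.node 24804 999692), 1000000, (-500008), 999984, (some 1000062), ⟨true, 0⟩, ⟨true, 0⟩, ⟨true, 0⟩, 984375, 1003846⟩ 1658483 1708264 1183687 1195413 1550301 1590551 1963126 2042083 2))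
      (.leaf (.weight ⟨.flat, 1000000, (-500008), 999984, (some 1000062), ⟨true, 0⟩, ⟨true, 0⟩, ⟨true, 0⟩, 996093, 1015564⟩ 1677835 1768630 1188273 1209332 1565967 1639150 1993727 2138862 2)))
      (.leaf (.weight ⟨.flat, 1000000, (-500039), 999923, (some 1000245), ⟨true, 0⟩, ⟨true, 0⟩, ⟨true, 0⟩, 992127, 1023192⟩ 1648285 1797941 1181256 1215976 1542036 1662667 1947047 2186254 2)))
    ⟨0, 256, 16128, 16512⟩ = true := by
  decide +kernel

lemma okB9 : Tree.check LeafB.ok
    (.leaf (.weight ⟨.flat, 1000000, (-500031), 999938, (some 1000245), ⟨true, 0⟩, ⟨true, 0⟩, ⟨true, 0⟩, 1007812, 1046624⟩ 1737752 1923709 1202253 1243692 1614319 1763007 2089218 2392504 2))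
    ⟨0, 256, 16512, 16896⟩ = true := by
  decide +kernel

lemma okB10 : Tree.check LeafB.ok
    (.leaf (.weight ⟨.flat, 1000000, (-500153), 999694, (some 1000978), ⟨true, 0⟩, ⟨true, 0⟩, ⟨true, 0⟩, 999759, 1061493⟩ 1676758 1981939 1188019 1256117 1565096 1809165 1992021 2489548 2))
    ⟨256, 512, 16128, 16896⟩ = true := by
  decide +kernel

lemma okB11 : Tree.check LeafB.ok
    (.leaf (.weight ⟨.flat, 1000000, (-500612), 998778, (some 1003922), ⟨true, 0⟩, ⟨true, 0⟩, ⟨true, 0⟩, 967834, 1089722⟩ 1504870 2089694 1145951 1278480 1425057 1894109 1724509 2671634 2))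
    ⟨512, 1024, 15360, 16896⟩ = true := by
  decide +kernel

lemma okB12 : Tree.check LeafB.ok
    (.leaf (.weight ⟨.flat, 1000000, (-500490), 999022, (some 1003922), ⟨true, 0⟩, ⟨true, 0⟩, ⟨true, 0⟩, 1031250, 1183106⟩ 1861832 2661667 1230212 1385855 1713753 2335966 2290450 3688686 2))
    ⟨0, 1024, 16896, 18432⟩ = true := by
  decide +kernel

lemma okB13 : Tree.check LeafB.ok
    (.leaf (.weight ⟨.flat, 1000007, (-502462), 995105, (some 1015874), ⟨true, 0⟩, ⟨true, 0⟩, ⟨true, 0⟩, 996337, 1232422⟩ 1603785 2833858 1170528 1415118 1505890 2466385 1877277 4010244 2))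
    ⟨1024, 2048, 15360, 18432⟩ = true := by
  decide +kernel

lemma okB14 : Tree.check LeafB.ok
    (.sS
      (.sR
      (.leaf (.weight ⟨(.node 82686 996575), 1000070, (-506478), 987223, (some 1036438), ⟨true, 0⟩, ⟨true, 0⟩, ⟨true, 0⟩, 863281, 1001587⟩ 1289940 1492937 1088570 1142914 1246886 1415259 1404191 1706300 2))
      (.leaf (.weight ⟨.flat, 1000070, (-506478), 987223, (some 1036438), ⟨true, 0⟩, ⟨true, 0⟩, ⟨true, 0⟩, 955566, 1092042⟩ 1359220 1906130 1107719 1239892 1304721 1749036 1505635 2363398 2)))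
      (.leaf (.weight ⟨.flat, 1000288, (-512687), 975280, (some 1066667), ⟨true, 0⟩, ⟨true, 0⟩, ⟨true, 0⟩, 911132, 1128907⟩ 1139750 1989500 1044567 1257712 1120043 1815145 1190546 2502219 2)))
    ⟨2048, 4096, 12288, 15360⟩ = true := by
  decide +kernel

lemma okB15 : Tree.check LeafB.ok
    (.leaf (.weight ⟨.flat, 1000127, (-510100), 980274, (some 1066667), ⟨true, 0⟩, ⟨true, 0⟩, ⟨true, 0⟩, 1047851, 1304688⟩ 1775251 2942237 1210839 1432932 1644466 2547928 2149545 4216029 2))
    ⟨2048, 4096, 15360, 18432⟩ = true := by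
  decide +kernel

lemma okB16 : Tree.check LeafB.ok
    (.leaf (.weight ⟨.flat, 1000000, (-508067), 984250, (some 1066667), ⟨true, 0⟩, ⟨true, 0⟩, ⟨true, 0⟩, 1125000, 1656250⟩ 2417165 5974710 1342050 1814563 2148813 4707690 3243957 10841494 2))
    ⟨0, 4096, 18432, 24576⟩ = true := by
  decide +kernel

lemma okB17 : Tree.check LeafB.ok
    (.leaf (.weight ⟨.flat, 1002319, (-545176), 918558, (some 1333334), ⟨true, 0⟩, ⟨true, 0⟩, ⟨true, 0⟩, 953125, 1687500⟩ 1246745 5493103 1076281 1764436 1210618 4376988 1341849 9692229 2))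
    ⟨4096, 8192, 12288, 24576⟩ = true := by
  decide +kernel

lemma okB18 : Tree.check LeafB.ok
    (.leaf (.start 1000000 1000000 1000000 none))
    ⟨8192, 12288, 0, 6144⟩ = true := by
  decide +kernel

lemma okB19 : Tree.check LeafB.ok
    (.sR
      (.leaf (.weight ⟨(.node 227783 973711), 1017848, (-607294), 824431, (some 1641026), ⟨false, 62423⟩, ⟨true, 0⟩, ⟨true, 0⟩, 781250, 1000000⟩ 1016805 1126295 1005570 1040440 1014548 1108575 1022470 1171844 2))
      (.leaf (.weight ⟨(.node 10367 999946), 1017848, (-607294), 824431, (some 1641026), ⟨true, 0⟩, ⟨true, 0⟩, ⟨true, 0⟩, 921875, 1082032⟩ 1103860 1411855 1033486 1121837 1089411 1348397 1140825 1583873 2)))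
    ⟨8192, 10240, 6144, 12288⟩ = true := by
  decide +kernel

lemma okB20 : Tree.check LeafB.ok
    (.sR
      (.leaf (.weight ⟨(.node 152957 988232), 1051504, (-693452), 723489, none, ⟨true, 38197⟩, ⟨true, 28109⟩, ⟨true, 27511⟩, 853515, 1000000⟩ 1015421 1106884 1005114 1034429 1013351 1091997 1020614 1144993 62226350))
      (.leaf (.weight ⟨.chord, 1051504, (-693452), 723489, none, ⟨true, 0⟩, ⟨true, 0⟩, ⟨true, 0⟩, 967773, 1085938⟩ 1072370 1345138 1023563 1103881 1062426 1292998 1097640 1484873 28305530)))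
    ⟨10240, 12288, 6144, 12288⟩ = true := by
  decide +kernel

lemma okB21 : Tree.check LeafB.ok
    (.leaf (.start 1000000 1000000 1000000 none))
    ⟨12288, 14336, 0, 3072⟩ = true := by
  decide +kernel

lemma okB22 : Tree.check LeafB.ok
    (.sS
      (.leaf (.start 1000720 1000239 1000623 (some ⟨.circ, 1113463, (-803601), 623435, none, ⟨true, 0⟩, ⟨true, 0⟩, ⟨true, 0⟩, 750000, 1000000⟩)))
      (.sR
      (.leaf (.start 1000000 1000000 1000000 none))
      (.leaf (.weight ⟨(.node 219557 975599), 1201616, (-937134), 535825, none, ⟨false, 0⟩, ⟨false, 0⟩, ⟨false, 0⟩, 908081, 1000000⟩ 1003493 1015694 1001162 1005204 1003026 1013587 1004661 1020980 9181336))))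
    ⟨12288, 14336, 3072, 6144⟩ = true := by
  decide +kernel

lemma okB23 : Tree.check LeafB.ok
    (.leaf (.start 1000000 1000000 1000000 none))
    ⟨14336, 16384, 0, 3072⟩ = true := by
  decide +kernel

lemma okB24 : Tree.check LeafB.ok
    (.sR
      (.leaf (.start 1000000 1000000 1000000 none))
      (.leaf (.weight ⟨(.node 157952 987446), 1404225, (-1201767), 421585, none, ⟨false, 0⟩, ⟨false, 0⟩, ⟨false, 0⟩, 940917, 1000000⟩ 1001272 1014041 1000423 1004658 1001102 1012157 1001697 1018766 188558806)))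
    ⟨14336, 15360, 3072, 6144⟩ = true := by
  decide +kernel

lemma okB25 : Tree.check LeafB.ok
    (.sR
      (.leaf (.start 1000000 1000000 1000000 none))
      (.sS
      (.leaf (.weight ⟨.circ, 1822600, (-1677784), 302173, none, ⟨true, 0⟩, ⟨true, 0⟩, ⟨true, 0⟩, 937500, 1000000⟩ 1000273 1008575 1000090 1002850 1000236 1007427 1000365 1011450 389686543))
      (.leaf (.start 1000000 1000000 1000000 none))))
    ⟨15360, 16384, 3072, 6144⟩ = true := by
  decide +kernel

lemma okB26 : Tree.check LeafB.ok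
    (.sR
      (.leaf (.weight ⟨(.node 86045 996291), 1152463, (-872935), 579601, none, ⟨true, 8696⟩, ⟨true, 5508⟩, ⟨true, 5349⟩, 914062, 1006836⟩ 1008025 1073576 1002667 1023947 1006951 1063461 1010715 1099286 152891537))
      (.leaf (.weight ⟨.flat, 1152463, (-872935), 579601, none, ⟨true, 0⟩, ⟨true, 0⟩, ⟨true, 0⟩, 996093, 1078125⟩ 1035540 1220204 1011709 1068589 1030729 1188250 1047666 1303897 39192392)))
    ⟨12288, 14336, 6144, 12288⟩ = true := by
  decide +kernel

lemma okB27 : Tree.check LeafB.ok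
    (.leaf (.weight ⟨(.node 45231 998976), 1404225, (-1201767), 421585, none, ⟨true, 0⟩, ⟨true, 0⟩, ⟨true, 0⟩, 962890, 1007325⟩ 1003084 1044852 1001026 1014732 1002672 1038757 1004115 1060246 163741961))
    ⟨14336, 15360, 6144, 9216⟩ = true := by
  decide +kernel

lemma okB28 : Tree.check LeafB.ok
    (.leaf (.weight ⟨.circ, 1822600, (-1677784), 302173, none, ⟨true, 0⟩, ⟨true, 0⟩, ⟨true, 0⟩, 937500, 1000000⟩ 1000651 1016095 1000216 1005336 1000564 1013934 1000869 1021518 493130335))
    ⟨15360, 15872, 6144, 7680⟩ = true := by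
  decide +kernel

lemma okB29 : Tree.check LeafB.ok
    (.sS
      (.leaf (.start 1000480 1000159 1000415 (some ⟨(.node 46331 998926), 2460781, (-2357802), 215092, none, ⟨true, 146⟩, ⟨true, 104⟩, ⟨true, 104⟩, 991821, 1000000⟩)))
      (.leaf (.start 1000000 1000000 1000000 none)))
    ⟨15872, 16384, 6144, 6912⟩ = true := by
  decide +kernel

lemma okB30 : Tree.check LeafB.ok
    (.sS
      (.leaf (.weight ⟨.circ, 2460781, (-2357802), 215092, none, ⟨true, 0⟩, ⟨true, 0⟩, ⟨true, 0⟩, 968750, 1000000⟩ 1000339 1007617 1000112 1002532 1000293 1006598 1000453 1010169 76670173))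
      (.leaf (.start 1000000 1000000 1000000 none)))
    ⟨15872, 16384, 6912, 7680⟩ = true := by
  decide +kernel

lemma okB31 : Tree.check LeafB.ok
    (.leaf (.weight ⟨.circ, 1822600, (-1677784), 302173, none, ⟨true, 0⟩, ⟨true, 0⟩, ⟨true, 0⟩, 937500, 1000000⟩ 1001277 1023489 1000425 1007769 1001106 1020325 1001704 1031441 492424439))
    ⟨15360, 15872, 7680, 9216⟩ = true := by
  decide +kernel

lemma okB32 : Tree.check LeafB.ok
    (.sS
      (.leaf (.weight ⟨.circ, 2460781, (-2357802), 215092, none, ⟨true, 0⟩, ⟨true, 0⟩, ⟨true, 0⟩, 968750, 1000000⟩ 1000466 1008638 1000155 1002871 1000403 1007481 1000622 1011534 187629504))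
      (.leaf (.start 1000000 1000000 1000000 none)))
    ⟨15872, 16384, 7680, 8448⟩ = true := by
  decide +kernel

lemma okB33 : Tree.check LeafB.ok
    (.sS
      (.leaf (.weight ⟨.circ, 2460781, (-2357802), 215092, none, ⟨true, 0⟩, ⟨true, 0⟩, ⟨true, 0⟩, 968750, 1000000⟩ 1000622 1010392 1000207 1003452 1000539 1009000 1000830 1013880 247333527))
      (.leaf (.start 1000000 1000000 1000000 none)))
    ⟨15872, 16384, 8448, 9216⟩ = true := by
  decide +kernel

lemma okB34 : Tree.check LeafB.ok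
    (.leaf (.weight ⟨.flat, 1404225, (-1201767), 421585, none, ⟨true, 0⟩, ⟨true, 0⟩, ⟨true, 0⟩, 1005615, 1050782⟩ 1014356 1089593 1004762 1029014 1012430 1077198 1019187 1121207 61544664))
    ⟨14336, 15360, 9216, 12288⟩ = true := by
  decide +kernel

lemma okB35 : Tree.check LeafB.ok
    (.leaf (.weight ⟨.circ, 1822600, (-1677784), 302173, none, ⟨true, 0⟩, ⟨true, 0⟩, ⟨true, 0⟩, 937500, 1000000⟩ 1002214 1032378 1000737 1010678 1001918 1028001 1002954 1043402 436271590))
    ⟨15360, 15872, 9216, 10752⟩ = true := by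
  decide +kernel

end Vale.Agent.P237.Five.Cert
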