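import Vale.Agent.P237.Five.CertExpr

/-!
# P237, `n = 5`: leaves of the certificate for the second derivative, part 2
-/

namespace Vale.Agent.P237.Five.Cert

lemma okB36 : Tree.check LeafB.ok
    (.sS
      (.leaf (.weight ⟨.circ, 2460781, (-2357802), 215092, none, ⟨true, 0⟩, ⟨true, 0⟩, ⟨true, 0⟩, 968750, 1000000⟩ 1000808 1011988 1000269 1003980 1000700 1010381 1001078 1016016 277013254))
      (.leaf (.start 1000000 1000000 1000000 none)))
    ⟨15872, 16384, 9216, 9984⟩ = true := by
  decide +kernel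

lemma okB37 : Tree.check LeafB.ok
    (.leaf (.weight ⟨.circ, 2460781, (-2357802), 215092, none, ⟨true, 0⟩, ⟨true, 0⟩, ⟨true, 0⟩, 968750, 1000000⟩ 1001028 1013425 1000342 1004455 1000890 1011624 1001371 1017940 288666960))
    ⟨15872, 16128, 9984, 10752⟩ = true := by
  decide +kernel

lemma okB38 : Tree.check LeafB.ok
    (.sR
      (.leaf (.start 1000000 1000000 1000000 none))
      (.sS
      (.leaf (.start 1000413 1000137 1000357 (some ⟨.circ, 3397042, (-3324022), 152593, none, ⟨true, 0⟩, ⟨true, 0⟩, ⟨true, 0⟩, 984375, 1000000⟩)))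
      (.leaf (.start 1000000 1000000 1000000 none))))
    ⟨16128, 16384, 9984, 10752⟩ = true := by
  decide +kernel

lemma okB39 : Tree.check LeafB.ok
    (.leaf (.weight ⟨.circ, 1822600, (-1677784), 302173, none, ⟨true, 0⟩, ⟨true, 0⟩, ⟨true, 0⟩, 937500, 1000000⟩ 1003528 1043757 1001174 1014377 1003056 1037813 1004707 1058765 375188254))
    ⟨15360, 15872, 10752, 12288⟩ = true := by
  decide +kernel

lemma okB40 : Tree.check LeafB.ok
    (.leaf (.weight ⟨.circ, 2460781, (-2357802), 215092, none, ⟨true, 0⟩, ⟨true, 0⟩, ⟨true, 0⟩, 968750, 1000000⟩ 1001285 1014701 1000428 1004876 1001113 1012728 1001714 1019650 290663094))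
    ⟨15872, 16128, 10752, 11520⟩ = true := by
  decide +kernel

lemma okB41 : Tree.check LeafB.ok
    (.sS
      (.leaf (.start 1001064 1000354 1000922 (some ⟨.flat, 3397042, (-3324022), 152593, none, ⟨true, 0⟩, ⟨true, 0⟩, ⟨true, 0⟩, 1002401, 1005450⟩)))
      (.leaf (.start 1000000 1000000 1000000 none)))
    ⟨16128, 16384, 10752, 11136⟩ = true := by
  decide +kernel

lemma okB42 : Tree.check LeafB.ok
    (.sS
      (.leaf (.weight ⟨.circ, 3397042, (-3324022), 152593, none, ⟨true, 0⟩, ⟨true, 0⟩, ⟨true, 0⟩, 984375, 1000000⟩ 1000512 1004435 1000170 1001476 1000443 1003842 1000683 1005918 2))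
      (.leaf (.start 1000000 1000000 1000000 none)))
    ⟨16128, 16384, 11136, 11520⟩ = true := by
  decide +kernel

lemma okB43 : Tree.check LeafB.ok
    (.leaf (.weight ⟨.circ, 2460781, (-2357802), 215092, none, ⟨true, 0⟩, ⟨true, 0⟩, ⟨true, 0⟩, 968750, 1000000⟩ 1001582 1019873 1000527 1006580 1001370 1017200 1002110 1026585 291448947))
    ⟨15872, 16128, 11520, 12288⟩ = true := by
  decide +kernel

lemma okB44 : Tree.check LeafB.ok
    (.sS
      (.leaf (.weight ⟨.circ, 3397042, (-3324022), 152593, none, ⟨true, 0⟩, ⟨true, 0⟩, ⟨true, 0⟩, 984375, 1000000⟩ 1000567 1004630 1000188 1001540 1000491 1004011 1000757 1006179 30473800))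
      (.leaf (.start 1000000 1000000 1000000 none)))
    ⟨16128, 16384, 11520, 11904⟩ = true := by
  decide +kernel

lemma okB45 : Tree.check LeafB.ok
    (.sS
      (.leaf (.weight ⟨.circ, 3397042, (-3324022), 152593, none, ⟨true, 0⟩, ⟨true, 0⟩, ⟨true, 0⟩, 984375, 1000000⟩ 1000626 1004811 1000208 1001601 1000542 1004168 1000835 1006420 65856879))
      (.leaf (.start 1000000 1000000 1000000 none)))
    ⟨16128, 16384, 11904, 12288⟩ = true := by
  decide +kernel

lemma okB46 : Tree.check LeafB.ok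
    (.sR
      (.leaf (.weight ⟨.flat, 1029695, (-654681), 770551, none, ⟨true, 0⟩, ⟨true, 0⟩, ⟨true, 0⟩, 1062500, 1343750⟩ 1219049 2357005 1068252 1330822 1187275 2102385 1302252 3136756 2099332))
      (.leaf (.weight ⟨.flat, 1029695, (-654681), 770551, none, ⟨true, 0⟩, ⟨true, 0⟩, ⟨true, 0⟩, 1242187, 1625000⟩ 1435324 3283190 1128019 1486273 1367802 2801925 1619074 4879718 105624709)))
    ⟨8192, 12288, 12288, 24576⟩ = true := by
  decide +kernel

lemma okB47 : Tree.check LeafB.ok
    (.leaf (.weight ⟨.flat, 1152463, (-872935), 579601, none, ⟨true, 0⟩, ⟨true, 0⟩, ⟨true, 0⟩, 1050781, 1242188⟩ 1084244 1436480 1027327 1128322 1072613 1368756 1113874 1620813 89546685))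
    ⟨12288, 14336, 12288, 18432⟩ = true := by
  decide +kernel

lemma okB48 : Tree.check LeafB.ok
    (.leaf (.weight ⟨.flat, 1404225, (-1201767), 421585, none, ⟨true, 0⟩, ⟨true, 0⟩, ⟨true, 0⟩, 1028320, 1094727⟩ 1030342 1140269 1010013 1044726 1026243 1120485 1040660 1191269 96441377))
    ⟨14336, 15360, 12288, 15360⟩ = true := by
  decide +kernel

lemma okB49 : Tree.check LeafB.ok
    (.leaf (.weight ⟨.flat, 1822600, (-1677784), 302173, none, ⟨true, 0⟩, ⟨true, 0⟩, ⟨true, 0⟩, 1014892, 1039673⟩ 1010769 1053453 1003576 1017509 1009326 1046164 1014385 1071899 104024017))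
    ⟨15360, 15872, 12288, 13824⟩ = true := by
  decide +kernel

lemma okB50 : Tree.check LeafB.ok
    (.leaf (.weight ⟨.circ, 2460781, (-2357802), 215092, none, ⟨true, 0⟩, ⟨true, 0⟩, ⟨true, 0⟩, 968750, 1000000⟩ 1001922 1020824 1000640 1006893 1001665 1018022 1002564 1027862 286384269))
    ⟨15872, 16128, 12288, 13056⟩ = true := by
  decide +kernel

lemma okB51 : Tree.check LeafB.ok
    (.sS
      (.leaf (.weight ⟨.circ, 3397042, (-3324022), 152593, none, ⟨true, 0⟩, ⟨true, 0⟩, ⟨true, 0⟩, 984375, 1000000⟩ 1000689 1008993 1000229 1002988 1000597 1007789 1000919 1012009 96201993))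
      (.leaf (.start 1000000 1000000 1000000 none)))
    ⟨16128, 16384, 12288, 12672⟩ = true := by
  decide +kernel

lemma okB52 : Tree.check LeafB.ok
    (.sS
      (.leaf (.weight ⟨.circ, 3397042, (-3324022), 152593, none, ⟨true, 0⟩, ⟨true, 0⟩, ⟨true, 0⟩, 984375, 1000000⟩ 1000756 1009144 1000251 1003038 1000655 1007919 1001009 1012211 121397918))
      (.leaf (.start 1000000 1000000 1000000 none)))
    ⟨16128, 16384, 12672, 13056⟩ = true := by
  decide +kernel

lemma okB53 : Tree.check LeafB.ok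
    (.leaf (.weight ⟨.circ, 2460781, (-2357802), 215092, none, ⟨true, 0⟩, ⟨true, 0⟩, ⟨true, 0⟩, 968750, 1000000⟩ 1002308 1025690 1000768 1008491 1001999 1022226 1003079 1034400 280477500))
    ⟨15872, 16128, 13056, 13824⟩ = true := by
  decide +kernel

lemma okB54 : Tree.check LeafB.ok
    (.sS
      (.leaf (.weight ⟨.circ, 3397042, (-3324022), 152593, none, ⟨true, 0⟩, ⟨true, 0⟩, ⟨true, 0⟩, 984375, 1000000⟩ 1000827 1009280 1000275 1003083 1000716 1008037 1001103 1012393 141895055))
      (.leaf (.start 1000000 1000000 1000000 none)))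
    ⟨16128, 16384, 13056, 13440⟩ = true := by
  decide +kernel

lemma okB55 : Tree.check LeafB.ok
    (.sS
      (.leaf (.weight ⟨.circ, 3397042, (-3324022), 152593, none, ⟨true, 0⟩, ⟨true, 0⟩, ⟨true, 0⟩, 984375, 1000000⟩ 1000902 1009401 1000300 1003123 1000781 1008142 1001203 1012555 159151060))
      (.leaf (.start 1000000 1000000 1000000 none)))
    ⟨16128, 16384, 13440, 13824⟩ = true := by
  decide +kernel

lemma okB56 : Tree.check LeafB.ok
    (.leaf (.weight ⟨.flat, 1822600, (-1677784), 302173, none, ⟨true, 0⟩, ⟨true, 0⟩, ⟨true, 0⟩, 1020660, 1051026⟩ 1012490 1069861 1004146 1022764 1010815 1060271 1016688 1094217 159918541))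
    ⟨15360, 15872, 13824, 15360⟩ = true := by
  decide +kernel

lemma okB57 : Tree.check LeafB.ok
    (.leaf (.weight ⟨.circ, 2460781, (-2357802), 215092, none, ⟨true, 0⟩, ⟨true, 0⟩, ⟨true, 0⟩, 968750, 1000000⟩ 1002741 1026305 1000912 1008692 1002375 1022758 1003657 1035227 274296684))
    ⟨15872, 16128, 13824, 14592⟩ = true := by
  decide +kernel

lemma okB58 : Tree.check LeafB.ok
    (.sS
      (.leaf (.weight ⟨.circ, 3397042, (-3324022), 152593, none, ⟨true, 0⟩, ⟨true, 0⟩, ⟨true, 0⟩, 984375, 1000000⟩ 1000982 1009506 1000327 1003158 1000851 1008233 1001310 1012695 173437572))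
      (.leaf (.start 1000000 1000000 1000000 none)))
    ⟨16128, 16384, 13824, 14208⟩ = true := by
  decide +kernel

lemma okB59 : Tree.check LeafB.ok
    (.sS
      (.leaf (.weight ⟨.circ, 3397042, (-3324022), 152593, none, ⟨true, 0⟩, ⟨true, 0⟩, ⟨true, 0⟩, 984375, 1000000⟩ 1001066 1009596 1000355 1003188 1000923 1008311 1001422 1012816 185240563))
      (.leaf (.start 1000000 1000000 1000000 none)))
    ⟨16128, 16384, 14208, 14592⟩ = true := by
  decide +kernel

lemma okB60 : Tree.check LeafB.ok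
    (.leaf (.weight ⟨.circ, 2460781, (-2357802), 215092, none, ⟨true, 0⟩, ⟨true, 0⟩, ⟨true, 0⟩, 968750, 1000000⟩ 1003227 1030852 1001074 1010180 1002796 1026684 1004305 1041347 269765685))
    ⟨15872, 16128, 14592, 15360⟩ = true := by
  decide +kernel

lemma okB61 : Tree.check LeafB.ok
    (.sS
      (.leaf (.weight ⟨.circ, 3397042, (-3324022), 152593, none, ⟨true, 0⟩, ⟨true, 0⟩, ⟨true, 0⟩, 984375, 1000000⟩ 1001155 1013706 1000384 1004547 1001000 1011867 1001541 1018317 196018757))
      (.leaf (.start 1000000 1000000 1000000 none)))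
    ⟨16128, 16384, 14592, 14976⟩ = true := by
  decide +kernel

lemma okB62 : Tree.check LeafB.ok
    (.sS
      (.leaf (.weight ⟨.circ, 3397042, (-3324022), 152593, none, ⟨true, 0⟩, ⟨true, 0⟩, ⟨true, 0⟩, 984375, 1000000⟩ 1001249 1013766 1000416 1004567 1001082 1011919 1001666 1018397 203571959))
      (.leaf (.start 1000000 1000000 1000000 none)))
    ⟨16128, 16384, 14976, 15360⟩ = true := by
  decide +kernel

lemma okB63 : Tree.check LeafB.ok
    (.leaf (.weight ⟨.flat, 1404225, (-1201767), 421585, none, ⟨true, 0⟩, ⟨true, 0⟩, ⟨true, 0⟩, 1051025, 1138672⟩ 1039404 1205324 1012965 1064227 1034061 1175682 1052881 1282740 203152236))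
    ⟨14336, 15360, 15360, 18432⟩ = true := by
  decide +kernel

lemma okB64 : Tree.check LeafB.ok
    (.leaf (.weight ⟨.flat, 1822600, (-1677784), 302173, none, ⟨true, 0⟩, ⟨true, 0⟩, ⟨true, 0⟩, 1026428, 1062378⟩ 1013536 1084539 1004491 1027420 1011720 1072866 1018089 1114279 235245560))
    ⟨15360, 15872, 15360, 16896⟩ = true := by
  decide +kernel

lemma okB65 : Tree.check LeafB.ok
    (.leaf (.weight ⟨.flat, 2460781, (-2357802), 215092, none, ⟨true, 0⟩, ⟨true, 0⟩, ⟨true, 0⟩, 1013442, 1029313⟩ 1004711 1035242 1001567 1011611 1004081 1030472 1006287 1047264 218456541))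
    ⟨15872, 16128, 15360, 16128⟩ = true := by
  decide +kernel

lemma okB66 : Tree.check LeafB.ok
    (.leaf (.weight ⟨.circ, 3397042, (-3324022), 152593, none, ⟨true, 0⟩, ⟨true, 0⟩, ⟨true, 0⟩, 984375, 1000000⟩ 1001348 1013810 1000449 1004582 1001168 1011957 1001798 1018456 209759326))
    ⟨16128, 16256, 15360, 15744⟩ = true := by
  decide +kernel

lemma okB67 : Tree.check LeafB.ok
    (.sR
      (.leaf (.start 1000000 1000000 1000000 none))
      (.sS
      (.leaf (.start 1000497 1000165 1000430 (some ⟨.circ, 4745272, (-4693567), 108076, none, ⟨true, 0⟩, ⟨true, 0⟩, ⟨true, 0⟩, 992187, 1000000⟩)))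
      (.leaf (.start 1000000 1000000 1000000 none))))
    ⟨16256, 16384, 15360, 15744⟩ = true := by
  decide +kernel

lemma okB68 : Tree.check LeafB.ok
    (.leaf (.weight ⟨.circ, 3397042, (-3324022), 152593, none, ⟨true, 0⟩, ⟨true, 0⟩, ⟨true, 0⟩, 984375, 1000000⟩ 1001452 1013839 1000483 1004591 1001258 1011982 1001937 1018495 214768977))
    ⟨16128, 16256, 15744, 16128⟩ = true := by
  decide +kernel

lemma okB69 : Tree.check LeafB.ok
    (.sS
      (.leaf (.start 1000516 1000171 1000447 (some ⟨.circ, 4745272, (-4693567), 108076, none, ⟨true, 0⟩, ⟨true, 0⟩, ⟨true, 0⟩, 992187, 1000000⟩)))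
      (.leaf (.start 1000000 1000000 1000000 none)))
    ⟨16256, 16384, 15744, 15936⟩ = true := by
  decide +kernel

lemma okB70 : Tree.check LeafB.ok
    (.sS
      (.leaf (.start 1000587 1000195 1000508 (some ⟨.flat, 4745272, (-4693567), 108076, none, ⟨true, 0⟩, ⟨true, 0⟩, ⟨true, 0⟩, 1003677, 1007509⟩)))
      (.leaf (.start 1000000 1000000 1000000 none)))
    ⟨16256, 16384, 15936, 16128⟩ = true := by
  decide +kernel

lemma okB71 : Tree.check LeafB.ok
    (.leaf (.weight ⟨.flat, 2460781, (-2357802), 215092, none, ⟨true, 0⟩, ⟨true, 0⟩, ⟨true, 0⟩, 1014896, 1032197⟩ 1004783 1039473 1001591 1012988 1004143 1034121 1006383 1052974 274619658))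
    ⟨15872, 16128, 16128, 16896⟩ = true := by
  decide +kernel

end Vale.Agent.P237.Five.Cert
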