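import Vale.Agent.P237.Five.CertExpr

/-!
# P237, `n = 5`: leaves of the certificate for the second derivative, part 3
-/

namespace Vale.Agent.P237.Five.Cert

lemma okB72 : Tree.check LeafB.ok
    (.leaf (.weight ⟨.circ, 3397042, (-3324022), 152593, none, ⟨true, 0⟩, ⟨true, 0⟩, ⟨true, 0⟩, 984375, 1000000⟩ 1001561 1013852 1000520 1004596 1001352 1011994 1002082 1018512 218266386))
    ⟨16128, 16256, 16128, 16512⟩ = true := by
  decide +kernel

lemma okB73 : Tree.check LeafB.ok
    (.sS
      (.leaf (.weight ⟨.circ, 4745272, (-4693567), 108076, none, ⟨true, 0⟩, ⟨true, 0⟩, ⟨true, 0⟩, 992187, 1000000⟩ 1000555 1006683 1000184 1002222 1000480 1005789 1000741 1008921 2))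
      (.leaf (.start 1000000 1000000 1000000 none)))
    ⟨16256, 16384, 16128, 16320⟩ = true := by
  decide +kernel

lemma okB74 : Tree.check LeafB.ok
    (.sS
      (.leaf (.weight ⟨.circ, 4745272, (-4693567), 108076, none, ⟨true, 0⟩, ⟨true, 0⟩, ⟨true, 0⟩, 992187, 1000000⟩ 1000575 1006684 1000191 1002223 1000498 1005790 1000767 1008922 2))
      (.leaf (.start 1000000 1000000 1000000 none)))
    ⟨16256, 16384, 16320, 16512⟩ = true := by
  decide +kernel

lemma okB75 : Tree.check LeafB.ok
    (.leaf (.weight ⟨.circ, 3397042, (-3324022), 152593, none, ⟨true, 0⟩, ⟨true, 0⟩, ⟨true, 0⟩, 984375, 1000000⟩ 1001676 1013852 1000558 1004596 1001452 1011994 1002236 1018512 221143277))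
    ⟨16128, 16256, 16512, 16896⟩ = true := by
  decide +kernel

lemma okB76 : Tree.check LeafB.ok
    (.sR
      (.sS
      (.leaf (.weight ⟨.circ, 4745272, (-4693567), 108076, none, ⟨true, 0⟩, ⟨true, 0⟩, ⟨true, 0⟩, 992187, 1000000⟩ 1000596 1006684 1000198 1002223 1000516 1005790 1000795 1008922 2))
      .outT)
      .outT)
    ⟨16256, 16384, 16512, 16896⟩ = true := by
  decide +kernel

lemma okB77 : Tree.check LeafB.ok
    (.sR
      (.leaf (.weight ⟨.flat, 1822600, (-1677784), 302173, none, ⟨true, 0⟩, ⟨true, 0⟩, ⟨true, 0⟩, 1032196, 1068055⟩ 1013809 1097727 1004581 1031568 1011956 1084164 1018455 1132381 284159783))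
      .outT)
    ⟨15360, 15872, 16896, 18432⟩ = true := by
  decide +kernel

lemma okB78 : Tree.check LeafB.ok
    (.sR
      (.sS
      (.leaf (.weight ⟨.flat, 2460781, (-2357802), 215092, none, ⟨true, 0⟩, ⟨true, 0⟩, ⟨true, 0⟩, 1016349, 1035080⟩ 1004742 1039473 1001578 1012988 1004108 1034121 1006328 1052974 342680875))
      .outT)
      .outT)
    ⟨15872, 16384, 16896, 18432⟩ = true := by
  decide +kernel

lemma okB79 : Tree.check LeafB.ok
    (.leaf (.weight ⟨.flat, 1152463, (-872935), 579601, none, ⟨true, 0⟩, ⟨true, 0⟩, ⟨true, 0⟩, 1138671, 1324219⟩ 1119950 1565869 1038483 1161230 1103160 1474986 1163050 1818336 209109499))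
    ⟨12288, 14336, 18432, 21504⟩ = true := by
  decide +kernel

lemma okB80 : Tree.check LeafB.ok
    (.sS
      (.sR
      (.leaf (.weight ⟨.flat, 1092563, (-766446), 652425, none, ⟨true, 0⟩, ⟨true, 0⟩, ⟨true, 0⟩, 1308761, 1334473⟩ 1414641 1591426 1122575 1167514 1350703 1495827 1588041 1858013 34983432))
      .outT)
      .outT)
    ⟨12288, 12800, 21504, 22272⟩ = true := by
  decide +kernel

lemma okB81 : Tree.check LeafB.ok
    .outT
    ⟨12288, 12800, 22272, 23040⟩ = true := by
  decide +kernel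

lemma okB82 : Tree.check LeafB.ok
    .outT
    ⟨12800, 13312, 21504, 23040⟩ = true := by
  decide +kernel

lemma okB83 : Tree.check LeafB.ok
    .outT
    ⟨12288, 13312, 23040, 24576⟩ = true := by
  decide +kernel

lemma okB84 : Tree.check LeafB.ok
    .outT
    ⟨13312, 14336, 21504, 24576⟩ = true := by
  decide +kernel

lemma okB85 : Tree.check LeafB.ok
    (.sS
      (.sR
      (.leaf (.weight ⟨.flat, 1299605, (-1065120), 469660, none, ⟨true, 0⟩, ⟨true, 0⟩, ⟨true, 0⟩, 1123260, 1144166⟩ 1103226 1219934 1033288 1068510 1088869 1188022 1139951 1303513 92317130))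
      .outT)
      .outT)
    ⟨14336, 14848, 18432, 19200⟩ = true := by
  decide +kernel

lemma okB86 : Tree.check LeafB.ok
    .outT
    ⟨14336, 14848, 19200, 19968⟩ = true := by
  decide +kernel

lemma okB87 : Tree.check LeafB.ok
    .outT
    ⟨14848, 15360, 18432, 19968⟩ = true := by
  decide +kernel

lemma okB88 : Tree.check LeafB.ok
    .outT
    ⟨14336, 15360, 19968, 21504⟩ = true := by
  decide +kernel

lemma okB89 : Tree.check LeafB.ok
    .outT
    ⟨15360, 16384, 18432, 21504⟩ = true := by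
  decide +kernel

lemma okB90 : Tree.check LeafB.ok
    .outT
    ⟨14336, 16384, 21504, 24576⟩ = true := by
  decide +kernel

lemma okB91 : Tree.check LeafB.ok
    (.sS
      (.leaf (.weight ⟨.flat, 1000000, (-508067), 984250, (some 1066667), ⟨true, 0⟩, ⟨true, 0⟩, ⟨true, 0⟩, 1500000, 2375000⟩ 5492101 19338258 1764328 2684143 4376296 13028518 9689872 51906666 2))
      (.sR
      (.leaf (.weight ⟨.flat, 1002319, (-545176), 918558, (some 1333334), ⟨true, 0⟩, ⟨true, 0⟩, ⟨true, 0⟩, 1625000, 2015625⟩ 3282181 8849900 1486121 2068455 2801178 6617286 4877719 18305622 2))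
      (.leaf (.weight ⟨.flat, 1002319, (-545176), 918558, (some 1333334), ⟨true, 0⟩, ⟨true, 0⟩, ⟨true, 0⟩, 1906250, 2359375⟩ 3683463 10781803 1544372 2209176 3095675 7852342 5688640 23818909 35324848))))
    ⟨0, 8192, 24576, 36864⟩ = true := by
  decide +kernel

lemma okB92 : Tree.check LeafB.ok
    (.leaf (.weight ⟨.flat, 1000000, (-508067), 984250, (some 1066667), ⟨true, 0⟩, ⟨true, 0⟩, ⟨true, 0⟩, 2250000, 3125000⟩ 12840656 19338258 2341688 2684143 9136410 13028518 30068813 51906666 2))
    ⟨0, 4096, 36864, 49152⟩ = true := by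
  decide +kernel

lemma okB93 : Tree.check LeafB.ok
    .outY
    ⟨4096, 6144, 36864, 43008⟩ = true := by
  decide +kernel

lemma okB94 : Tree.check LeafB.ok
    (.sR
      (.sS
      .outY
      (.leaf (.weight ⟨.chord, 1007648, (-566494), 882777, (some 1333334), ⟨true, 0⟩, ⟨true, 0⟩, ⟨true, 0⟩, 1000000, 2408448⟩ 4759926 5630230 1682157 1778997 3865925 4471528 8006947 10016167 2)))
      .outY)
    ⟨6144, 8192, 36864, 43008⟩ = true := by
  decide +kernel

lemma okB95 : Tree.check LeafB.ok
    .outY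
    ⟨4096, 8192, 43008, 49152⟩ = true := by
  decide +kernel

lemma okB96 : Tree.check LeafB.ok
    (.leaf (.weight ⟨.flat, 1017848, (-607294), 824431, (some 1641026), ⟨true, 0⟩, ⟨true, 0⟩, ⟨true, 0⟩, 1539062, 1906250⟩ 2045433 3869458 1269390 1569941 1859290 3230701 2596453 6074822 148714413))
    ⟨8192, 10240, 24576, 30720⟩ = true := by
  decide +kernel

lemma okB97 : Tree.check LeafB.ok
    (.leaf (.weight ⟨.flat, 1039864, (-663655), 753896, (some 1896297), ⟨true, 0⟩, ⟨true, 0⟩, ⟨true, 0⟩, 1478515, 1596192⟩ 1743578 2267974 1203595 1313850 1619008 2033385 2098563 2979780 49981892))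
    ⟨10240, 11264, 24576, 26112⟩ = true := by
  decide +kernel

lemma okB98 : Tree.check LeafB.ok
    (.sS
      (.sR
      (.leaf (.weight ⟨.flat, 1031841, (-643116), 777471, (some 1667923), ⟨true, 0⟩, ⟨true, 0⟩, ⟨true, 0⟩, 1588342, 1603333⟩ 2146994 2277120 1290061 1315614 1939039 2040489 2769754 2995813 9027108))
      .outT)
      .outT)
    ⟨10240, 10496, 26112, 26496⟩ = true := by
  decide +kernel

lemma okB99 : Tree.check LeafB.ok
    .outT
    ⟨10240, 10496, 26496, 26880⟩ = true := by
  decide +kernel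

lemma okB100 : Tree.check LeafB.ok
    .outT
    ⟨10496, 10752, 26112, 26880⟩ = true := by
  decide +kernel

lemma okB101 : Tree.check LeafB.ok
    .outT
    ⟨10240, 10752, 26880, 27648⟩ = true := by
  decide +kernel

lemma okB102 : Tree.check LeafB.ok
    .outT
    ⟨10752, 11264, 26112, 27648⟩ = true := by
  decide +kernel

lemma okB103 : Tree.check LeafB.ok
    .outT
    ⟨11264, 12288, 24576, 27648⟩ = true := by
  decide +kernel

lemma okB104 : Tree.check LeafB.ok
    .outT
    ⟨10240, 12288, 27648, 30720⟩ = true := by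
  decide +kernel

lemma okB105 : Tree.check LeafB.ok
    (.sS
      (.sR
      (.leaf (.weight ⟨.chord, 1017848, (-607294), 824431, (some 1641026), ⟨true, 0⟩, ⟨true, 0⟩, ⟨true, 0⟩, 1000000, 2046875⟩ 2653337 3914791 1384408 1576048 2329628 3263478 3673302 6169900 8846637))
      .outT)
      .outT)
    ⟨8192, 12288, 30720, 36864⟩ = true := by
  decide +kernel

lemma okB106 : Tree.check LeafB.ok
    .outT
    ⟨12288, 16384, 24576, 36864⟩ = true := by
  decide +kernel

lemma okB107 : Tree.check LeafB.ok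
    .outT
    ⟨8192, 16384, 36864, 49152⟩ = true := by
  decide +kernel

end Vale.Agent.P237.Five.Cert
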