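import Vale.Agent.P237.Five.CertSpec
import Vale.Agent.P237.Five.CertDataA1
import Vale.Agent.P237.Five.CertDataA2
import Vale.Agent.P237.Five.CertDataA3
import Vale.Agent.P237.Five.CertDataA4
import Vale.Agent.P237.Five.CertDataA5
import Vale.Agent.P237.Five.CertDataB1
import Vale.Agent.P237.Five.CertDataB2
import Vale.Agent.P237.Five.CertDataB3

/-!
# P237, `n = 5`: assembly of the certificate
-/

namespace Vale.Agent.P237.Five.Cert

lemma nS {α : Type} {ok : Box → α → Bool} {l g : Tree α} {A B A' B' : ℤ} (m : ℤ)
    (hm : (A + B) / 2 = m) (hl : l.check ok ⟨A, m, A', B'⟩ = true)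
    (hg : g.check ok ⟨m, B, A', B'⟩ = true) :
    (Tree.sS l g).check ok ⟨A, B, A', B'⟩ = true := by simp [Tree.check, hm, hl, hg]

lemma nR {α : Type} {ok : Box → α → Bool} {l g : Tree α} {A B A' B' : ℤ} (m : ℤ)
    (hm : (A' + B') / 2 = m) (hl : l.check ok ⟨A, B, A', m⟩ = true)
    (hg : g.check ok ⟨A, B, m, B'⟩ = true) :
    (Tree.sR l g).check ok ⟨A, B, A', B'⟩ = true := by simp [Tree.check, hm, hl, hg]

theorem data_ok : DataOk := ⟨
  ⟨_, (nR 24576 (by decide)
    (nS 8192 (by decide)
    (nR 12288 (by decide)
    (nS 4096 (by decide)
    (nR 6144 (by decide)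
    okA0
    (nS 2048 (by decide)
    okA1
    okA2))
    (nR 6144 (by decide)
    okA3
    (nS 6144 (by decide)
    okA4
    (nR 9216 (by decide)
    okA5
    okA6))))
    (nS 4096 (by decide)
    (nR 18432 (by decide)
    (nS 2048 (by decide)
    (nR 15360 (by decide)
    (nS 1024 (by decide)
    okA7
    okA8)
    (nS 1024 (by decide)
    (nR 16896 (by decide)
    (nS 512 (by decide)
    (nR 16128 (by decide)
    okA9
    (nS 256 (by decide)
    okA10
    okA11))
    okA12)
    (nS 512 (by decide)
    (nR 17664 (by decide)
    (nS 256 (by decide)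
    okA13
    okA14)
    (nS 256 (by decide)
    okA15
    okA16))
    (nR 17664 (by decide)
    okA17
    okA18)))
    (nR 16896 (by decide)
    (nS 1536 (by decide)
    okA19
    okA20)
    (nS 1536 (by decide)
    okA21
    okA22))))
    (nR 15360 (by decide)
    (nS 3072 (by decide)
    (nR 13824 (by decide)
    okA23
    okA24)
    okA25)
    (nS 3072 (by decide)
    (nR 16896 (by decide)
    okA26
    okA27)
    okA28)))
    (nS 2048 (by decide)
    (nR 21504 (by decide)
    (nS 1024 (by decide)
    (nR 19968 (by decide)
    (nS 512 (by decide)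
    (nR 19200 (by decide)
    (nS 256 (by decide)
    okA29
    okA30)
    okA31)
    okA32)
    (nS 512 (by decide)
    (nR 20736 (by decide)
    okA33
    okA34)
    okA35))
    (nR 19968 (by decide)
    okA36
    okA37))
    (nS 1024 (by decide)
    (nR 23040 (by decide)
    okA38
    okA39)
    okA40))
    (nR 21504 (by decide)
    okA41
    okA42)))
    (nR 18432 (by decide)
    (nS 6144 (by decide)
    (nR 15360 (by decide)
    (nS 5120 (by decide)
    okA43
    okA44)
    okA45)
    (nR 15360 (by decide)
    okA46
    okA47))
    okA48)))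
    (nR 12288 (by decide)
    (nS 12288 (by decide)
    (nR 6144 (by decide)
    okA49
    (nS 10240 (by decide)
    (nR 9216 (by decide)
    okA50
    (nS 9216 (by decide)
    okA51
    (nR 10752 (by decide)
    (nS 9728 (by decide)
    (nR 9984 (by decide)
    okA52
    okA53)
    (nR 9984 (by decide)
    okA54
    (nS 9984 (by decide)
    (nR 10368 (by decide)
    (nS 9856 (by decide)
    okA55
    (nR 10176 (by decide)
    okA56
    (nS 9920 (by decide)
    okA57
    okA58)))
    okA59)
    (nR 10368 (by decide)
    (nS 10112 (by decide)
    okA60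
    okA61)
    okA62))))
    okA63)))
    (nR 9216 (by decide)
    (nS 11264 (by decide)
    okA64
    okA65)
    (nS 11264 (by decide)
    (nR 10752 (by decide)
    (nS 10752 (by decide)
    (nR 9984 (by decide)
    okA66
    okA67)
    okA68)
    okA69)
    (nR 10752 (by decide)
    (nS 11776 (by decide)
    okA70
    okA71)
    okA72)))))
    (nR 6144 (by decide)
    okA73
    (nS 14336 (by decide)
    (nR 9216 (by decide)
    okA74
    (nS 13312 (by decide)
    okA75
    okA76))
    (nR 9216 (by decide)
    okA77
    (nS 15360 (by decide)
    okA78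
    (nR 10752 (by decide)
    okA79
    okA80))))))
    (nS 12288 (by decide)
    (nR 18432 (by decide)
    okA81
    okA82)
    (nR 18432 (by decide)
    (nS 14336 (by decide)
    okA83
    (nR 15360 (by decide)
    (nS 15360 (by decide)
    okA84
    (nR 13824 (by decide)
    okA85
    okA86))
    (nS 15360 (by decide)
    (nR 16896 (by decide)
    okA87
    (nS 14848 (by decide)
    (nR 17664 (by decide)
    okA88
    (nS 14592 (by decide)
    okA89
    (nR 18048 (by decide)
    okA90
    (nS 14720 (by decide)
    okA91
    (nR 18240 (by decide)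
    (nS 14784 (by decide)
    okA92
    (nR 18144 (by decide)
    okA93
    okA94))
    okA95)))))
    (nR 17664 (by decide)
    okA96
    (nS 15104 (by decide)
    (nR 18048 (by decide)
    (nS 14976 (by decide)
    (nR 17856 (by decide)
    okA97
    (nS 14912 (by decide)
    okA98
    (nR 17952 (by decide)
    okA99
    (nS 14944 (by decide)
    okA100
    okA101))))
    (nR 17856 (by decide)
    okA102
    okA103))
    (nS 14976 (by decide)
    (nR 18240 (by decide)
    (nS 14912 (by decide)
    (nR 18144 (by decide)
    okA104
    okA105)
    okA106)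
    okA107)
    okA108))
    (nR 18048 (by decide)
    okA109
    okA110)))))
    (nR 16896 (by decide)
    (nS 15872 (by decide)
    okA111
    okA112)
    (nS 15872 (by decide)
    okA113
    okA114)))))
    (nS 14336 (by decide)
    (nR 21504 (by decide)
    (nS 13312 (by decide)
    okA115
    (nR 19968 (by decide)
    (nS 13824 (by decide)
    okA116
    (nR 19200 (by decide)
    okA117
    okA118))
    okA119))
    okA120)
    (nR 21504 (by decide)
    (nS 15360 (by decide)
    (nR 19968 (by decide)
    (nS 14848 (by decide)
    (nR 19200 (by decide)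
    (nS 14592 (by decide)
    (nR 18816 (by decide)
    okA121
    okA122)
    okA123)
    okA124)
    okA125)
    okA126)
    okA127)
    okA128))))))
    (nS 8192 (by decide)
    (nR 36864 (by decide)
    (nS 4096 (by decide)
    (nR 30720 (by decide)
    (nS 2048 (by decide)
    (nR 27648 (by decide)
    okA129
    okA130)
    okA131)
    okA132)
    okA133)
    okA134)
    (nR 36864 (by decide)
    (nS 12288 (by decide)
    (nR 30720 (by decide)
    okA135
    okA136)
    okA137)
    okA138)))⟩,
  ⟨_, (nR 24576 (by decide)
    (nS 8192 (by decide)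
    (nR 12288 (by decide)
    (nS 4096 (by decide)
    (nR 6144 (by decide)
    okB0
    (nS 2048 (by decide)
    okB1
    okB2))
    (nR 6144 (by decide)
    okB3
    (nS 6144 (by decide)
    okB4
    okB5)))
    (nS 4096 (by decide)
    (nR 18432 (by decide)
    (nS 2048 (by decide)
    (nR 15360 (by decide)
    okB6
    (nS 1024 (by decide)
    (nR 16896 (by decide)
    (nS 512 (by decide)
    (nR 16128 (by decide)
    okB7
    (nS 256 (by decide)
    (nR 16512 (by decide)
    okB8
    okB9)
    okB10))
    okB11)
    okB12)
    okB13))
    (nR 15360 (by decide)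
    okB14
    okB15))
    okB16)
    okB17))
    (nR 12288 (by decide)
    (nS 12288 (by decide)
    (nR 6144 (by decide)
    okB18
    (nS 10240 (by decide)
    okB19
    okB20))
    (nR 6144 (by decide)
    (nS 14336 (by decide)
    (nR 3072 (by decide)
    okB21
    okB22)
    (nR 3072 (by decide)
    okB23
    (nS 15360 (by decide)
    okB24
    okB25)))
    (nS 14336 (by decide)
    okB26
    (nR 9216 (by decide)
    (nS 15360 (by decide)
    okB27
    (nR 7680 (by decide)
    (nS 15872 (by decide)
    okB28
    (nR 6912 (by decide)
    okB29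
    okB30))
    (nS 15872 (by decide)
    okB31
    (nR 8448 (by decide)
    okB32
    okB33))))
    (nS 15360 (by decide)
    okB34
    (nR 10752 (by decide)
    (nS 15872 (by decide)
    okB35
    (nR 9984 (by decide)
    okB36
    (nS 16128 (by decide)
    okB37
    okB38)))
    (nS 15872 (by decide)
    okB39
    (nR 11520 (by decide)
    (nS 16128 (by decide)
    okB40
    (nR 11136 (by decide)
    okB41
    okB42))
    (nS 16128 (by decide)
    okB43
    (nR 11904 (by decide)
    okB44
    okB45))))))))))
    (nS 12288 (by decide)
    okB46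
    (nR 18432 (by decide)
    (nS 14336 (by decide)
    okB47
    (nR 15360 (by decide)
    (nS 15360 (by decide)
    okB48
    (nR 13824 (by decide)
    (nS 15872 (by decide)
    okB49
    (nR 13056 (by decide)
    (nS 16128 (by decide)
    okB50
    (nR 12672 (by decide)
    okB51
    okB52))
    (nS 16128 (by decide)
    okB53
    (nR 13440 (by decide)
    okB54
    okB55))))
    (nS 15872 (by decide)
    okB56
    (nR 14592 (by decide)
    (nS 16128 (by decide)
    okB57
    (nR 14208 (by decide)
    okB58
    okB59))
    (nS 16128 (by decide)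
    okB60
    (nR 14976 (by decide)
    okB61
    okB62))))))
    (nS 15360 (by decide)
    okB63
    (nR 16896 (by decide)
    (nS 15872 (by decide)
    okB64
    (nR 16128 (by decide)
    (nS 16128 (by decide)
    okB65
    (nR 15744 (by decide)
    (nS 16256 (by decide)
    okB66
    okB67)
    (nS 16256 (by decide)
    okB68
    (nR 15936 (by decide)
    okB69
    okB70))))
    (nS 16128 (by decide)
    okB71
    (nR 16512 (by decide)
    (nS 16256 (by decide)
    okB72
    (nR 16320 (by decide)
    okB73
    okB74))
    (nS 16256 (by decide)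
    okB75
    okB76)))))
    (nS 15872 (by decide)
    okB77
    okB78)))))
    (nS 14336 (by decide)
    (nR 21504 (by decide)
    okB79
    (nS 13312 (by decide)
    (nR 23040 (by decide)
    (nS 12800 (by decide)
    (nR 22272 (by decide)
    okB80
    okB81)
    okB82)
    okB83)
    okB84))
    (nR 21504 (by decide)
    (nS 15360 (by decide)
    (nR 19968 (by decide)
    (nS 14848 (by decide)
    (nR 19200 (by decide)
    okB85
    okB86)
    okB87)
    okB88)
    okB89)
    okB90))))))
    (nS 8192 (by decide)
    (nR 36864 (by decide)
    okB91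
    (nS 4096 (by decide)
    okB92
    (nR 43008 (by decide)
    (nS 6144 (by decide)
    okB93
    okB94)
    okB95)))
    (nR 36864 (by decide)
    (nS 12288 (by decide)
    (nR 30720 (by decide)
    (nS 10240 (by decide)
    okB96
    (nR 27648 (by decide)
    (nS 11264 (by decide)
    (nR 26112 (by decide)
    okB97
    (nS 10752 (by decide)
    (nR 26880 (by decide)
    (nS 10496 (by decide)
    (nR 26496 (by decide)
    okB98
    okB99)
    okB100)
    okB101)
    okB102))
    okB103)
    okB104))
    okB105)
    okB106)
    okB107)))⟩⟩

end Vale.Agent.P237.Five.Cert
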