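import Vale.Agent.P237.Five.Key
import Vale.Agent.P237.Four.OneDim

/-!
# P237, `n = 5`: the one-dimensional lemma from `KeyFive`

Along the tangent homotopy the maximum of the two potentials minus `τ` does not decrease.  The first
potential is the larger one exactly when `i^(4/3) ≤ v`.
-/

namespace Vale.Agent.P237.Five

open MeasureTheory Set Filter Topology Real intervalIntegral
open Vale.Agent.P237.OneDim
open scoped Interval

/-- The potential used for `i^(4/3) ≤ v`. -/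
noncomputable def potLow (i v : ℝ) : ℝ :=
  v ^ (7 / 5 : ℝ) + (2823 / 200 + 3 * v ^ (-(3 / 4) : ℝ)) * (i - v ^ (3 / 4 : ℝ))

/-- The potential used for `v ≤ i^(4/3)`. -/
noncomputable def potHigh (i v : ℝ) : ℝ :=
  i ^ (28 / 15 : ℝ) + 129 / 10 * (i ^ (4 / 3 : ℝ) - v)

lemma pot_order {i v : ℝ} (hi : 1 ≤ i) (hv : 1 ≤ v) :
    (i ^ (4 / 3 : ℝ) ≤ v → potHigh i v ≤ potLow i v) ∧
      (v ≤ i ^ (4 / 3 : ℝ) → potLow i v ≤ potHigh i v) := by
  set a := i ^ (1 / 3 : ℝ) with ha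
  set c := v ^ (1 / 4 : ℝ) with hc
  have ha1 : 1 ≤ a := Real.one_le_rpow hi (by norm_num)
  have hc1 : 1 ≤ c := Real.one_le_rpow hv (by norm_num)
  have ea : i = a ^ 3 := by
    rw [ha, ← Real.rpow_natCast, ← Real.rpow_mul (by linarith)]; norm_num
  have eX : i ^ (4 / 3 : ℝ) = a ^ 4 := by
    rw [ha, ← Real.rpow_natCast, ← Real.rpow_mul (by linarith)]; norm_num
  have ev : v = c ^ 4 := by
    rw [hc, ← Real.rpow_natCast, ← Real.rpow_mul (by linarith)]; norm_num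
  have ew : v ^ (3 / 4 : ℝ) = c ^ 3 := by
    rw [hc, ← Real.rpow_natCast, ← Real.rpow_mul (by linarith)]; norm_num
  have hS : v ^ (-(3 / 4) : ℝ) ≤ 1 := Real.rpow_le_one_of_one_le_of_nonpos hv (by norm_num)
  have hS0 : 0 ≤ v ^ (-(3 / 4) : ℝ) := Real.rpow_nonneg (by linarith) _
  have hY : i ^ (28 / 15 : ℝ) = (i ^ (4 / 3 : ℝ)) ^ (7 / 5 : ℝ) := by
    rw [← Real.rpow_mul (by linarith)]; norm_num
  have conv : ∀ p q : ℝ, 1 ≤ p → p ≤ q →
      (2823 / 200 + 3 * v ^ (-(3 / 4) : ℝ)) * (q ^ 3 - p ^ 3) ≤ 129 / 10 * (q ^ 4 - p ^ 4) := by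
    intro p q hp hpq
    have h1 : 0 ≤ q ^ 3 - p ^ 3 := sub_nonneg.2 (pow_le_pow_left₀ (by linarith) hpq 3)
    have h2 : 4 * p * (q ^ 3 - p ^ 3) ≤ 3 * (q ^ 4 - p ^ 4) := by
      nlinarith [mul_nonneg (sq_nonneg (q - p))
        (show 0 ≤ 3 * q ^ 2 + 2 * q * p + p ^ 2 by nlinarith [sq_nonneg (q + p), sq_nonneg q])]
    nlinarith [mul_le_mul_of_nonneg_right hp h1]
  unfold potLow potHigh
  refine ⟨fun h => ?_, fun h => ?_⟩
  · have hE : i ^ (28 / 15 : ℝ) ≤ v ^ (7 / 5 : ℝ) := by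
      rw [hY]; exact Real.rpow_le_rpow (Real.rpow_nonneg (by linarith) _) h (by norm_num)
    have hac : a ≤ c := le_of_pow_le_pow_left₀ four_ne_zero (by linarith) (by linarith)
    have h2 := conv a c ha1 hac
    have e : (2823 / 200 + 3 * v ^ (-(3 / 4) : ℝ)) * (i - c ^ 3) =
        -((2823 / 200 + 3 * v ^ (-(3 / 4) : ℝ)) * (c ^ 3 - a ^ 3)) := by
      linear_combination (2823 / 200 + 3 * v ^ (-(3 / 4) : ℝ)) * ea
    rw [ew, eX]; linarith
  · have hE : v ^ (7 / 5 : ℝ) ≤ i ^ (28 / 15 : ℝ) := by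
      rw [hY]; exact Real.rpow_le_rpow (by linarith) h (by norm_num)
    have hac : c ≤ a := le_of_pow_le_pow_left₀ four_ne_zero (by linarith) (by linarith)
    have h2 := conv c a hc1 hac
    have e : (2823 / 200 + 3 * v ^ (-(3 / 4) : ℝ)) * (i - c ^ 3) =
        (2823 / 200 + 3 * v ^ (-(3 / 4) : ℝ)) * (a ^ 3 - c ^ 3) := by
      linear_combination (2823 / 200 + 3 * v ^ (-(3 / 4) : ℝ)) * ea
    rw [ew, eX]; linarith

/-- The properties of the profile. -/
structure Prof5 (f : ℝ → ℝ) : Prop where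
  conc : ConcaveOn ℝ (Icc (-1 : ℝ) 1) f
  even : ∀ t, f (-t) = f t
  zero_le : f 0 ≤ 9 / 4
  circle : ∀ t ∈ Icc (-1 : ℝ) 1, √(1 - t ^ 2) ≤ f t

variable {f : ℝ → ℝ}

/-- `∫ w F^k`. -/
noncomputable def mom (w : ℝ → ℝ) (k : ℕ) (f : ℝ → ℝ) (b : ℝ) : ℝ :=
  ∫ x in (0 : ℝ)..1, w x * hom f b x ^ k

/-- The normalised `∫ F³`. -/
noncomputable def nI (f : ℝ → ℝ) (b : ℝ) : ℝ := 16 / (3 * π) * mom (fun _ => 1) 3 f b

/-- The normalised `∫ F⁴`. -/
noncomputable def nV (f : ℝ → ℝ) (b : ℝ) : ℝ := 15 / 8 * mom (fun _ => 1) 4 f b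

/-- The normalised `∫ x² F⁴`. -/
noncomputable def nT (f : ℝ → ℝ) (b : ℝ) : ℝ := 105 / 8 * mom (fun x => x ^ 2) 4 f b

/-- The quantity that does not decrease. -/
noncomputable def pot (f : ℝ → ℝ) (b : ℝ) : ℝ :=
  max (potLow (nI f b) (nV f b)) (potHigh (nI f b) (nV f b)) - nT f b

lemma poly6 (c0 c1 c2 c3 c4 c5 c6 : ℝ) :
    ∫ x in (0 : ℝ)..1, (c0 + c1 * x ^ 1 + c2 * x ^ 2 + c3 * x ^ 3 + c4 * x ^ 4 + c5 * x ^ 5
        + c6 * x ^ 6) = c0 + c1 / 2 + c2 / 3 + c3 / 4 + c4 / 5 + c5 / 6 + c6 / 7 := by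
  repeat rw [intervalIntegral.integral_add
    (Continuous.intervalIntegrable (by fun_prop) _ _)
    (Continuous.intervalIntegrable (by fun_prop) _ _)]
  simp only [intervalIntegral.integral_const_mul, integral_pow, intervalIntegral.integral_const]
  norm_num
  ring

namespace Prof5

lemma anti (hf : Prof5 f) : AntitoneOn f (Icc 0 1) := by
  intro x hx y hy hxy
  have := hf.conc.min_le_of_mem_Icc (x := -y) (y := y) ⟨by linarith [hy.2], by linarith [hy.1]⟩
    ⟨by linarith [hy.1], hy.2⟩ (z := x) ⟨by linarith [hx.1, hy.1], hxy⟩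
  simpa [hf.even] using this

lemma le_max' (hf : Prof5 f) {x : ℝ} (hx : x ∈ Icc (0 : ℝ) 1) : f x ≤ 9 / 4 :=
  (hf.anti ⟨le_rfl, zero_le_one⟩ hx hx.1).trans hf.zero_le

lemma circle' (hf : Prof5 f) {x : ℝ} (hx : x ∈ Icc (0 : ℝ) 1) : √(1 - x ^ 2) ≤ f x :=
  hf.circle x ⟨by linarith [hx.1], hx.2⟩

lemma nonneg (hf : Prof5 f) {x : ℝ} (hx : x ∈ Icc (0 : ℝ) 1) : 0 ≤ f x :=
  (sqrt_nonneg _).trans (hf.circle' hx)

lemma meas (hf : Prof5 f) : AEStronglyMeasurable f (volume.restrict (Ι (0 : ℝ) 1)) := by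
  have h : IntegrableOn f (Icc 0 1) volume := hf.anti.integrableOn_isCompact isCompact_Icc
  exact h.aestronglyMeasurable.mono_measure
    (Measure.restrict_mono (by rw [uIoc_of_le zero_le_one]; exact Ioc_subset_Icc_self) le_rfl)

lemma hom_ge (hf : Prof5 f) {b x : ℝ} (hb0 : 0 ≤ b) (hb1 : b < 1) (hx : x ∈ Icc (0 : ℝ) 1) :
    √(1 - x ^ 2) ≤ hom f b x := by
  refine le_min (hf.circle' hx) ?_
  rcases hx.2.eq_or_lt with e | e
  · subst e; simp [tang, max_eq_right hb1.le]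
  · exact circle_le_tang (le_max_of_le_left hb0) (max_lt hb1 e) hx.1 hx.2

lemma hom_mem (hf : Prof5 f) {b x : ℝ} (hb0 : 0 ≤ b) (hb1 : b < 1) (hx : x ∈ Icc (0 : ℝ) 1) :
    0 ≤ hom f b x ∧ hom f b x ≤ 9 / 4 :=
  ⟨(sqrt_nonneg _).trans (hf.hom_ge hb0 hb1 hx), (min_le_left _ _).trans (hf.le_max' hx)⟩

lemma hom_meas (hf : Prof5 f) (b : ℝ) :
    AEStronglyMeasurable (hom f b) (volume.restrict (Ι (0 : ℝ) 1)) :=
  (hf.meas.aemeasurable.min (by unfold tang; fun_prop)).aestronglyMeasurable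

variable {w : ℝ → ℝ} (hw : Continuous w) (hw1 : ∀ x ∈ Icc (0 : ℝ) 1, |w x| ≤ 1) (k : ℕ)

include hw in
lemma pow_meas (hf : Prof5 f) (b : ℝ) :
    AEStronglyMeasurable (fun x => w x * hom f b x ^ k) (volume.restrict (Ι (0 : ℝ) 1)) :=
  hw.aestronglyMeasurable.mul ((hf.hom_meas b).pow k)

include hw hw1 in
lemma pow_int (hf : Prof5 f) {b : ℝ} (h0 : 0 ≤ b) (h1 : b < 1) :
    IntervalIntegrable (fun x => w x * hom f b x ^ k) volume 0 1 :=
  Prof.integrable_of_bound (C := 1 * (9 / 4) ^ k) (hf.pow_meas hw k b) fun x hx => by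
    obtain ⟨h2, h3⟩ := hf.hom_mem h0 h1 hx
    rw [abs_mul, abs_of_nonneg (pow_nonneg h2 k)]
    exact mul_le_mul (hw1 x hx) (pow_le_pow_left₀ h2 h3 k) (pow_nonneg h2 k) (by norm_num)

include hw1 in
lemma pow_sub_le (hf : Prof5 f) {b b' B x : ℝ} (hx : x ∈ Icc (0 : ℝ) 1) (h0 : 0 ≤ b) (h : b ≤ b')
    (h2 : b' ≤ B) (hB : B < 1) :
    |w x * hom f b' x ^ k - w x * hom f b x ^ k| ≤
      k * (9 / 4) ^ (k - 1) / √(1 - B ^ 2) ^ 3 * (b' - b) := by
  obtain ⟨a1, a2⟩ := hf.hom_mem h0 (lt_of_le_of_lt (h.trans h2) hB) hx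
  obtain ⟨a3, a4⟩ := hf.hom_mem (h0.trans h) (h2.trans_lt hB) hx
  have hd := Prof.hom_sub_le (f := f) hx h0 h h2 hB
  rw [← mul_sub, abs_mul]
  refine (mul_le_of_le_one_left (abs_nonneg _) (hw1 x hx)).trans ?_
  refine (abs_pow_sub_pow_le _ _ _).trans ?_
  rw [abs_of_nonneg a1, abs_of_nonneg a3]
  have hp : max (hom f b' x) (hom f b x) ^ (k - 1) ≤ (9 / 4 : ℝ) ^ (k - 1) :=
    pow_le_pow_left₀ (le_max_of_le_left a3) (max_le a4 a2) _
  calc |hom f b' x - hom f b x| * k * max (hom f b' x) (hom f b x) ^ (k - 1)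
      ≤ (1 / √(1 - B ^ 2) ^ 3 * (b' - b)) * k * (9 / 4 : ℝ) ^ (k - 1) :=
        mul_le_mul (mul_le_mul_of_nonneg_right hd (Nat.cast_nonneg _)) hp (by positivity)
          (mul_nonneg (mul_nonneg (by positivity) (by linarith)) (Nat.cast_nonneg _))
    _ = _ := by ring

include hw hw1 in
lemma mom_cont (hf : Prof5 f) {B : ℝ} (hB : B < 1) : ContinuousOn (mom w k f) (Icc 0 B) := by
  refine Prof.lip_cont (C := k * (9 / 4) ^ (k - 1) / √(1 - B ^ 2) ^ 3) fun b b' h0 h h2 => ?_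
  rw [mom, mom, ← integral_sub (hf.pow_int hw hw1 k (h0.trans h) (h2.trans_lt hB))
    (hf.pow_int hw hw1 k h0 (by linarith))]
  exact Prof.abs_integral_le fun x hx => hf.pow_sub_le hw1 k hx h0 h h2 hB

include hw hw1 in
lemma hasDeriv_mom (hf : Prof5 f) {b : ℝ} (h0 : 0 ≤ b) (h1 : b < 1) :
    HasDerivWithinAt (mom w k f)
      (∫ x in (0 : ℝ)..1, w x * (k * hom f b x ^ (k - 1)) * Prof.dHom f b x) (Ioi b) b := by
  obtain ⟨B, hbB, hB⟩ := exists_between h1
  refine Prof.hasDeriv_param hbB (fun z hz => hf.pow_int hw hw1 k (h0.trans hz.1) (hz.2.trans_lt hB))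
    (fun z hz x hx => hf.pow_sub_le hw1 k hx h0 hz.1 hz.2 hB) fun x hx hxb => ?_
  have hF : HasDerivWithinAt (fun z => hom f z x) (Prof.dHom f b x) (Ioi b) b :=
    (hasDerivWithinAt_iff_tendsto_slope' (show b ∉ Ioi b from lt_irrefl b)).2
      (Prof.tendsto_slope_hom (f := f) h0 h1 hx.1 hxb)
  have := (hasDerivWithinAt_iff_tendsto_slope' (show b ∉ Ioi b from lt_irrefl b)).1
    ((hF.pow k).const_mul (w x))
  simpa [Pi.pow_def, mul_assoc, mul_comm, mul_left_comm] using this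

/-- The three integrals along the active segment. -/
lemma seg_ints {b s r t : ℝ} (hbs : s ^ 2 = 1 - b ^ 2) (hs : 0 < s) (ht : t = b - b * s * r) :
    (∫ z in t..b, ((1 - b * z) / s) ^ 2 * ((b - z) / s ^ 3)) = b ^ 2 * r ^ 2 / s * segI s r ∧
    (∫ z in t..b, ((1 - b * z) / s) ^ 3 * ((b - z) / s ^ 3)) = b ^ 2 * r ^ 2 / s * segV s r ∧
    (∫ z in t..b, z ^ 2 * ((1 - b * z) / s) ^ 3 * ((b - z) / s ^ 3)) =
      b ^ 2 * r ^ 2 / s * segT s r ∧
    (∫ z in t..b, ((1 - b * z) / s) ^ 3) = b * s * r * lineI s r ∧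
    (∫ z in t..b, ((1 - b * z) / s) ^ 4) = b * s * r * lineV s r := by
  have hbb : 1 - s ^ 2 = b ^ 2 := by linarith
  set L := b * s * r with hL
  set k := (1 - s ^ 2) * r with hk
  have hsub : ∀ g : ℝ → ℝ, ∫ z in t..b, g z = L * ∫ σ in (0 : ℝ)..1, g (b - L * σ) := fun g => by
    rw [intervalIntegral.mul_integral_comp_sub_mul, ht]; simp
  have hline : ∀ σ, (1 - b * (b - L * σ)) / s = s + k * σ := fun σ => by
    rw [hk, div_eq_iff hs.ne', hL, hbb]; linear_combination -hbs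
  have hw : ∀ σ, (b - (b - L * σ)) / s ^ 3 = L / s ^ 3 * σ := fun σ => by ring
  refine ⟨?_, ?_, ?_, ?_, ?_⟩ <;> rw [hsub]
  · simp only [hline, hw]
    rw [intervalIntegral.integral_congr (g := fun σ => L / s ^ 3 * (0 + s ^ 2 * σ ^ 1
        + 2 * s * k * σ ^ 2 + k ^ 2 * σ ^ 3 + 0 * σ ^ 4 + 0 * σ ^ 5 + 0 * σ ^ 6)) fun σ _ => by ring,
      intervalIntegral.integral_const_mul]
    rw [poly6, segI, hk, hL, hbb]; field_simp; ring
  · simp only [hline, hw]
    rw [intervalIntegral.integral_congr (g := fun σ => L / s ^ 3 * (0 + s ^ 3 * σ ^ 1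
        + 3 * s ^ 2 * k * σ ^ 2 + 3 * s * k ^ 2 * σ ^ 3 + k ^ 3 * σ ^ 4 + 0 * σ ^ 5 + 0 * σ ^ 6))
        fun σ _ => by ring, intervalIntegral.integral_const_mul]
    rw [poly6, segV, hk, hL, hbb]; field_simp; ring
  · simp only [hline, hw]
    rw [intervalIntegral.integral_congr (g := fun σ => b ^ 2 * (L / s ^ 3) * (0 + s ^ 3 * σ ^ 1
        + (3 * s ^ 2 * k - 2 * s * r * s ^ 3) * σ ^ 2
        + (3 * s * k ^ 2 - 2 * s * r * (3 * s ^ 2 * k) + s ^ 2 * r ^ 2 * s ^ 3) * σ ^ 3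
        + (k ^ 3 - 2 * s * r * (3 * s * k ^ 2) + s ^ 2 * r ^ 2 * (3 * s ^ 2 * k)) * σ ^ 4
        + (-(2 * s * r * k ^ 3) + s ^ 2 * r ^ 2 * (3 * s * k ^ 2)) * σ ^ 5
        + s ^ 2 * r ^ 2 * k ^ 3 * σ ^ 6))
        fun σ _ => by simp only [hL]; ring, intervalIntegral.integral_const_mul]
    rw [poly6, segT, segV, hk, hL, hbb]; field_simp; ring
  · simp only [hline]
    rw [intervalIntegral.integral_congr (g := fun σ => s ^ 3 + 3 * s ^ 2 * k * σ ^ 1
        + 3 * s * k ^ 2 * σ ^ 2 + k ^ 3 * σ ^ 3 + 0 * σ ^ 4 + 0 * σ ^ 5 + 0 * σ ^ 6)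
        fun σ _ => by ring]
    rw [poly6, lineI, hk]; ring
  · simp only [hline]
    rw [intervalIntegral.integral_congr (g := fun σ => s ^ 4 + 4 * s ^ 3 * k * σ ^ 1
        + 6 * s ^ 2 * k ^ 2 * σ ^ 2 + 4 * s * k ^ 3 * σ ^ 3 + k ^ 4 * σ ^ 4 + 0 * σ ^ 5 + 0 * σ ^ 6)
        fun σ _ => by ring]
    rw [poly6, lineV, hk]; ring

lemma one_le_state (hf : Prof5 f) {b : ℝ} (h0 : 0 ≤ b) (h1 : b < 1) :
    1 ≤ nI f b ∧ 1 ≤ nV f b := by
  have hc : Continuous fun x : ℝ => √(1 - x ^ 2) :=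
    (continuous_const.sub (continuous_pow 2)).sqrt
  have h : ∀ k : ℕ, ∫ x in (0 : ℝ)..1, √(1 - x ^ 2) ^ k ≤ mom (fun _ => 1) k f b := fun k => by
    refine intervalIntegral.integral_mono_on zero_le_one ((hc.pow k).intervalIntegrable _ _)
      (hf.pow_int continuous_const (fun x _ => by norm_num) k h0 h1) fun x hx => ?_
    rw [one_mul]
    exact pow_le_pow_left₀ (sqrt_nonneg _) (hf.hom_ge h0 h1 hx) k
  have h4 : ∫ x in (0 : ℝ)..1, √(1 - x ^ 2) ^ 4 = 8 / 15 := by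
    rw [intervalIntegral.integral_congr (g := fun x => 1 + 0 * x ^ 1 + (-2) * x ^ 2 + 0 * x ^ 3
      + 1 * x ^ 4 + 0 * x ^ 5 + 0 * x ^ 6) fun x hx => by
        rw [uIcc_of_le zero_le_one] at hx
        simp only
        rw [show (4 : ℕ) = 2 * 2 by norm_num, pow_mul, sq_sqrt (by nlinarith [hx.1, hx.2])]
        ring]
    rw [poly6]; norm_num
  constructor
  · have := h 3
    rw [(Four.Prof4.cube_circle).1] at this
    rw [nI, div_mul_eq_mul_div, le_div_iff₀ (by positivity)]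
    linarith
  · have := h 4
    rw [h4] at this
    rw [nV]; linarith

lemma sign_step (hkey : KeyFive) (hf : Prof5 f) {b : ℝ} (h0 : 0 ≤ b) (h1 : b < 1) {i v DI DV DT : ℝ}
    (hi : i = nI f b) (hv : v = nV f b)
    (hDI : DI = 16 / π * ∫ x in (0 : ℝ)..1, hom f b x ^ 2 * Prof.dHom f b x)
    (hDV : DV = 15 / 2 * ∫ x in (0 : ℝ)..1, hom f b x ^ 3 * Prof.dHom f b x)
    (hDT : DT = 105 / 2 * ∫ x in (0 : ℝ)..1, x ^ 2 * hom f b x ^ 3 * Prof.dHom f b x) :
    (i ^ (4 / 3 : ℝ) ≤ v → 0 ≤ (2823 / 200 + 3 * v ^ (-(3 / 4) : ℝ)) * DI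
      + (7 / 5 * v ^ (2 / 5 : ℝ) - 3 / 4 * (2823 / 200) * v ^ (-(1 / 4) : ℝ)
        - 9 / 4 * i * v ^ (-(7 / 4) : ℝ)) * DV - DT) ∧
    (v ≤ i ^ (4 / 3 : ℝ) → 0 ≤ (129 / 10 * (4 / 3) * i ^ (1 / 3 : ℝ)
      + 28 / 15 * i ^ (13 / 15 : ℝ)) * DI - 129 / 10 * DV - DT) := by
  set E : Set ℝ := {x | 0 ≤ x ∧ x < b ∧ tang x b < f x} with hE
  rcases E.eq_empty_or_nonempty with hne | hne
  · have hz : ∀ x ∈ Icc (0 : ℝ) 1, Prof.dHom f b x = 0 := fun x hx =>
      Set.indicator_of_notMem (s := {z | z < b ∧ tang z b < f z})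
        (fun hm => (Set.eq_empty_iff_forall_notMem.1 hne x) ⟨hx.1, hm⟩) _
    have ez : ∀ g : ℝ → ℝ, ∫ x in (0 : ℝ)..1, g x * Prof.dHom f b x = 0 := fun g => by
      rw [intervalIntegral.integral_congr (g := fun _ => 0) (by
        rw [uIcc_of_le zero_le_one]; exact fun x hx => by simp [hz x hx])]
      simp
    simp [hDI, hDV, hDT, ez]
  set s := √(1 - b ^ 2) with hsd
  have hs : 0 < s := sqrt_pos_of_lt h0 h1
  have hss : s ^ 2 = 1 - b ^ 2 := sq_sqrt (by nlinarith)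
  set t := sInf E with htd
  have hbd : BddBelow E := ⟨0, fun x hx => hx.1⟩
  obtain ⟨e₀, he₀⟩ := hne
  have ht0 : 0 ≤ t := le_csInf ⟨e₀, he₀⟩ fun x hx => hx.1
  have htb : t < b := (csInf_le hbd he₀).trans_lt he₀.2.1
  have htm : t ∈ Icc (0 : ℝ) 1 := ⟨ht0, by linarith⟩
  have hup : ∀ x, t < x → x < b → tang x b < f x := by
    intro x hx hxb
    obtain ⟨e, he, hex⟩ := exists_lt_of_csInf_lt ⟨e₀, he₀⟩ hx
    set θ := (b - x) / (b - e) with hθ
    have hbe : 0 < b - e := by linarith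
    have hθ0 : 0 < θ := div_pos (by linarith) hbe
    have hθ1 : θ ≤ 1 := (div_le_one hbe).2 (by linarith)
    have hxc : θ • e + (1 - θ) • b = x := by
      simp only [smul_eq_mul, hθ]; field_simp; ring
    have hc := hf.conc.2 (x := e) (y := b) ⟨by linarith [he.1], by linarith [he.2.1]⟩
      ⟨by linarith, h1.le⟩ hθ0.le (sub_nonneg.2 hθ1) (by ring)
    rw [hxc] at hc
    simp only [smul_eq_mul] at hc hxc
    have hb' : tang b b ≤ f b := by rw [tang_self]; exact hf.circle' ⟨h0, h1.le⟩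
    have haff : tang x b = θ * tang e b + (1 - θ) * tang b b := by
      simp only [tang, ← hsd]; rw [← hxc]; field_simp; ring
    have q1 := mul_lt_mul_of_pos_left he.2.2 hθ0
    have q2 := mul_le_mul_of_nonneg_left hb' (sub_nonneg.2 hθ1)
    linarith
  have hlow : ∀ x, 0 ≤ x → x < t → f x ≤ tang x b := by
    intro x hx hxt
    by_contra hc
    exact absurd (csInf_le hbd ⟨hx, hxt.trans htb, not_le.1 hc⟩) (not_le.2 hxt)
  have hlim : ∀ M, (∀ e ∈ E, tang e b ≤ M) → tang t b ≤ M := by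
    intro M hM
    refine le_of_forall_pos_le_add fun ε hε => ?_
    obtain ⟨e, he, het⟩ := exists_lt_of_csInf_lt ⟨e₀, he₀⟩
      (lt_add_of_pos_right t (show (0 : ℝ) < ε * s by positivity))
    have h3 : tang t b = tang e b + b * (e - t) / s := by
      simp only [tang, ← hsd]; field_simp; ring
    have h4 : b * (e - t) / s ≤ ε := by
      rw [div_le_iff₀ hs]
      calc b * (e - t) ≤ 1 * (e - t) := by
            refine mul_le_mul_of_nonneg_right h1.le ?_
            linarith [csInf_le hbd he]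
        _ ≤ ε * s := by linarith
    linarith [hM e he]
  have hy : tang t b ≤ f t := hlim _ fun e he =>
    he.2.2.le.trans (hf.anti htm ⟨he.1, by linarith [he.2.1]⟩ (csInf_le hbd he))
  -- the parameters of the state
  have hbpos : 0 < b := ht0.trans_lt htb
  set r := (b - t) / (b * s) with hr
  have hr0 : 0 ≤ r := div_nonneg (by linarith) (by positivity)
  have hLe : b - t = b * s * r := by rw [hr]; field_simp
  have hbb : 1 - s ^ 2 = b ^ 2 := by linarith
  have hbs : √(1 - s ^ 2) = b := by rw [hbb, sqrt_sq h0]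
  have hft : footT s r = t := by rw [footT, hbs]; linear_combination hLe
  have hyr : endY s r = tang t b := by
    rw [endY, tang, ← hsd, eq_div_iff hs.ne', hbb]
    linear_combination -b * hLe + hss
  have hsr : s * r ≤ 1 := by
    rw [hr, show s * ((b - t) / (b * s)) = (b - t) / b by field_simp, div_le_one hbpos]; linarith
  have hs1 : s ≤ 1 := sqrt_le_one.2 (by nlinarith)
  have hH : Head s r f := by
    refine ⟨?_, ?_, ?_, hf.zero_le, ?_, ?_⟩
    · rw [hft]; exact hf.conc.subset (Icc_subset_Icc (by norm_num) htm.2) (convex_Icc _ _)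
    · rw [hft]; exact hf.anti.mono (Icc_subset_Icc le_rfl htm.2)
    · simpa using hf.circle 0 (by norm_num)
    · rw [hft, hyr]; exact hy
    · rw [hft]; exact fun z hz => hf.circle' ⟨hz.1, hz.2.trans htm.2⟩
  have hk := hkey s r f hs hs1 hr0 hsr (by rw [hyr]; exact hy.trans (hf.le_max' htm)) hH
  -- the integrals
  obtain ⟨q1, q2, q3, q4, q5⟩ := seg_ints (b := b) (s := s) (r := r) (t := t) hss hs (by linarith)
  have hhead : ∀ k : ℕ, ∫ x in (0 : ℝ)..t, hom f b x ^ k = ∫ x in (0 : ℝ)..t, f x ^ k := by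
    intro k
    refine intervalIntegral.integral_congr_ae ?_
    filter_upwards [Measure.ae_ne volume t] with x hxt hx
    rw [uIoc_of_le ht0] at hx
    have hxlt : x < t := lt_of_le_of_ne hx.2 hxt
    rw [hom, max_eq_left (hxlt.trans htb).le, min_eq_left (hlow x hx.1.le hxlt)]
  have hseg : ∀ k : ℕ, ∫ x in t..b, hom f b x ^ k = ∫ x in t..b, ((1 - b * x) / s) ^ k := by
    intro k
    refine intervalIntegral.integral_congr_ae ?_
    filter_upwards [Measure.ae_ne volume b] with x hxb hx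
    rw [uIoc_of_le htb.le] at hx
    rw [hom, max_eq_left hx.2, min_eq_right (hup x hx.1 (lt_of_le_of_ne hx.2 hxb)).le, tang]
  have hcap : ∀ k : ℕ, ∫ x in b..1, hom f b x ^ k = ∫ x in b..1, √(1 - x ^ 2) ^ k := by
    intro k
    refine intervalIntegral.integral_congr fun x hx => ?_
    rw [uIcc_of_le h1.le] at hx
    simp only [hom, max_eq_right hx.1, tang_self,
      min_eq_right (hf.circle' ⟨h0.trans hx.1, hx.2⟩)]
  have hsum : ∀ k : ℕ, mom (fun _ => 1) k f b = (∫ x in (0 : ℝ)..t, f x ^ k) +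
      (∫ x in t..b, ((1 - b * x) / s) ^ k) + ∫ x in b..1, √(1 - x ^ 2) ^ k := by
    intro k
    have hFi : ∀ a c, a ∈ Icc (0 : ℝ) 1 → c ∈ Icc (0 : ℝ) 1 →
        IntervalIntegrable (fun x => hom f b x ^ k) volume a c := fun a c ha hc => by
      have := hf.pow_int (w := fun _ : ℝ => (1 : ℝ)) continuous_const (fun x _ => by norm_num) k h0 h1
      simp only [one_mul] at this
      exact this.mono_set
        (uIcc_subset_uIcc (by rwa [uIcc_of_le zero_le_one]) (by rwa [uIcc_of_le zero_le_one]))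
    have hz : (0 : ℝ) ∈ Icc (0 : ℝ) 1 := ⟨le_rfl, zero_le_one⟩
    have ho : (1 : ℝ) ∈ Icc (0 : ℝ) 1 := ⟨zero_le_one, le_rfl⟩
    have hbm : b ∈ Icc (0 : ℝ) 1 := ⟨h0, h1.le⟩
    rw [← hhead, ← hseg, ← hcap, mom]
    simp only [one_mul]
    rw [integral_add_adjacent_intervals (hFi 0 t hz htm) (hFi t b htm hbm),
      integral_add_adjacent_intervals (hFi 0 b hz hbm) (hFi b 1 hbm ho)]
  have hcapV : ∫ x in b..1, √(1 - x ^ 2) ^ 4 = capV s := by
    rw [intervalIntegral.integral_congr (g := fun x => 1 - 2 * x ^ 2 + x ^ 4) fun x hx => by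
      rw [uIcc_of_le h1.le] at hx
      simp only
      rw [show (4 : ℕ) = 2 * 2 by norm_num, pow_mul,
        sq_sqrt (by nlinarith [h0.trans hx.1, hx.2])]
      ring]
    rw [capV, hbs, hbb, integral_eq_sub_of_hasDerivAt
      (f := fun x => x - 2 * (x ^ 3 / 3) + x ^ 5 / 5) (fun x _ => ?_)
      (Continuous.intervalIntegrable (by fun_prop) _ _)]
    · ring
    · refine (((hasDerivAt_id x).sub (((hasDerivAt_pow 3 x).div_const 3).const_mul 2)).add
        ((hasDerivAt_pow 5 x).div_const 5)).congr_deriv ?_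
      push_cast; ring
  have ei : i = stateI s r (∫ z in (0 : ℝ)..footT s r, f z ^ 3) := by
    rw [hi, nI, hsum, stateI, hft, hbs, q4, capI, hbs]
  have ev : v = stateV s r (∫ z in (0 : ℝ)..footT s r, f z ^ 4) := by
    rw [hv, nV, hsum, stateV, hft, hbs, q5, hcapV]
  simp only [← ei, ← ev] at hk
  -- both derivative integrals live on `(t, b]`
  have hred : ∀ g : ℝ → ℝ → ℝ, ∫ x in (0 : ℝ)..1, g x (hom f b x) * Prof.dHom f b x =
      ∫ z in t..b, g z ((1 - b * z) / s) * ((b - z) / s ^ 3) := by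
    intro g
    have hae : ∀ᵐ x ∂volume, x ∈ Ι (0 : ℝ) 1 → g x (hom f b x) * Prof.dHom f b x =
        (Ioc t b).indicator (fun z => g z ((1 - b * z) / s) * ((b - z) / s ^ 3)) x := by
      filter_upwards [Measure.ae_ne volume t, Measure.ae_ne volume b] with x hxt hxb hx
      rw [uIoc_of_le zero_le_one] at hx
      by_cases hm : x ∈ Ioc t b
      · have hlt : x < b := lt_of_le_of_ne hm.2 hxb
        have hD : Prof.dHom f b x = (b - x) / s ^ 3 :=
          Set.indicator_of_mem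
            (show x ∈ {z | z < b ∧ tang z b < f z} from ⟨hlt, hup x hm.1 hlt⟩) _
        rw [Set.indicator_of_mem hm, hD, hom, max_eq_left hm.2,
          min_eq_right (hup x hm.1 hlt).le, tang]
      · have hD : Prof.dHom f b x = 0 := Set.indicator_of_notMem (s := {z | z < b ∧ tang z b < f z})
          (fun h => hm ⟨lt_of_le_of_ne (csInf_le hbd ⟨hx.1.le, h⟩) (Ne.symm hxt), h.1.le⟩) _
        rw [Set.indicator_of_notMem hm, hD, mul_zero]
    rw [integral_congr_ae hae, integral_of_le zero_le_one, setIntegral_indicator measurableSet_Ioc,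
      inter_eq_right.2 (Ioc_subset_Ioc ht0 h1.le), ← integral_of_le htb.le]
  set K := b ^ 2 * r ^ 2 / s with hK
  have hK0 : 0 ≤ K := by positivity
  have eI : DI = K * (16 / π * segI s r) := by
    rw [hDI, hred fun _ u => u ^ 2, q1]; ring
  have eV : DV = K * (15 / 2 * segV s r) := by
    rw [hDV, hred fun _ u => u ^ 3, q2]; ring
  have eT : DT = K * (105 / 2 * segT s r) := by
    rw [hDT, hred fun z u => z ^ 2 * u ^ 3, q3]; ring
  refine ⟨fun h => ?_, fun h => ?_⟩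
  · have h2 := mul_nonneg hK0 (hk.1 h)
    rw [eI, eV, eT]; rw [derLow] at h2
    linarith
  · have h2 := mul_nonneg hK0 (hk.2 h)
    rw [eI, eV, eT]; rw [derHigh] at h2
    linarith

lemma deriv_step (hkey : KeyFive) (hf : Prof5 f) {b : ℝ} (h0 : 0 ≤ b) (h1 : b < 1) :
    ∃ P : ℝ → ℝ, ∃ D : ℝ, HasDerivWithinAt P D (Ioi b) b ∧ 0 ≤ D ∧ P b = pot f b ∧
      ∀ z, P z ≤ pot f z := by
  obtain ⟨hi1, hv1⟩ := hf.one_le_state h0 h1
  set i := nI f b with hi
  set v := nV f b with hv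
  set DI := 16 / π * ∫ x in (0 : ℝ)..1, hom f b x ^ 2 * Prof.dHom f b x with hDI
  set DV := 15 / 2 * ∫ x in (0 : ℝ)..1, hom f b x ^ 3 * Prof.dHom f b x with hDV
  set DT := 105 / 2 * ∫ x in (0 : ℝ)..1, x ^ 2 * hom f b x ^ 3 * Prof.dHom f b x with hDT
  have w1 : ∀ x ∈ Icc (0 : ℝ) 1, |(fun _ : ℝ => (1 : ℝ)) x| ≤ 1 := fun x _ => by norm_num
  have w2 : ∀ x ∈ Icc (0 : ℝ) 1, |(fun x : ℝ => x ^ 2) x| ≤ 1 := fun x hx => by
    rw [abs_of_nonneg (sq_nonneg _)]; exact pow_le_one₀ hx.1 hx.2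
  have dI : HasDerivWithinAt (nI f) DI (Ioi b) b := by
    refine ((hf.hasDeriv_mom continuous_const w1 3 h0 h1).const_mul (16 / (3 * π))).congr_deriv ?_
    rw [hDI, intervalIntegral.integral_congr
      (g := fun x => 3 * (hom f b x ^ 2 * Prof.dHom f b x)) fun x _ => by norm_num; ring,
      intervalIntegral.integral_const_mul]
    field_simp
  have dV : HasDerivWithinAt (nV f) DV (Ioi b) b := by
    refine ((hf.hasDeriv_mom continuous_const w1 4 h0 h1).const_mul (15 / 8)).congr_deriv ?_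
    rw [hDV, intervalIntegral.integral_congr
      (g := fun x => 4 * (hom f b x ^ 3 * Prof.dHom f b x)) fun x _ => by norm_num; ring,
      intervalIntegral.integral_const_mul]
    ring
  have dT : HasDerivWithinAt (nT f) DT (Ioi b) b := by
    refine ((hf.hasDeriv_mom (w := fun x => x ^ 2) (by fun_prop) w2 4 h0 h1).const_mul
      (105 / 8)).congr_deriv ?_
    rw [hDT, intervalIntegral.integral_congr
      (g := fun x => 4 * (x ^ 2 * hom f b x ^ 3 * Prof.dHom f b x)) fun x _ => by norm_num; ring,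
      intervalIntegral.integral_const_mul]
    ring
  -- the two derivatives
  have hvp : 0 < v := by linarith
  have hip : 0 < i := by linarith
  set DL := (2823 / 200 + 3 * v ^ (-(3 / 4) : ℝ)) * DI
    + (7 / 5 * v ^ (2 / 5 : ℝ) - 3 / 4 * (2823 / 200) * v ^ (-(1 / 4) : ℝ)
        - 9 / 4 * i * v ^ (-(7 / 4) : ℝ)) * DV with hDL
  set DH := (129 / 10 * (4 / 3) * i ^ (1 / 3 : ℝ) + 28 / 15 * i ^ (13 / 15 : ℝ)) * DI
    - 129 / 10 * DV with hDH
  have dL : HasDerivWithinAt (fun z => potLow (nI f z) (nV f z) - nT f z) (DL - DT) (Ioi b) b := by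
    have e1 : v ^ (-(7 / 4) : ℝ) * v ^ (3 / 4 : ℝ) = v ^ (-1 : ℝ) := by
      rw [← Real.rpow_add hvp]; norm_num
    have e2 : v ^ (-(3 / 4) : ℝ) * v ^ (-(1 / 4) : ℝ) = v ^ (-1 : ℝ) := by
      rw [← Real.rpow_add hvp]; norm_num
    have hp := fun p : ℝ => dV.rpow_const (p := p) (Or.inl hvp.ne')
    refine (((hp (7 / 5)).add ((((hp (-(3 / 4))).const_mul 3).const_add (2823 / 200)).mul
      (dI.sub (hp (3 / 4))))).sub dT).congr_deriv ?_
    simp only [Pi.sub_apply, ← hi, ← hv, hDL]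
    norm_num
    norm_num at e1 e2
    linear_combination (9 / 4 * DV) * e1 - (9 / 4 * DV) * e2
  have dH : HasDerivWithinAt (fun z => potHigh (nI f z) (nV f z) - nT f z) (DH - DT) (Ioi b) b := by
    have hp := fun p : ℝ => dI.rpow_const (p := p) (Or.inl hip.ne')
    refine (((hp (28 / 15)).add (((hp (4 / 3)).sub dV).const_mul (129 / 10))).sub dT).congr_deriv ?_
    simp only [← hi, hDH]
    norm_num
    ring
  have hord := pot_order hi1 hv1
  -- the sign
  have hs := sign_step hkey hf h0 h1 hi hv hDI hDV hDT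
  rcases le_total (i ^ (4 / 3 : ℝ)) v with h | h
  · exact ⟨_, _, dL, hs.1 h, by rw [pot, ← hi, ← hv, max_eq_left (hord.1 h)],
      fun z => sub_le_sub_right (le_max_left _ _) _⟩
  · exact ⟨_, _, dH, hs.2 h, by rw [pot, ← hi, ← hv, max_eq_right (hord.2 h)],
      fun z => sub_le_sub_right (le_max_right _ _) _⟩

lemma pot_cont (hf : Prof5 f) {B : ℝ} (hB : B < 1) : ContinuousOn (pot f) (Icc 0 B) := by
  have w1 : ∀ x ∈ Icc (0 : ℝ) 1, |(fun _ : ℝ => (1 : ℝ)) x| ≤ 1 := fun x _ => by norm_num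
  have w2 : ∀ x ∈ Icc (0 : ℝ) 1, |(fun x : ℝ => x ^ 2) x| ≤ 1 := fun x hx => by
    rw [abs_of_nonneg (sq_nonneg _)]; exact pow_le_one₀ hx.1 hx.2
  have cI : ContinuousOn (nI f) (Icc 0 B) :=
    continuousOn_const.mul (hf.mom_cont continuous_const w1 3 hB)
  have cV : ContinuousOn (nV f) (Icc 0 B) :=
    continuousOn_const.mul (hf.mom_cont continuous_const w1 4 hB)
  have cT : ContinuousOn (nT f) (Icc 0 B) :=
    continuousOn_const.mul (hf.mom_cont (w := fun x => x ^ 2) (by fun_prop) w2 4 hB)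
  have hv : ∀ z ∈ Icc 0 B, nV f z ≠ 0 := fun z hz => by
    linarith [(hf.one_le_state hz.1 (hz.2.trans_lt hB)).2]
  have pv : ∀ p : ℝ, ContinuousOn (fun z => nV f z ^ p) (Icc 0 B) := fun p =>
    cV.rpow_const fun z hz => Or.inl (hv z hz)
  have piw : ∀ p : ℝ, 0 ≤ p → ContinuousOn (fun z => nI f z ^ p) (Icc 0 B) := fun p hp =>
    cI.rpow_const fun z _ => Or.inr hp
  unfold pot potLow potHigh
  exact (continuous_max.comp_continuousOn (((pv _).add ((continuousOn_const.add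
      (continuousOn_const.mul (pv _))).mul (cI.sub (pv _)))).prodMk
    ((piw _ (by norm_num)).add (continuousOn_const.mul ((piw _ (by norm_num)).sub cV))))).sub cT

lemma pot_mono (hkey : KeyFive) (hf : Prof5 f) {B : ℝ} (h0 : 0 ≤ B) (hB : B < 1) :
    pot f 0 ≤ pot f B := by
  have := image_le_of_liminf_slope_right_le_deriv_boundary (a := (0 : ℝ)) (b := B)
    (f := fun z => -pot f z) (B := fun _ => -pot f 0) (B' := fun _ => 0)
    (hf.pot_cont hB).neg le_rfl continuousOn_const (fun x _ => hasDerivWithinAt_const _ _ _)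
    (fun x hx r hr => ?_) (right_mem_Icc.2 h0)
  · exact neg_le_neg_iff.1 this
  obtain ⟨P, D, hP, hD, hPx, hPle⟩ := deriv_step hkey hf hx.1 (hx.2.trans hB)
  have h2 := ((hasDerivWithinAt_iff_tendsto_slope' (show x ∉ Ioi x from lt_irrefl x)).1 hP.neg
    ).eventually (eventually_lt_nhds (show -D < r by linarith))
  refine (Filter.Eventually.frequently ?_)
  filter_upwards [h2, self_mem_nhdsWithin] with z hz hzx
  refine lt_of_le_of_lt ?_ hz
  have hzx : x < z := hzx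
  rw [slope_def_field, slope_def_field]
  refine div_le_div_of_nonneg_right ?_ (by linarith)
  simp only [Pi.neg_apply]
  linarith [hPle z]

lemma half_ineq (hkey : KeyFive) (hf : Prof5 f) {i v τ : ℝ}
    (hi : i = 16 / (3 * π) * ∫ x in (0 : ℝ)..1, f x ^ 3)
    (hv : v = 15 / 8 * ∫ x in (0 : ℝ)..1, f x ^ 4)
    (hτ : τ = 105 / 8 * ∫ x in (0 : ℝ)..1, x ^ 2 * f x ^ 4) :
    τ ≤ max (potLow i v) (potHigh i v) ∧ 1 ≤ i ∧ 1 ≤ v := by
  have hc0 : Continuous fun x : ℝ => √(1 - x ^ 2) :=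
    (continuous_const.sub (continuous_pow 2)).sqrt
  have h00 : pot f 0 = 0 := by
    have e : EqOn (hom f 0) (fun x => √(1 - x ^ 2)) (uIcc (0 : ℝ) 1) := by
      rw [uIcc_of_le zero_le_one]
      intro x hx
      rw [hom, max_eq_right hx.1, tang_self, min_eq_right (hf.circle' hx)]
    have e4 : ∀ n : ℕ, ∫ x in (0 : ℝ)..1, x ^ n * √(1 - x ^ 2) ^ 4 =
        1 / ((n : ℝ) + 1) - 2 / ((n : ℝ) + 3) + 1 / ((n : ℝ) + 5) := fun n => by
      rw [intervalIntegral.integral_congr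
        (g := fun x => x ^ n - 2 * x ^ (n + 2) + x ^ (n + 4)) fun x hx => by
          rw [uIcc_of_le zero_le_one] at hx
          simp only
          rw [show (4 : ℕ) = 2 * 2 by norm_num, pow_mul, sq_sqrt (by nlinarith [hx.1, hx.2])]
          ring]
      rw [intervalIntegral.integral_add (Continuous.intervalIntegrable (by fun_prop) _ _)
          (Continuous.intervalIntegrable (by fun_prop) _ _),
        intervalIntegral.integral_sub (Continuous.intervalIntegrable (by fun_prop) _ _)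
          (Continuous.intervalIntegrable (by fun_prop) _ _),
        intervalIntegral.integral_const_mul]
      simp only [integral_pow]
      push_cast
      simp
      ring
    have eI : nI f 0 = 1 := by
      rw [nI, mom, intervalIntegral.integral_congr (g := fun x => √(1 - x ^ 2) ^ 3) fun x hx => by
        simp only [e hx, one_mul], (Four.Prof4.cube_circle).1]
      field_simp
    have eV : nV f 0 = 1 := by
      rw [nV, mom, intervalIntegral.integral_congr (g := fun x => x ^ 0 * √(1 - x ^ 2) ^ 4)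
        fun x hx => by simp only [e hx, pow_zero], e4]
      norm_num
    have eT : nT f 0 = 1 := by
      rw [nT, mom, intervalIntegral.integral_congr (g := fun x => x ^ 2 * √(1 - x ^ 2) ^ 4)
        fun x hx => by simp only [e hx], e4]
      norm_num
    simp [pot, potLow, potHigh, eI, eV, eT]
  set bn : ℕ → ℝ := fun n => 1 - 1 / ((n : ℝ) + 2) with hbn
  have hb : ∀ n, 0 ≤ bn n ∧ bn n < 1 := by
    intro n
    have h2 : (1 : ℝ) / ((n : ℝ) + 2) ≤ 1 := by
      rw [div_le_one (by positivity)]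
      linarith [(Nat.cast_nonneg n : (0 : ℝ) ≤ n)]
    have h3 : (0 : ℝ) < 1 / ((n : ℝ) + 2) := by positivity
    constructor <;> simp only [hbn] <;> linarith
  have hlim : Tendsto bn atTop (𝓝 1) := by
    have := ((tendsto_natCast_atTop_atTop (R := ℝ)).atTop_add (tendsto_const_nhds (x := (2 : ℝ)))
      ).inv_tendsto_atTop
    simpa [hbn, one_div] using this.const_sub 1
  have hpt : ∀ x, 0 ≤ x → x < 1 → ∀ᶠ n in atTop, hom f (bn n) x = f x := by
    intro x hx0 hx1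
    have hδ : Tendsto (fun n => √(1 - bn n ^ 2)) atTop (𝓝 0) := by
      simpa using ((hlim.pow 2).const_sub 1).sqrt
    filter_upwards [hlim.eventually (eventually_gt_nhds hx1),
      hδ.eventually (eventually_lt_nhds (show (0 : ℝ) < (1 - x) / 4 by linarith))] with n hn hn'
    rw [hom, max_eq_left hn.le, min_eq_left]
    rw [tang, le_div_iff₀ (sqrt_pos_of_lt (hb n).1 (hb n).2)]
    nlinarith [hf.le_max' ⟨hx0, hx1.le⟩, hf.nonneg ⟨hx0, hx1.le⟩, sqrt_nonneg (1 - bn n ^ 2),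
      (hb n).2]
  have hl : ∀ (w : ℝ → ℝ), Continuous w → (∀ x ∈ Icc (0 : ℝ) 1, |w x| ≤ 1) → ∀ k : ℕ,
      Tendsto (fun n => mom w k f (bn n)) atTop (𝓝 (∫ x in (0 : ℝ)..1, w x * f x ^ k)) := by
    intro w hw hw1 k
    refine tendsto_integral_filter_of_dominated_convergence (fun _ => 1 * (9 / 4) ^ k)
      (Eventually.of_forall fun n => hf.pow_meas hw k _) ?_ intervalIntegrable_const ?_
    · refine Eventually.of_forall fun n => Eventually.of_forall fun x hx => ?_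
      rw [uIoc_of_le zero_le_one] at hx
      obtain ⟨q1, q2⟩ := hf.hom_mem (hb n).1 (hb n).2 (Ioc_subset_Icc_self hx)
      rw [Real.norm_eq_abs, abs_mul, abs_of_nonneg (pow_nonneg q1 k)]
      exact mul_le_mul (hw1 x (Ioc_subset_Icc_self hx)) (pow_le_pow_left₀ q1 q2 k)
        (pow_nonneg q1 k) (by norm_num)
    · filter_upwards [Measure.ae_ne volume (1 : ℝ)] with x hx hx'
      rw [uIoc_of_le zero_le_one] at hx'
      exact tendsto_const_nhds.congr'
        ((hpt x hx'.1.le (lt_of_le_of_ne hx'.2 hx)).mono fun n hn => by simp only [hn])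
  have w1 : ∀ x ∈ Icc (0 : ℝ) 1, |(fun _ : ℝ => (1 : ℝ)) x| ≤ 1 := fun x _ => by norm_num
  have w2 : ∀ x ∈ Icc (0 : ℝ) 1, |(fun x : ℝ => x ^ 2) x| ≤ 1 := fun x hx => by
    rw [abs_of_nonneg (sq_nonneg _)]; exact pow_le_one₀ hx.1 hx.2
  have lI : Tendsto (fun n => nI f (bn n)) atTop (𝓝 i) := by
    simpa [nI, hi] using (hl _ continuous_const w1 3).const_mul (16 / (3 * π))
  have lV : Tendsto (fun n => nV f (bn n)) atTop (𝓝 v) := by
    simpa [nV, hv] using (hl _ continuous_const w1 4).const_mul (15 / 8 : ℝ)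
  have lT : Tendsto (fun n => nT f (bn n)) atTop (𝓝 τ) := by
    simpa [nT, hτ] using (hl (fun x => x ^ 2) (by fun_prop) w2 4).const_mul (105 / 8 : ℝ)
  have hi1 : 1 ≤ i := ge_of_tendsto' lI fun n => (hf.one_le_state (hb n).1 (hb n).2).1
  have hv1 : 1 ≤ v := ge_of_tendsto' lV fun n => (hf.one_le_state (hb n).1 (hb n).2).2
  refine ⟨?_, hi1, hv1⟩
  have pv : ∀ p : ℝ, Tendsto (fun n => nV f (bn n) ^ p) atTop (𝓝 (v ^ p)) := fun p =>
    lV.rpow_const (Or.inl (by linarith))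
  have piw : ∀ p : ℝ, 0 ≤ p → Tendsto (fun n => nI f (bn n) ^ p) atTop (𝓝 (i ^ p)) := fun p hp =>
    lI.rpow_const (Or.inr hp)
  have l0 : Tendsto (fun n => pot f (bn n)) atTop (𝓝 (max (potLow i v) (potHigh i v) - τ)) := by
    unfold pot potLow potHigh
    exact (((pv _).add ((((pv _).const_mul 3).const_add _).mul (lI.sub (pv _)))).max
      ((piw _ (by norm_num)).add (((piw _ (by norm_num)).sub lV).const_mul _))).sub lT
  exact sub_nonneg.1 (ge_of_tendsto' l0 fun n => h00 ▸ hf.pot_mono hkey (hb n).1 (hb n).2)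

end Prof5

/-- The one-dimensional lemma for `n = 5`. -/
theorem oneDimFive_of_key (hkey : KeyFive) : OneDimFive := by
  intro f hc he h2 hcirc hX
  have hf : Prof5 f := ⟨hc, he, h2, hcirc⟩
  have ip : ∀ k : ℕ, IntervalIntegrable (fun x => f x ^ k) volume 0 1 := fun k =>
    Prof.integrable_of_bound (C := (9 / 4) ^ k) (hf.meas.pow k) fun x hx => by
      rw [abs_of_nonneg (pow_nonneg (hf.nonneg hx) k)]
      exact pow_le_pow_left₀ (hf.nonneg hx) (hf.le_max' hx) k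
  rw [integral_half (h := fun x => f x ^ 3) (fun x => by rw [he]) (ip 3),
    integral_half (h := fun x => f x ^ 4) (fun x => by rw [he]) (ip 4)] at hX
  rw [integral_half (h := fun x => f x ^ 4) (fun x => by rw [he]) (ip 4),
    integral_half (h := fun x => x ^ 2 * f x ^ 4) (fun x => by rw [he, neg_sq])
      ((ip 4).continuousOn_mul (by fun_prop))]
  rw [show (2 * ∫ x in (0 : ℝ)..1, f x ^ 3) / (3 * π / 8) =
      16 / (3 * π) * ∫ x in (0 : ℝ)..1, f x ^ 3 by field_simp; ring,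
    show (2 * ∫ x in (0 : ℝ)..1, f x ^ 4) / (16 / 15) = 15 / 8 * ∫ x in (0 : ℝ)..1, f x ^ 4 by
      ring] at hX
  rw [show (2 * ∫ x in (0 : ℝ)..1, f x ^ 4) / (16 / 15) = 15 / 8 * ∫ x in (0 : ℝ)..1, f x ^ 4 by
      ring,
    show (2 * ∫ x in (0 : ℝ)..1, x ^ 2 * f x ^ 4) / (16 / 105) =
      105 / 8 * ∫ x in (0 : ℝ)..1, x ^ 2 * f x ^ 4 by ring]
  obtain ⟨h, hi1, hv1⟩ := hf.half_ineq hkey rfl rfl rfl
  generalize 16 / (3 * π) * ∫ x in (0 : ℝ)..1, f x ^ 3 = i at *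
  generalize 15 / 8 * ∫ x in (0 : ℝ)..1, f x ^ 4 = v at *
  rw [max_eq_left ((pot_order hi1 hv1).1 hX), potLow] at h
  have hw : i ≤ v ^ (3 / 4 : ℝ) := by
    have h3 := Real.rpow_le_rpow (Real.rpow_nonneg (by linarith) _) hX
      (show (0 : ℝ) ≤ 3 / 4 by norm_num)
    rwa [← Real.rpow_mul (by linarith), show (4 / 3 : ℝ) * (3 / 4) = 1 by norm_num,
      Real.rpow_one] at h3
  have hn : (2823 / 200 + 3 * v ^ (-(3 / 4) : ℝ)) * (i - v ^ (3 / 4 : ℝ)) ≤ 0 :=
    mul_nonpos_of_nonneg_of_nonpos (by positivity) (sub_nonpos.2 hw)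
  linarith

end Vale.Agent.P237.Five
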