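import Vale.Agent.P237.Five.Bounds
import Vale.Agent.P237.Five.OneDim

/-!
# P237, `n = 5`: lower envelopes of the head of the profile

`Low j₃ j₄ J₃ J₄ ym L g0` records what follows from a lower envelope of `g` on `[0, t]` with values
in `[ym, L]`: lower bounds for the two integrals and two relations between the excesses.
-/

namespace Vale.Agent.P237.Five.Cert

open MeasureTheory Set Real intervalIntegral

/-- `(h² + hL + L²) / ((h + L)(h² + L²))`. -/
noncomputable def sigma (h L : ℝ) : ℝ := (h ^ 2 + h * L + L ^ 2) / ((h + L) * (h ^ 2 + L ^ 2))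

/-- Average of the cube on a segment from `a` to `c`. -/
noncomputable def avg3 (a c : ℝ) : ℝ := (a ^ 3 + a ^ 2 * c + a * c ^ 2 + c ^ 3) / 4

/-- Average of the fourth power on a segment from `a` to `c`. -/
noncomputable def avg4 (a c : ℝ) : ℝ :=
  (a ^ 4 + a ^ 3 * c + a ^ 2 * c ^ 2 + a * c ^ 3 + c ^ 4) / 5

/-- `∫₀ˣ (1 - z²)²`. -/
noncomputable def circV (x : ℝ) : ℝ := x - 2 / 3 * x ^ 3 + 1 / 5 * x ^ 5

/-- What a lower envelope gives. -/
structure Low (j3 j4 J3 J4 ym L g0 : ℝ) : Prop where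
  le3 : J3 ≤ j3
  le4 : J4 ≤ j4
  rho : 4 / 3 * ym * (j3 - J3) ≤ j4 - J4
  sig : ∀ h, g0 ≤ h → L ≤ h → 0 < h → sigma h L * (j4 - J4) ≤ j3 - J3

lemma sigma_step {a c b : ℝ} (ha : 0 ≤ a) (hc : 0 ≤ c) (hb : 0 ≤ b) (hac : a ≤ c) :
    (c ^ 2 + c * b + b ^ 2) * ((a + b) * (a ^ 2 + b ^ 2)) ≤
      (a ^ 2 + a * b + b ^ 2) * ((c + b) * (c ^ 2 + b ^ 2)) := by
  have := mul_nonneg (sub_nonneg.2 hac) (show 0 ≤ a ^ 2 * c ^ 2 + a * b * c * (a + c)
    + b ^ 2 * (a ^ 2 + a * c + c ^ 2) by positivity)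
  linear_combination this

lemma pow_rho {x l ym : ℝ} (hy0 : 0 ≤ ym) (hyl : ym ≤ l) (hlx : l ≤ x) :
    4 / 3 * ym * (x ^ 3 - l ^ 3) ≤ x ^ 4 - l ^ 4 := by
  have hl : 0 ≤ l := hy0.trans hyl
  have h3 : 0 ≤ x ^ 3 - l ^ 3 := sub_nonneg.2 (pow_le_pow_left₀ hl hlx 3)
  have h4 : 4 / 3 * ym * (x ^ 3 - l ^ 3) ≤ 4 / 3 * l * (x ^ 3 - l ^ 3) :=
    mul_le_mul_of_nonneg_right (by linarith) h3
  nlinarith [mul_nonneg (sq_nonneg (x - l))
    (show 0 ≤ 3 * x ^ 2 + 2 * x * l + l ^ 2 by nlinarith [mul_nonneg (hl.trans hlx) hl])]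

lemma pow_sig {x l h L : ℝ} (hl : 0 ≤ l) (hlx : l ≤ x) (hlL : l ≤ L) (hxh : x ≤ h) (hh : 0 < h) :
    sigma h L * (x ^ 4 - l ^ 4) ≤ x ^ 3 - l ^ 3 := by
  have hx : 0 ≤ x := hl.trans hlx
  have hL : 0 ≤ L := hl.trans hlL
  have hd : 0 < (h + L) * (h ^ 2 + L ^ 2) := by positivity
  rcases hlx.eq_or_lt with e | e
  · subst e; simp
  have hxp : 0 < x := hl.trans_lt e
  have h1 := sigma_step hx hh.le hl hxh
  have h2 := sigma_step hl hL hh.le hlL
  have hl' : 0 < (h + l) * (h ^ 2 + l ^ 2) := by positivity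
  have key : (h ^ 2 + h * L + L ^ 2) * ((x + l) * (x ^ 2 + l ^ 2)) ≤
      (x ^ 2 + x * l + l ^ 2) * ((h + L) * (h ^ 2 + L ^ 2)) := by
    refine le_of_mul_le_mul_right ?_ hl'
    nlinarith [mul_le_mul_of_nonneg_right h1 hd.le,
      mul_le_mul_of_nonneg_left h2 (show 0 ≤ (x + l) * (x ^ 2 + l ^ 2) by positivity)]
  rw [sigma, div_mul_eq_mul_div, div_le_iff₀ hd]
  nlinarith [mul_le_mul_of_nonneg_left key (sub_nonneg.2 hlx)]

/-- Integrability of the powers of an antitone nonnegative function. -/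
lemma pow_integrable {g : ℝ → ℝ} {a c : ℝ} (hac : a ≤ c) (hg : AntitoneOn g (Icc a c))
    (h0 : ∀ z ∈ Icc a c, 0 ≤ g z) (k : ℕ) :
    IntervalIntegrable (fun z => g z ^ k) volume a c :=
  AntitoneOn.intervalIntegrable (by
    rw [uIcc_of_le hac]
    exact fun x hx y hy hxy => pow_le_pow_left₀ (h0 y hy) (hg hx hy hxy) k)

lemma low_of_env {g lo : ℝ → ℝ} {a c ym L : ℝ} (hac : a ≤ c) (hg : AntitoneOn g (Icc a c))
    (hlo : Continuous lo) (hy0 : 0 ≤ ym)
    (hb : ∀ z ∈ Icc a c, ym ≤ lo z ∧ lo z ≤ L ∧ lo z ≤ g z) :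
    Low (∫ z in a..c, g z ^ 3) (∫ z in a..c, g z ^ 4) (∫ z in a..c, lo z ^ 3)
      (∫ z in a..c, lo z ^ 4) ym L (g a) := by
  have h0 : ∀ z ∈ Icc a c, 0 ≤ g z := fun z hz =>
    (hy0.trans (hb z hz).1).trans (hb z hz).2.2
  have i3 := pow_integrable hac hg h0 3
  have i4 := pow_integrable hac hg h0 4
  have l3 : IntervalIntegrable (fun z => lo z ^ 3) volume a c := (hlo.pow 3).intervalIntegrable _ _
  have l4 : IntervalIntegrable (fun z => lo z ^ 4) volume a c := (hlo.pow 4).intervalIntegrable _ _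
  refine ⟨?_, ?_, ?_, fun h hgh _ hh => ?_⟩
  · exact integral_mono_on hac l3 i3 fun z hz =>
      pow_le_pow_left₀ (hy0.trans (hb z hz).1) (hb z hz).2.2 3
  · exact integral_mono_on hac l4 i4 fun z hz =>
      pow_le_pow_left₀ (hy0.trans (hb z hz).1) (hb z hz).2.2 4
  · rw [← integral_sub i3 l3, ← integral_sub i4 l4, ← intervalIntegral.integral_const_mul]
    exact integral_mono_on hac ((i3.sub l3).const_mul _) (i4.sub l4) fun z hz =>
      pow_rho hy0 (hb z hz).1 (hb z hz).2.2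
  · rw [← integral_sub i3 l3, ← integral_sub i4 l4, ← intervalIntegral.integral_const_mul]
    exact integral_mono_on hac ((i4.sub l4).const_mul _) (i3.sub l3) fun z hz =>
      pow_sig (hy0.trans (hb z hz).1) (hb z hz).2.2 (hb z hz).2.1
        ((hg (left_mem_Icc.2 hac) hz hz.1).trans hgh) hh

lemma Low.add {j3 j4 J3 J4 k3 k4 K3 K4 ym L g0 g1 : ℝ} (h : Low j3 j4 J3 J4 ym L g0)
    (h' : Low k3 k4 K3 K4 ym L g1) (hg : g1 ≤ g0) :
    Low (j3 + k3) (j4 + k4) (J3 + K3) (J4 + K4) ym L g0 :=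
  ⟨add_le_add h.le3 h'.le3, add_le_add h.le4 h'.le4,
    by have := h.rho; have := h'.rho; nlinarith,
    fun hh h1 h2 h3 => by
      have := h.sig hh h1 h2 h3
      have := h'.sig hh (hg.trans h1) h2 h3
      nlinarith⟩

lemma line_ints (p q a c : ℝ) :
    (∫ z in a..c, (p + q * z) ^ 3) = (c - a) * avg3 (p + q * a) (p + q * c) ∧
      (∫ z in a..c, (p + q * z) ^ 4) = (c - a) * avg4 (p + q * a) (p + q * c) := by
  obtain ⟨A, hA⟩ : ∃ A, A = p + q * a := ⟨_, rfl⟩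
  obtain ⟨K, hK⟩ : ∃ K, K = q * (c - a) := ⟨_, rfl⟩
  have hsub : ∀ F : ℝ → ℝ, ∫ z in a..c, F z = (c - a) * ∫ σ in (0 : ℝ)..1, F (a + (c - a) * σ) :=
    fun F => by rw [intervalIntegral.mul_integral_comp_add_mul]; simp
  constructor <;> rw [hsub]
  · rw [intervalIntegral.integral_congr (g := fun σ => A ^ 3 + 3 * A ^ 2 * K * σ ^ 1
      + 3 * A * K ^ 2 * σ ^ 2 + K ^ 3 * σ ^ 3 + 0 * σ ^ 4 + 0 * σ ^ 5 + 0 * σ ^ 6)
      fun σ _ => by simp only [hA, hK]; ring, poly6, avg3, hA, hK]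
    ring
  · rw [intervalIntegral.integral_congr (g := fun σ => A ^ 4 + 4 * A ^ 3 * K * σ ^ 1
      + 6 * A ^ 2 * K ^ 2 * σ ^ 2 + 4 * A * K ^ 3 * σ ^ 3 + K ^ 4 * σ ^ 4 + 0 * σ ^ 5 + 0 * σ ^ 6)
      fun σ _ => by simp only [hA, hK]; ring, poly6, avg4, hA, hK]
    ring

lemma circ4 (x : ℝ) (h0 : 0 ≤ x) (h1 : x ≤ 1) :
    ∫ z in (0 : ℝ)..x, √(1 - z ^ 2) ^ 4 = circV x := by
  rw [intervalIntegral.integral_congr (g := fun z =>
    1 + (-2) * z ^ 2 + 1 * z ^ 4 + 0 * z ^ 6 + 0 * z ^ 8) fun z hz => by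
      rw [uIcc_of_le h0] at hz
      simp only
      rw [show (4 : ℕ) = 2 * 2 by norm_num, pow_mul, sq_sqrt (by nlinarith [hz.1, hz.2])]
      ring, poly8, circV]
  ring

/-- A chord below a concave function. -/
lemma chord_below {g : ℝ → ℝ} {a c A C z : ℝ} (hg : ConcaveOn ℝ (Icc a c) g) (hA : A ≤ g a)
    (hC : C ≤ g c) (hz : z ∈ Icc a c) :
    A + (C - A) / (c - a) * (z - a) ≤ g z := by
  rcases (hz.1.trans hz.2).eq_or_lt with e | e
  · obtain rfl : z = a := le_antisymm (hz.2.trans e.ge) hz.1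
    simpa using hA
  have hca : 0 < c - a := sub_pos.2 e
  have hl0 : 0 ≤ (c - z) / (c - a) := div_nonneg (by linarith [hz.2]) hca.le
  have hl1 : 0 ≤ (z - a) / (c - a) := div_nonneg (by linarith [hz.1]) hca.le
  have hsum : (c - z) / (c - a) + (z - a) / (c - a) = 1 := by field_simp; ring
  have h := hg.2 (left_mem_Icc.2 e.le) (right_mem_Icc.2 e.le) hl0 hl1 hsum
  rw [show ((c - z) / (c - a)) • a + ((z - a) / (c - a)) • c = z by
    simp only [smul_eq_mul]; field_simp; ring] at h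
  simp only [smul_eq_mul] at h
  have h1 := mul_le_mul_of_nonneg_left hA hl0
  have h2 := mul_le_mul_of_nonneg_left hC hl1
  refine le_trans ?_ ((add_le_add h1 h2).trans h)
  apply le_of_eq
  field_simp
  ring

section

variable {s r : ℝ} {g : ℝ → ℝ}

lemma foot_mem (hs : 0 ≤ s) (hs1 : s ≤ 1) (hr : 0 ≤ r) (hsr : s * r ≤ 1) :
    0 ≤ footT s r ∧ footT s r ≤ √(1 - s ^ 2) ∧ √(1 - s ^ 2) ≤ 1 := by
  refine ⟨mul_nonneg (sqrt_nonneg _) (by linarith), ?_, sqrt_le_one.2 (by nlinarith)⟩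
  exact mul_le_of_le_one_right (sqrt_nonneg _) (by nlinarith)

lemma endY_ge (hs : 0 ≤ s) (hs1 : s ≤ 1) (hr : 0 ≤ r) : s ≤ endY s r ∧ 0 ≤ endY s r := by
  have : 0 ≤ (1 - s ^ 2) * r := mul_nonneg (by nlinarith) hr
  exact ⟨by rw [endY]; linarith, by rw [endY]; linarith⟩

variable (hs : 0 ≤ s) (hs1 : s ≤ 1) (hr : 0 ≤ r) (hsr : s * r ≤ 1) (hH : Head s r g)

include hs hs1 hr hsr hH

/-- The envelope by the circle. -/
lemma low_circ {ym : ℝ} (hy0 : 0 ≤ ym) (hys : ym ≤ s) :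
    Low (∫ z in (0 : ℝ)..footT s r, g z ^ 3) (∫ z in (0 : ℝ)..footT s r, g z ^ 4)
      (circU (footT s r)) (circV (footT s r)) ym 1 (g 0) := by
  obtain ⟨h0, htb, hb1⟩ := foot_mem hs hs1 hr hsr
  rw [← circ4 _ h0 (htb.trans hb1), circU]
  refine low_of_env (lo := fun z => √(1 - z ^ 2)) h0 hH.anti (by fun_prop) hy0 fun z hz =>
    ⟨?_, sqrt_le_one.2 (by nlinarith), hH.circle z hz⟩
  refine hys.trans (le_sqrt_of_sq_le ?_)
  have hzb : z ≤ √(1 - s ^ 2) := hz.2.trans htb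
  nlinarith [sq_sqrt (show 0 ≤ 1 - s ^ 2 by nlinarith), hz.1, sqrt_nonneg (1 - s ^ 2)]

/-- The constant envelope. -/
lemma low_flat {ym L : ℝ} (hy0 : 0 ≤ ym) (hy : ym ≤ endY s r) (hL : endY s r ≤ L) :
    Low (∫ z in (0 : ℝ)..footT s r, g z ^ 3) (∫ z in (0 : ℝ)..footT s r, g z ^ 4)
      (footT s r * endY s r ^ 3) (footT s r * endY s r ^ 4) ym L (g 0) := by
  obtain ⟨h0, -, -⟩ := foot_mem hs hs1 hr hsr
  have := low_of_env (g := g) (lo := fun _ => endY s r) h0 hH.anti continuous_const hy0 fun z hz =>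
    ⟨hy, hL, hH.end_le.trans (hH.anti hz (right_mem_Icc.2 h0) hz.2)⟩
  simpa using this

/-- The chord envelope on a part of `[0, t]`. -/
lemma low_seg {a A ym L : ℝ} (ha : 0 ≤ a) (hat : a ≤ footT s r) (hA : A ≤ g a) (hy0 : 0 ≤ ym)
    (h1 : ym ≤ A) (h2 : ym ≤ endY s r) (h3 : A ≤ L) (h4 : endY s r ≤ L) :
    Low (∫ z in a..footT s r, g z ^ 3) (∫ z in a..footT s r, g z ^ 4)
      ((footT s r - a) * avg3 A (endY s r)) ((footT s r - a) * avg4 A (endY s r)) ym L (g a) := by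
  set t := footT s r with ht
  set y := endY s r with hy
  rcases hat.eq_or_lt with e | e
  · rw [← e]; simp only [intervalIntegral.integral_same, sub_self, zero_mul]
    exact ⟨le_rfl, le_rfl, by simp, fun h _ _ _ => by simp⟩
  set q := (y - A) / (t - a) with hq
  have hta : 0 < t - a := sub_pos.2 e
  have hlin : ∀ z, A - q * a + q * z = A + (y - A) / (t - a) * (z - a) := fun z => by rw [hq]; ring
  have hsub : Icc a t ⊆ Icc 0 t := Icc_subset_Icc_left ha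
  have := low_of_env (g := g) (lo := fun z => A - q * a + q * z) hat (hH.anti.mono hsub)
    (by fun_prop) hy0 (L := L) (fun z hz => ?_)
  · rw [(line_ints _ _ a t).1, (line_ints _ _ a t).2] at this
    have e1 : A - q * a + q * a = A := by ring
    have e2 : A - q * a + q * t = y := by rw [hlin]; field_simp; ring
    rwa [e1, e2] at this
  have hl0 : 0 ≤ (z - a) / (t - a) := div_nonneg (by linarith [hz.1]) hta.le
  have hl1 : (z - a) / (t - a) ≤ 1 := (div_le_one hta).2 (by linarith [hz.2])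
  have e3 : A + (y - A) / (t - a) * (z - a) =
      (1 - (z - a) / (t - a)) * A + (z - a) / (t - a) * y := by ring
  refine ⟨?_, ?_, ?_⟩
  · rw [hlin, e3]; nlinarith [mul_le_mul_of_nonneg_left h1 (sub_nonneg.2 hl1),
      mul_le_mul_of_nonneg_left h2 hl0]
  · rw [hlin, e3]; nlinarith [mul_le_mul_of_nonneg_left h3 (sub_nonneg.2 hl1),
      mul_le_mul_of_nonneg_left h4 hl0]
  · rw [hlin]
    exact chord_below (hH.conc.subset hsub (convex_Icc a t)) hA hH.end_le hz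

/-- The circle up to `x`, then a chord. -/
lemma low_node {x z ym : ℝ} {L : ℝ} (hx : 0 ≤ x) (hxt : x ≤ footT s r) (hz : 0 ≤ z)
    (hxz : x ^ 2 + z ^ 2 ≤ 1) (hy0 : 0 ≤ ym) (h1 : ym ≤ z) (h2 : ym ≤ endY s r) (hL1 : 1 ≤ L)
    (hL : endY s r ≤ L) :
    Low (∫ z in (0 : ℝ)..footT s r, g z ^ 3) (∫ z in (0 : ℝ)..footT s r, g z ^ 4)
      (circU x + (footT s r - x) * avg3 z (endY s r))
      (circV x + (footT s r - x) * avg4 z (endY s r)) ym L (g 0) := by
  obtain ⟨h0, htb, hb1⟩ := foot_mem hs hs1 hr hsr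
  set t := footT s r with ht
  have hsub : Icc (0 : ℝ) x ⊆ Icc 0 t := Icc_subset_Icc_right hxt
  have hzx : z ≤ √(1 - x ^ 2) := le_sqrt_of_sq_le (by linarith)
  have l1 : Low (∫ w in (0 : ℝ)..x, g w ^ 3) (∫ w in (0 : ℝ)..x, g w ^ 4) (circU x) (circV x)
      ym L (g 0) := by
    rw [← circ4 _ hx (hxt.trans (htb.trans hb1)), circU]
    refine low_of_env (lo := fun z => √(1 - z ^ 2)) hx (hH.anti.mono hsub) (by fun_prop) hy0
      fun w hw => ⟨h1.trans (hzx.trans (sqrt_le_sqrt (by nlinarith [hw.1, hw.2]))),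
        (sqrt_le_one.2 (by nlinarith)).trans hL1, hH.circle w (hsub hw)⟩
  have l2 := low_seg hs hs1 hr hsr hH (a := x) (A := z) (ym := ym) (L := L) hx hxt
    (hzx.trans (hH.circle x ⟨hx, hxt⟩)) hy0 h1 h2 (by nlinarith) hL
  have hg0 : ∀ w ∈ Icc (0 : ℝ) t, 0 ≤ g w := fun w hw => (sqrt_nonneg _).trans (hH.circle w hw)
  have := l1.add l2 (hH.anti (left_mem_Icc.2 h0) ⟨hx, hxt⟩ hx)
  rwa [integral_add_adjacent_intervals (pow_integrable hx (hH.anti.mono hsub)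
      (fun w hw => hg0 w (hsub hw)) 3) (pow_integrable hxt (hH.anti.mono (Icc_subset_Icc_left hx))
      (fun w hw => hg0 w ⟨hx.trans hw.1, hw.2⟩) 3),
    integral_add_adjacent_intervals (pow_integrable hx (hH.anti.mono hsub)
      (fun w hw => hg0 w (hsub hw)) 4) (pow_integrable hxt (hH.anti.mono (Icc_subset_Icc_left hx))
      (fun w hw => hg0 w ⟨hx.trans hw.1, hw.2⟩) 4)] at this

/-- If `g 0` is at least `h`, the integral of `g⁴` is at least that of the chord from `h`. -/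
lemma j4_ge {h : ℝ} (h0h : 0 ≤ h) (hh : h ≤ g 0) :
    footT s r * avg4 h (endY s r) ≤ ∫ z in (0 : ℝ)..footT s r, g z ^ 4 := by
  obtain ⟨h0, -, -⟩ := foot_mem hs hs1 hr hsr
  have hy := (endY_ge hs hs1 hr).2
  have := low_seg hs hs1 hr hsr hH (a := 0) (A := h) (ym := 0) (L := max h (endY s r)) le_rfl h0 hh
    le_rfl h0h hy (le_max_left _ _) (le_max_right _ _)
  simpa using this.le4

lemma j4_le : (∫ z in (0 : ℝ)..footT s r, g z ^ 4) ≤ footT s r * (9 / 4) ^ 4 := by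
  obtain ⟨h0, -, -⟩ := foot_mem hs hs1 hr hsr
  have hg0 : ∀ w ∈ Icc (0 : ℝ) (footT s r), 0 ≤ g w := fun w hw =>
    (sqrt_nonneg _).trans (hH.circle w hw)
  have := integral_mono_on h0 (pow_integrable h0 hH.anti hg0 4)
    (intervalIntegrable_const (c := ((9 : ℝ) / 4) ^ 4)) fun z hz =>
      pow_le_pow_left₀ (hg0 z hz) ((hH.anti (left_mem_Icc.2 h0) hz hz.1).trans hH.le_top) 4
  simpa using this

/-- Both normalised integrals are at least `1`, and `v ≤ 50`. -/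
lemma state_bounds (hs0 : 0 < s) (hy : endY s r ≤ 9 / 4) :
    1 ≤ stateI s r (∫ z in (0 : ℝ)..footT s r, g z ^ 3) ∧
      1 ≤ stateV s r (∫ z in (0 : ℝ)..footT s r, g z ^ 4) ∧
      stateV s r (∫ z in (0 : ℝ)..footT s r, g z ^ 4) ≤ 50 := by
  obtain ⟨h0, htb, hb1⟩ := foot_mem hs hs1 hr hsr
  have hl := low_circ hs hs1 hr hsr hH (ym := 0) le_rfl hs
  set b := √(1 - s ^ 2) with hb
  set t := footT s r with ht
  have hbs : s ^ 2 = 1 - b ^ 2 := by
    rw [hb, sq_sqrt (by nlinarith)]; ring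
  obtain ⟨-, -, -, e3, e4⟩ := Prof5.seg_ints (b := b) (r := r) (t := t) hbs hs0
    (by rw [ht, footT, ← hb]; ring)
  have hline : ∀ z ∈ Icc t b, √(1 - z ^ 2) ≤ (1 - b * z) / s := fun z hz => by
    have hz0 : 0 ≤ z := h0.trans hz.1
    have hz1 : z ^ 2 ≤ 1 := by nlinarith [hz.2]
    rw [le_div_iff₀ hs0]
    nlinarith [sq_sqrt (sub_nonneg.2 hz1), sq_nonneg (z - b), sq_nonneg (√(1 - z ^ 2) - s)]
  have hc : ∀ k : ℕ, Continuous fun z : ℝ => √(1 - z ^ 2) ^ k := fun k => by fun_prop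
  have hk : ∀ k : ℕ, ∫ z in t..b, √(1 - z ^ 2) ^ k ≤ ∫ z in t..b, ((1 - b * z) / s) ^ k := fun k =>
    integral_mono_on htb ((hc k).intervalIntegrable _ _)
      ((by fun_prop : Continuous fun z => ((1 - b * z) / s) ^ k).intervalIntegrable _ _)
      fun z hz => pow_le_pow_left₀ (sqrt_nonneg _) (hline z hz) k
  have hk3 := hk 3
  have hk4 := hk 4
  rw [e3, ← integral_interval_sub_left ((hc 3).intervalIntegrable 0 b)
    ((hc 3).intervalIntegrable 0 t)] at hk3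
  rw [e4, ← integral_interval_sub_left ((hc 4).intervalIntegrable 0 b)
    ((hc 4).intervalIntegrable 0 t), circ4 _ (h0.trans htb) hb1, circ4 _ h0 (htb.trans hb1)] at hk4
  have h3 := hl.le3
  have h4 := hl.le4
  have hcap := capI_eq s
  have hq : circV b = b * (1 - 2 * (1 - s ^ 2) / 3 + (1 - s ^ 2) ^ 2 / 5) := by
    rw [circV, show 1 - s ^ 2 = b ^ 2 by linarith]; ring
  have hcapV : capV s = 8 / 15 - circV b := by rw [capV, hq]
  refine ⟨?_, ?_, ?_⟩
  · rw [stateI, div_mul_eq_mul_div, le_div_iff₀ (by positivity), hcap, ← hb]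
    simp only [circU] at h3 hk3 ⊢
    linarith
  · rw [stateV, hcapV, ← hb]; linarith
  · have h5 := j4_le hs hs1 hr hsr hH
    have hV : lineV s r ≤ (9 / 4) ^ 4 := by
      have hk0 : 0 ≤ (1 - s ^ 2) * r := mul_nonneg (by nlinarith) hr
      have : lineV s r = avg4 s (endY s r) := by rw [lineV, avg4, endY]; ring
      rw [this, avg4]
      have hy0 := (endY_ge hs hs1 hr).1
      have := pow_le_pow_left₀ (hs.trans hy0) hy 4
      nlinarith [pow_le_pow_left₀ hs hy0 2, pow_le_pow_left₀ hs hy0 3, pow_le_pow_left₀ hs hy0 4,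
        mul_le_mul_of_nonneg_right (pow_le_pow_left₀ hs hy0 3) (hs.trans hy0),
        mul_le_mul_of_nonneg_right (pow_le_pow_left₀ hs hy0 2) (sq_nonneg (endY s r)),
        mul_le_mul_of_nonneg_right hy0 (pow_nonneg (hs.trans hy0) 3)]
    have hsb : 0 ≤ b * s * r := by positivity
    have h6 : b * s * r * lineV s r ≤ b * s * r * (9 / 4) ^ 4 := mul_le_mul_of_nonneg_left hV hsb
    have h7 : t + b * s * r = b := by rw [ht, footT, ← hb]; ring
    have h8 : 0 ≤ circV b := by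
      rw [← circ4 _ (h0.trans htb) hb1]
      exact integral_nonneg (h0.trans htb) fun z _ => by positivity
    rw [stateV, hcapV, ← hb]
    nlinarith

end

end Vale.Agent.P237.Five.Cert
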