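import Vale.Agent.P237.Five.CertEnvelope

/-!
# P237, `n = 5`: linearisation of the powers and the leaf inequalities

On an interval the powers are replaced by chords or tangents, so that both derivatives are bounded
below by functions affine in the state; these are tested at the ends of the interval.
-/

namespace Vale.Agent.P237.Five.Cert

open Real Set

/-- The affine interpolation through `(x₁, a)` and `(x₂, c)`. -/
noncomputable def chd (x1 x2 a c v : ℝ) : ℝ := ((x2 - v) * a + (v - x1) * c) / (x2 - x1)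

lemma chd_left {x1 x2 a c : ℝ} (h : x1 < x2) : chd x1 x2 a c x1 = a := by
  have : x2 - x1 ≠ 0 := (sub_pos.2 h).ne'
  rw [chd]; field_simp; ring

lemma chd_right {x1 x2 a c : ℝ} (h : x1 < x2) : chd x1 x2 a c x2 = c := by
  have : x2 - x1 ≠ 0 := (sub_pos.2 h).ne'
  rw [chd]; field_simp; ring

lemma weights {x1 x2 v : ℝ} (h1 : x1 ≤ v) (h2 : v ≤ x2) (h : x1 < x2) :
    0 ≤ (x2 - v) / (x2 - x1) ∧ 0 ≤ (v - x1) / (x2 - x1) ∧
      (x2 - v) / (x2 - x1) + (v - x1) / (x2 - x1) = 1 ∧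
      (x2 - v) / (x2 - x1) * x1 + (v - x1) / (x2 - x1) * x2 = v := by
  have hd : 0 < x2 - x1 := sub_pos.2 h
  refine ⟨div_nonneg (by linarith) hd.le, div_nonneg (by linarith) hd.le, ?_, ?_⟩ <;>
    field_simp <;> ring

lemma chd_eq (x1 x2 a c v : ℝ) :
    chd x1 x2 a c v = (x2 - v) / (x2 - x1) * a + (v - x1) / (x2 - x1) * c := by
  rw [chd]; ring

/-- A function affine on an interval is bounded below by its values at the ends. -/
lemma affine_nonneg {f : ℝ → ℝ} {x1 x2 v : ℝ}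
    (hf : ∀ θ φ x y, θ + φ = 1 → f (θ * x + φ * y) = θ * f x + φ * f y)
    (h1 : x1 ≤ v) (h2 : v ≤ x2) (e1 : 0 ≤ f x1) (e2 : 0 ≤ f x2) : 0 ≤ f v := by
  rcases (h1.trans h2).eq_or_lt with e | e
  · obtain rfl : v = x1 := le_antisymm (h2.trans e.ge) h1
    exact e1
  obtain ⟨w1, w2, w3, w4⟩ := weights h1 h2 e
  rw [← w4, hf _ _ _ _ w3]
  positivity

lemma pow_chord_low {p x1 x2 a c v : ℝ} (hp0 : 0 ≤ p) (hp1 : p ≤ 1) (hx : 0 ≤ x1) (h1 : x1 ≤ v)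
    (h2 : v ≤ x2) (h : x1 < x2) (ha : a ≤ x1 ^ p) (hc : c ≤ x2 ^ p) :
    chd x1 x2 a c v ≤ v ^ p := by
  obtain ⟨w1, w2, w3, w4⟩ := weights h1 h2 h
  have := (Real.concaveOn_rpow hp0 hp1).2 (mem_Ici.2 hx) (mem_Ici.2 (hx.trans h.le)) w1 w2 w3
  simp only [smul_eq_mul] at this
  rw [w4] at this
  rw [chd_eq]
  nlinarith [mul_le_mul_of_nonneg_left ha w1, mul_le_mul_of_nonneg_left hc w2]

lemma inv_chord {p x1 x2 v : ℝ} (hp0 : 0 ≤ p) (hp1 : p ≤ 1) (hx : 0 < x1) (h1 : x1 ≤ v)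
    (h2 : v ≤ x2) (h : x1 < x2) :
    v ^ (-p) ≤ (x2 - v) / (x2 - x1) * x1 ^ (-p) + (v - x1) / (x2 - x1) * x2 ^ (-p) := by
  obtain ⟨w1, w2, w3, w4⟩ := weights h1 h2 h
  have hv : 0 < v := hx.trans_le h1
  have := (Real.concaveOn_rpow hp0 hp1).2 (mem_Ici.2 hx.le) (mem_Ici.2 (hx.le.trans h.le)) w1 w2 w3
  simp only [smul_eq_mul] at this
  rw [w4] at this
  rw [rpow_neg hv.le, rpow_neg hx.le, rpow_neg (hx.le.trans h.le)]
  set θ := (x2 - v) / (x2 - x1)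
  set φ := (v - x1) / (x2 - x1)
  set A := x1 ^ p with hA
  set C := x2 ^ p
  have hA0 : 0 < A := rpow_pos_of_pos hx _
  have hC0 : 0 < C := rpow_pos_of_pos (hx.trans h) _
  have hpos : 0 < θ * A + φ * C := by
    rcases w1.eq_or_lt with e | e
    · rw [← e, zero_add] at w3; rw [← e, w3]; simpa using hC0
    · positivity
  refine (inv_anti₀ hpos this).trans ?_
  rw [inv_le_iff_one_le_mul₀ hpos]
  have e : (θ * A⁻¹ + φ * C⁻¹) * (θ * A + φ * C) = 1 + θ * φ * ((A - C) ^ 2 / (A * C)) := by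
    field_simp
    linear_combination (A * C * (θ + φ + 1)) * w3
  rw [e]
  have : 0 ≤ θ * φ * ((A - C) ^ 2 / (A * C)) := by positivity
  linarith

lemma neg_chord {p x1 x2 a c v : ℝ} (hp0 : 0 ≤ p) (hp1 : p ≤ 1) (hx : 0 < x1) (h1 : x1 ≤ v)
    (h2 : v ≤ x2) (h : x1 < x2) (ha : x1 ^ (-p) ≤ a) (hc : x2 ^ (-p) ≤ c) :
    v ^ (-p) ≤ chd x1 x2 a c v := by
  obtain ⟨w1, w2, -, -⟩ := weights h1 h2 h
  rw [chd_eq]
  exact (inv_chord hp0 hp1 hx h1 h2 h).trans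
    (add_le_add (mul_le_mul_of_nonneg_left ha w1) (mul_le_mul_of_nonneg_left hc w2))

/-- The chord of `v^(-7/4)`. -/
lemma neg_chord74 {x1 x2 a c v : ℝ} (hx : 0 < x1) (h1 : x1 ≤ v) (h2 : v ≤ x2) (h : x1 < x2)
    (ha : x1 ^ (-(7 / 4) : ℝ) ≤ a) (hc : x2 ^ (-(7 / 4) : ℝ) ≤ c) :
    v ^ (-(7 / 4) : ℝ) ≤ chd x1 x2 a c v := by
  obtain ⟨w1, w2, w3, -⟩ := weights h1 h2 h
  have hv : 0 < v := hx.trans_le h1
  have sp : ∀ z : ℝ, 0 < z → z ^ (-(7 / 4) : ℝ) = z ^ (-1 : ℝ) * z ^ (-(3 / 4) : ℝ) := fun z hz => by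
    rw [← rpow_add hz]; norm_num
  have a1 := inv_chord (p := 1) (by norm_num) le_rfl hx h1 h2 h
  have a2 := inv_chord (p := 3 / 4) (by norm_num) (by norm_num) hx h1 h2 h
  have m1 : x2 ^ (-1 : ℝ) ≤ x1 ^ (-1 : ℝ) := rpow_le_rpow_of_nonpos hx h.le (by norm_num)
  have m2 : x2 ^ (-(3 / 4) : ℝ) ≤ x1 ^ (-(3 / 4) : ℝ) := rpow_le_rpow_of_nonpos hx h.le (by norm_num)
  rw [chd_eq]
  refine le_trans ?_ (add_le_add (mul_le_mul_of_nonneg_left ha w1) (mul_le_mul_of_nonneg_left hc w2))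
  rw [sp v hv, sp x1 hx, sp x2 (hx.trans h)]
  refine (mul_le_mul a1 a2 (rpow_nonneg hv.le _) ((rpow_nonneg hv.le _).trans a1)).trans ?_
  set θ := (x2 - v) / (x2 - x1)
  set φ := (v - x1) / (x2 - x1)
  have := mul_nonneg (mul_nonneg w1 w2) (mul_nonneg (sub_nonneg.2 m1) (sub_nonneg.2 m2))
  have e : φ = 1 - θ := by linarith
  rw [e] at this ⊢
  nlinarith

/-- The chord of `i^(4/3)`. -/
lemma pow43_chord {x1 x2 a c v : ℝ} (hx : 0 ≤ x1) (h1 : x1 ≤ v) (h2 : v ≤ x2) (h : x1 < x2)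
    (ha : x1 ^ (4 / 3 : ℝ) ≤ a) (hc : x2 ^ (4 / 3 : ℝ) ≤ c) :
    v ^ (4 / 3 : ℝ) ≤ chd x1 x2 a c v := by
  obtain ⟨w1, w2, w3, w4⟩ := weights h1 h2 h
  have := (convexOn_rpow (p := (4 / 3 : ℝ)) (by norm_num)).2 (mem_Ici.2 hx)
    (mem_Ici.2 (hx.trans h.le)) w1 w2 w3
  simp only [smul_eq_mul] at this
  rw [w4] at this
  rw [chd_eq]
  exact this.trans (add_le_add (mul_le_mul_of_nonneg_left ha w1) (mul_le_mul_of_nonneg_left hc w2))

/-- The tangent of `i^(4/3)` at `k³`. -/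
lemma pow43_tangent {i k : ℝ} (hi : 0 ≤ i) (hk : 0 ≤ k) :
    4 / 3 * k * i - k ^ 4 / 3 ≤ i ^ (4 / 3 : ℝ) := by
  set q := i ^ (1 / 3 : ℝ) with hq
  have hq0 : 0 ≤ q := rpow_nonneg hi _
  have e3 : i = q ^ 3 := by
    rw [hq, ← rpow_natCast, ← rpow_mul hi]; norm_num
  have e4 : i ^ (4 / 3 : ℝ) = q ^ 4 := by
    rw [hq, ← rpow_natCast, ← rpow_mul hi]; norm_num
  rw [e4, e3]
  nlinarith [mul_nonneg (sq_nonneg (q - k))
    (show 0 ≤ 3 * q ^ 2 + 2 * k * q + k ^ 2 by positivity)]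

/-- The tangent of `v^(-3/4)` at `k⁴`. -/
lemma neg34_tangent {v k : ℝ} (hv : 0 < v) (hk : 0 < k) :
    (7 * k ^ 4 - 3 * v) / (4 * k ^ 7) ≤ v ^ (-(3 / 4) : ℝ) := by
  set q := v ^ (1 / 4 : ℝ) with hq
  have hq0 : 0 < q := rpow_pos_of_pos hv _
  have e4 : v = q ^ 4 := by
    rw [hq, ← rpow_natCast, ← rpow_mul hv.le]; norm_num
  have e3 : v ^ (-(3 / 4) : ℝ) = (q ^ 3)⁻¹ := by
    rw [hq, ← rpow_natCast, ← rpow_mul hv.le, ← rpow_neg hv.le]; norm_num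
  rw [e3, e4, ← one_div, div_le_div_iff₀ (by positivity) (by positivity)]
  nlinarith [mul_nonneg (sq_nonneg (q - k))
    (show 0 ≤ 3 * q ^ 5 + 6 * q ^ 4 * k + 9 * q ^ 3 * k ^ 2 + 12 * q ^ 2 * k ^ 3 + 8 * q * k ^ 4
      + 4 * k ^ 5 by positivity)]

/-- Lower bound for `v^(-3/4)`: either a tangent or a constant. -/
structure Low34 (x1 x2 b1 b2 : ℝ) : Prop where
  le : ∀ v, x1 ≤ v → v ≤ x2 → chd x1 x2 b1 b2 v ≤ v ^ (-(3 / 4) : ℝ)

/-- Constants for one interval of the first derivative. -/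
structure SegOk (x1 x2 b1 b2 a1 a2 e1 e2 : ℝ) : Prop where
  pos : 1 ≤ x1
  lt : x1 < x2
  b : Low34 x1 x2 b1 b2
  nn1 : 0 ≤ 2823 / 200 + 3 * b1
  nn2 : 0 ≤ 2823 / 200 + 3 * b2
  a1 : a1 ≤ x1 ^ (2 / 5 : ℝ)
  a2 : a2 ≤ x2 ^ (2 / 5 : ℝ)
  e1 : x1 ^ (-(1 / 4) : ℝ) ≤ e1
  e2 : x2 ^ (-(1 / 4) : ℝ) ≤ e2

/-- The lower bound for `derLow` at one end, with the last power `f` given. -/
noncomputable def lowEnd (b a e f P Q T : ℝ) : ℝ :=
  (2823 / 200 + 3 * b) * P + (7 / 5 * a - 3 / 4 * (2823 / 200) * e - 9 / 4 * f) * Q - T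

/-- `derLow` with the segment integrals as variables. -/
noncomputable def dLow (P Q T i v : ℝ) : ℝ :=
  (2823 / 200 + 3 * v ^ (-(3 / 4) : ℝ)) * P
    + (7 / 5 * v ^ (2 / 5 : ℝ) - 3 / 4 * (2823 / 200) * v ^ (-(1 / 4) : ℝ)
        - 9 / 4 * i * v ^ (-(7 / 4) : ℝ)) * Q - T

variable {P Pl Q T i v x1 x2 b1 b2 a1 a2 e1 e2 : ℝ}

lemma seg_bound (h : SegOk x1 x2 b1 b2 a1 a2 e1 e2) (hP : Pl ≤ P) (hPl : 0 ≤ Pl) (hQ : 0 ≤ Q)
    (h1 : x1 ≤ v) (h2 : v ≤ x2) {F : ℝ} (hF : i * v ^ (-(7 / 4) : ℝ) ≤ F) :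
    chd x1 x2 (lowEnd b1 a1 e1 0 Pl Q T) (lowEnd b2 a2 e2 0 Pl Q T) v - 9 / 4 * F * Q ≤
      dLow P Q T i v := by
  have hx : 0 < x1 := lt_of_lt_of_le one_pos h.pos
  obtain ⟨w1, w2, w3, -⟩ := weights h1 h2 h.lt
  have c1 := h.b.le v h1 h2
  have c2 := pow_chord_low (p := 2 / 5) (by norm_num) (by norm_num) hx.le h1 h2 h.lt h.a1 h.a2
  have c3 := neg_chord (p := 1 / 4) (by norm_num) (by norm_num) hx h1 h2 h.lt h.e1 h.e2
  have hn : 0 ≤ 2823 / 200 + 3 * chd x1 x2 b1 b2 v := by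
    rw [chd_eq]; nlinarith [mul_nonneg w1 h.nn1, mul_nonneg w2 h.nn2]
  have d1 : (2823 / 200 + 3 * chd x1 x2 b1 b2 v) * Pl ≤
      (2823 / 200 + 3 * v ^ (-(3 / 4) : ℝ)) * P :=
    mul_le_mul (by linarith) hP hPl (by linarith)
  have d2 : (7 / 5 * chd x1 x2 a1 a2 v - 3 / 4 * (2823 / 200) * chd x1 x2 e1 e2 v - 9 / 4 * F) * Q ≤
      (7 / 5 * v ^ (2 / 5 : ℝ) - 3 / 4 * (2823 / 200) * v ^ (-(1 / 4) : ℝ)
        - 9 / 4 * i * v ^ (-(7 / 4) : ℝ)) * Q :=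
    mul_le_mul_of_nonneg_right (by nlinarith) hQ
  refine le_trans (le_of_eq ?_) (sub_le_sub_right (add_le_add d1 d2) T)
  simp only [chd_eq, lowEnd]
  linear_combination (2823 / 200 * Pl - T) * w3

lemma i_le_pow (hi : 0 ≤ i) (hv : 0 < v) (hX : i ^ (4 / 3 : ℝ) ≤ v) :
    i * v ^ (-(7 / 4) : ℝ) ≤ v ^ (-1 : ℝ) := by
  have h := rpow_le_rpow (rpow_nonneg hi _) hX (show (0 : ℝ) ≤ 3 / 4 by norm_num)
  rw [← rpow_mul hi, show (4 / 3 : ℝ) * (3 / 4) = 1 by norm_num, rpow_one] at h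
  refine (mul_le_mul_of_nonneg_right h (rpow_nonneg hv.le _)).trans_eq ?_
  rw [← rpow_add hv]; norm_num

/-- Above an interval checked at both ends `derLow` is nonnegative. -/
lemma seg_pos (h : SegOk x1 x2 b1 b2 a1 a2 e1 e2) (hP : Pl ≤ P) (hPl : 0 ≤ Pl) (hQ : 0 ≤ Q)
    (hi : 0 ≤ i) (hX : i ^ (4 / 3 : ℝ) ≤ v)
    (t1 : 0 ≤ lowEnd b1 a1 e1 (1 / x1) Pl Q T) (t2 : 0 ≤ lowEnd b2 a2 e2 (1 / x2) Pl Q T)
    (h1 : x1 ≤ v) (h2 : v ≤ x2) : 0 ≤ dLow P Q T i v := by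
  have hx : 0 < x1 := lt_of_lt_of_le one_pos h.pos
  obtain ⟨w1, w2, -, -⟩ := weights h1 h2 h.lt
  have c := neg_chord (p := 1) zero_le_one le_rfl hx h1 h2 h.lt
    (le_of_eq (by rw [rpow_neg_one, one_div])) (le_of_eq (by rw [rpow_neg_one, one_div]))
    (a := 1 / x1) (c := 1 / x2)
  refine le_trans ?_ (seg_bound h hP hPl hQ h1 h2 ((i_le_pow hi (hx.trans_le h1) hX).trans c))
  have e : chd x1 x2 (lowEnd b1 a1 e1 0 Pl Q T) (lowEnd b2 a2 e2 0 Pl Q T) v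
      - 9 / 4 * chd x1 x2 (1 / x1) (1 / x2) v * Q =
      chd x1 x2 (lowEnd b1 a1 e1 (1 / x1) Pl Q T) (lowEnd b2 a2 e2 (1 / x2) Pl Q T) v := by
    simp only [chd, lowEnd]; ring
  rw [e, chd_eq]
  positivity

/-- An interval `[vl, x₂]` with the constraint `i^(4/3) ≤ v` entering with weight `lam`. -/
lemma seg_lam (h : SegOk x1 x2 b1 b2 a1 a2 e1 e2) (hP : Pl ≤ P) (hPl : 0 ≤ Pl) (hQ : 0 ≤ Q)
    (hX : i ^ (4 / 3 : ℝ) ≤ v) {il vl VLo VHi ILo k k0 lam : ℝ} (hil : ILo ≤ il) (hi : 0 ≤ i)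
    (hVl : x1 ≤ VLo) (hvl : VLo ≤ vl) (hvh : vl ≤ VHi) (hv1 : vl ≤ v) (hv2 : v ≤ x2)
    (hk : 0 ≤ k) (hrel : k * (v - vl) ≤ i - il) (hk0 : 0 ≤ k0) (hlam : 0 ≤ lam) :
    let S := fun z => chd x1 x2 (lowEnd b1 a1 e1 (1 / x1) Pl Q T) (lowEnd b2 a2 e2 (1 / x2) Pl Q T) z
    0 ≤ S VLo + lam * (4 / 3 * k0 * ILo - k0 ^ 4 / 3 - VLo) →
    0 ≤ S VHi + lam * (4 / 3 * k0 * ILo - k0 ^ 4 / 3 - VHi) →
    0 ≤ S x2 + lam * (4 / 3 * k0 * (ILo + k * (x2 - VHi)) - k0 ^ 4 / 3 - x2) →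
    0 ≤ dLow P Q T i v := by
  intro S t1 t2 t3
  have hx : 0 < x1 := lt_of_lt_of_le one_pos h.pos
  have hxv : x1 ≤ v := (hVl.trans hvl).trans hv1
  have c := neg_chord (p := 1) zero_le_one le_rfl hx hxv hv2 h.lt
    (le_of_eq (by rw [rpow_neg_one, one_div])) (le_of_eq (by rw [rpow_neg_one, one_div]))
    (a := 1 / x1) (c := 1 / x2)
  have hb : S v ≤ dLow P Q T i v := by
    refine le_trans (le_of_eq ?_) (seg_bound h hP hPl hQ hxv hv2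
      ((i_le_pow hi (hx.trans_le hxv) hX).trans c))
    simp only [S, chd, lowEnd]; ring
  have hS : ∀ θ φ x y, θ + φ = 1 → S (θ * x + φ * y) = θ * S x + φ * S y := by
    intro θ φ x y hθ
    obtain rfl : φ = 1 - θ := by linarith
    simp only [S, chd]; ring
  have hT := pow43_tangent hi hk0
  set L := fun z => S z + lam * (4 / 3 * k0 * (ILo + k * (z - vl)) - k0 ^ 4 / 3 - z) with hL
  have hLv : L v ≤ dLow P Q T i v := by
    have : 4 / 3 * k0 * (ILo + k * (v - vl)) ≤ 4 / 3 * k0 * i :=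
      mul_le_mul_of_nonneg_left (by linarith) (by positivity)
    have := mul_le_mul_of_nonneg_left
      (show 4 / 3 * k0 * (ILo + k * (v - vl)) - k0 ^ 4 / 3 - v ≤ 0 by linarith) hlam
    simp only [hL]; linarith
  refine le_trans ?_ hLv
  refine affine_nonneg (f := L) ?_ hv1 hv2 ?_ ?_
  · intro θ φ x y hθ
    simp only [hL, hS θ φ x y hθ]
    obtain rfl : φ = 1 - θ := by linarith
    ring
  · set M := fun z => S z + lam * (4 / 3 * k0 * ILo - k0 ^ 4 / 3 - z) with hM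
    have : 0 ≤ M vl := affine_nonneg (f := M) (by
      intro θ φ x y hθ
      simp only [hM, hS θ φ x y hθ]
      obtain rfl : φ = 1 - θ := by linarith
      ring) hvl hvh t1 t2
    simp only [hL, hM] at this ⊢
    linarith [mul_zero k, show k * (vl - vl) = 0 by simp]
  · simp only [hL]
    have : 4 / 3 * k0 * (k * (x2 - VHi)) ≤ 4 / 3 * k0 * (k * (x2 - vl)) :=
      mul_le_mul_of_nonneg_left (mul_le_mul_of_nonneg_left (by linarith) hk) (by positivity)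
    nlinarith [mul_le_mul_of_nonneg_left this hlam]

/-- An interval `[vl, x₂]` with `i` bounded through the first relation. -/
lemma seg_R (h : SegOk x1 x2 b1 b2 a1 a2 e1 e2) (hP : Pl ≤ P) (hPl : 0 ≤ Pl) (hQ : 0 ≤ Q)
    {il vl VLo VHi IHi I1 w1 w2 ri : ℝ} (hI : I1 ≤ il) (hI0 : 0 ≤ I1) (hil : il ≤ i) (hih : il ≤ IHi)
    (hVl : x1 ≤ VLo) (hvl : VLo ≤ vl) (hvh : vl ≤ VHi) (hv1 : vl ≤ v) (hv2 : v ≤ x2)
    (hri : 0 ≤ ri) (hrel : i - il ≤ ri * (v - vl))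
    (hw1 : x1 ^ (-(7 / 4) : ℝ) ≤ w1) (hw2 : x2 ^ (-(7 / 4) : ℝ) ≤ w2) :
    let S := fun z => chd x1 x2 (lowEnd b1 a1 e1 (I1 * w1 - w1 * I1) Pl Q T)
      (lowEnd b2 a2 e2 (I1 * w2 - w1 * I1) Pl Q T) z
    0 ≤ S VLo - 9 / 4 * w1 * IHi * Q →
    0 ≤ S VHi - 9 / 4 * w1 * IHi * Q →
    0 ≤ S x2 - 9 / 4 * w1 * (IHi + ri * (x2 - VLo)) * Q →
    0 ≤ dLow P Q T i v := by
  intro S t1 t2 t3
  have hx : 0 < x1 := lt_of_lt_of_le one_pos h.pos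
  have hxv : x1 ≤ v := (hVl.trans hvl).trans hv1
  have hw : v ^ (-(7 / 4) : ℝ) ≤ chd x1 x2 w1 w2 v := neg_chord74 hx hxv hv2 h.lt hw1 hw2
  have hwv : v ^ (-(7 / 4) : ℝ) ≤ w1 :=
    (rpow_le_rpow_of_nonpos hx hxv (by norm_num)).trans hw1
  have hw0 : 0 ≤ w1 := (rpow_nonneg hx.le _).trans hw1
  set F := I1 * chd x1 x2 w1 w2 v + w1 * (IHi + ri * (v - vl) - I1) with hF
  have hb : S v - 9 / 4 * w1 * (IHi + ri * (v - vl)) * Q ≤ dLow P Q T i v := by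
    refine le_trans (le_of_eq ?_) (seg_bound h hP hPl hQ hxv hv2 (F := F) ?_)
    · have hne : x2 - x1 ≠ 0 := (sub_pos.2 h.lt).ne'
      simp only [S, hF, chd, lowEnd]; field_simp; ring
    · rw [hF]
      nlinarith [mul_nonneg (sub_nonneg.2 (hI.trans hil)) (sub_nonneg.2 hwv),
        mul_le_mul_of_nonneg_left hw hI0,
        mul_le_mul_of_nonneg_left (show i ≤ IHi + ri * (v - vl) by linarith) hw0]
  have hS : ∀ θ φ x y, θ + φ = 1 → S (θ * x + φ * y) = θ * S x + φ * S y := by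
    intro θ φ x y hθ
    obtain rfl : φ = 1 - θ := by linarith
    simp only [S, chd]; ring
  set L := fun z => S z - 9 / 4 * w1 * (IHi + ri * (z - vl)) * Q with hL
  refine le_trans (affine_nonneg (f := L) ?_ hv1 hv2 ?_ ?_) hb
  · intro θ φ x y hθ
    simp only [hL, hS θ φ x y hθ]
    obtain rfl : φ = 1 - θ := by linarith
    ring
  · set M := fun z => S z - 9 / 4 * w1 * IHi * Q with hM
    have : 0 ≤ M vl := affine_nonneg (f := M) (by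
      intro θ φ x y hθ
      simp only [hM, hS θ φ x y hθ]
      obtain rfl : φ = 1 - θ := by linarith
      ring) hvl hvh t1 t2
    simp only [hL, hM, sub_self, mul_zero, add_zero] at this ⊢
    exact this
  · simp only [hL]
    have := mul_le_mul_of_nonneg_right (mul_le_mul_of_nonneg_left
      (mul_le_mul_of_nonneg_left (show x2 - vl ≤ x2 - VLo by linarith) hri)
      (show 0 ≤ 9 / 4 * w1 by positivity)) hQ
    nlinarith

/-- `derHigh` with the segment integrals as variables. -/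
noncomputable def dHigh (P Q T i : ℝ) : ℝ :=
  (129 / 10 * (4 / 3) * i ^ (1 / 3 : ℝ) + 28 / 15 * i ^ (13 / 15 : ℝ)) * P - 129 / 10 * Q - T

/-- The coefficient of `P` at one end. -/
noncomputable def highC (c d : ℝ) : ℝ := 129 / 10 * (4 / 3) * c + 28 / 15 * d

/-- `derHigh` is nondecreasing in `i`. -/
lemma high_mono {x : ℝ} (hx : 0 ≤ x) (hxi : x ≤ i) (hP : 0 ≤ P) :
    dHigh P Q T x ≤ dHigh P Q T i := by
  unfold dHigh
  have a := rpow_le_rpow hx hxi (show (0 : ℝ) ≤ 1 / 3 by norm_num)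
  have b := rpow_le_rpow hx hxi (show (0 : ℝ) ≤ 13 / 15 by norm_num)
  nlinarith [mul_le_mul_of_nonneg_right a hP, mul_le_mul_of_nonneg_right b hP]

/-- The test for `i ≥ x`. -/
lemma high_ok {x c d : ℝ} (hx : 0 ≤ x) (hxi : x ≤ i) (hP : Pl ≤ P) (hPl : 0 ≤ Pl) (hc0 : 0 ≤ c)
    (hd0 : 0 ≤ d) (hc : c ≤ x ^ (1 / 3 : ℝ)) (hd : d ≤ x ^ (13 / 15 : ℝ))
    (t : 0 ≤ highC c d * Pl - 129 / 10 * Q - T) : 0 ≤ dHigh P Q T i := by
  refine le_trans ?_ (high_mono hx hxi (hPl.trans hP))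
  unfold dHigh
  unfold highC at t
  have := mul_le_mul (show 129 / 10 * (4 / 3) * c + 28 / 15 * d ≤
    129 / 10 * (4 / 3) * x ^ (1 / 3 : ℝ) + 28 / 15 * x ^ (13 / 15 : ℝ) by linarith) hP hPl
    (by positivity)
  linarith

/-- An interval `[il, x₂]` with the constraint `v ≤ i^(4/3)` entering with weight `mu`. -/
lemma high_seg (hP : Pl ≤ P) (hPl : 0 ≤ Pl) {c1 c2 d1 d2 X1 X2 il vl ILo IHi VLo rho mu : ℝ}
    (hx : 0 ≤ x1) (hlt : x1 < x2) (hc : c1 ≤ x1 ^ (1 / 3 : ℝ) ∧ c2 ≤ x2 ^ (1 / 3 : ℝ))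
    (hd : d1 ≤ x1 ^ (13 / 15 : ℝ) ∧ d2 ≤ x2 ^ (13 / 15 : ℝ))
    (hn : 0 ≤ c1 ∧ 0 ≤ c2 ∧ 0 ≤ d1 ∧ 0 ≤ d2)
    (hX1 : x1 ^ (4 / 3 : ℝ) ≤ X1) (hX2 : x2 ^ (4 / 3 : ℝ) ≤ X2)
    (hV : v ≤ i ^ (4 / 3 : ℝ)) (h1 : x1 ≤ ILo) (hil : ILo ≤ il) (hih : il ≤ IHi) (hi1 : il ≤ i)
    (hi2 : i ≤ x2) (hvl : VLo ≤ vl) (hrho : 0 ≤ rho) (hrel : rho * (i - il) ≤ v - vl)
    (hmu : 0 ≤ mu) :
    let S := fun z => chd x1 x2 (highC c1 d1 * Pl - 129 / 10 * Q - T)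
      (highC c2 d2 * Pl - 129 / 10 * Q - T) z
    0 ≤ S ILo + mu * (VLo - chd x1 x2 X1 X2 ILo) →
    0 ≤ S IHi + mu * (VLo - chd x1 x2 X1 X2 IHi) →
    0 ≤ S x2 + mu * (VLo + rho * (x2 - IHi) - X2) →
    0 ≤ dHigh P Q T i := by
  intro S t1 t2 t3
  have hxi : x1 ≤ i := (h1.trans hil).trans hi1
  obtain ⟨w1, w2, w3, -⟩ := weights hxi hi2 hlt
  have e1 := pow_chord_low (p := 1 / 3) (by norm_num) (by norm_num) hx hxi hi2 hlt hc.1 hc.2
  have e2 := pow_chord_low (p := 13 / 15) (by norm_num) (by norm_num) hx hxi hi2 hlt hd.1 hd.2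
  have e3 := pow43_chord hx hxi hi2 hlt hX1 hX2
  have hb : S i ≤ dHigh P Q T i := by
    have hC0 : 0 ≤ chd x1 x2 (highC c1 d1) (highC c2 d2) i := by
      rw [chd_eq]; unfold highC
      obtain ⟨a, b, c, d⟩ := hn
      positivity
    have hCle : chd x1 x2 (highC c1 d1) (highC c2 d2) i ≤
        129 / 10 * (4 / 3) * i ^ (1 / 3 : ℝ) + 28 / 15 * i ^ (13 / 15 : ℝ) := by
      rw [chd_eq] at e1 e2 ⊢; unfold highC; linarith
    have := mul_le_mul hCle hP hPl (hC0.trans hCle)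
    unfold dHigh
    have e : S i = chd x1 x2 (highC c1 d1) (highC c2 d2) i * Pl - 129 / 10 * Q - T := by
      simp only [S, chd_eq]
      linear_combination (-(129 / 10 * Q) - T) * w3
    linarith
  have hS : ∀ θ φ x y, θ + φ = 1 → S (θ * x + φ * y) = θ * S x + φ * S y := by
    intro θ φ x y hθ
    obtain rfl : φ = 1 - θ := by linarith
    simp only [S, chd]; ring
  have hXc : ∀ θ φ x y, θ + φ = 1 →
      chd x1 x2 X1 X2 (θ * x + φ * y) = θ * chd x1 x2 X1 X2 x + φ * chd x1 x2 X1 X2 y := by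
    intro θ φ x y hθ
    obtain rfl : φ = 1 - θ := by linarith
    simp only [chd]; ring
  set L := fun z => S z + mu * (VLo + rho * (z - il) - chd x1 x2 X1 X2 z) with hL
  have hLi : L i ≤ dHigh P Q T i := by
    have := mul_le_mul_of_nonneg_left
      (show VLo + rho * (i - il) - chd x1 x2 X1 X2 i ≤ 0 by linarith) hmu
    simp only [hL]; linarith
  refine le_trans (affine_nonneg (f := L) ?_ hi1 hi2 ?_ ?_) hLi
  · intro θ φ x y hθ
    simp only [hL, hS θ φ x y hθ, hXc θ φ x y hθ]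
    obtain rfl : φ = 1 - θ := by linarith
    ring
  · set M := fun z => S z + mu * (VLo - chd x1 x2 X1 X2 z) with hM
    have : 0 ≤ M il := affine_nonneg (f := M) (by
      intro θ φ x y hθ
      simp only [hM, hS θ φ x y hθ, hXc θ φ x y hθ]
      obtain rfl : φ = 1 - θ := by linarith
      ring) hil hih t1 t2
    simp only [hL, hM, sub_self, mul_zero, add_zero] at this ⊢
    exact this
  · simp only [hL, chd_right hlt]
    have := mul_le_mul_of_nonneg_left (mul_le_mul_of_nonneg_left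
      (show x2 - IHi ≤ x2 - il by linarith) hrho) hmu
    nlinarith

end Vale.Agent.P237.Five.Cert
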