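import Vale.Agent.P237.Five.CertPoly
import Vale.Agent.P237.Five.Core

/-!
# P237, `n = 5`: rational expressions in `(s, r)` and the leaf checkers

The expressions are tested by `nn` of `CertPoly`. The parameters of the
leaves are integers in the unit `10⁻⁶`; boxes are in the unit `1 / 16384`.
-/

namespace Vale.Agent.P237.Five.Cert

/-- A parameter in the unit `10⁻⁶`. -/
def par (n : ℤ) : QE := .cst n 1000000

/-- An integer. -/
def int (n : ℤ) : QE := .cst n 1

/-- The unit of the parameters. -/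
@[simp] noncomputable def u6 (n : ℤ) : ℝ := (n : ℝ) / 1000000

@[simp] lemma val_par (s r : ℝ) (n : ℤ) : (par n).val s r = u6 n := by simp [par]
@[simp] lemma val_int (s r : ℝ) (n : ℤ) : (int n).val s r = n := by simp [int]

/-- The ingredients. -/
def qP : QE := int 1 - .vS * .vS
def srP : QE := .vS * .vR
def oneP : QE := int 1 - srP
def yP : QE := .vS + qP * .vR
def s2 : QE := .vS * .vS
def s3 : QE := s2 * .vS
def q2 : QE := qP * qP
def q3 : QE := q2 * qP
def r2 : QE := .vR * .vR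
def r3 : QE := r2 * .vR
def segIP : QE := .cst 1 2 * s2 + .cst 2 3 * (qP * srP) + .cst 1 4 * (q2 * r2)
def segVP : QE :=
  .cst 1 2 * s3 + qP * s2 * .vR + .cst 3 4 * (q2 * .vS * r2) + .cst 1 5 * (q3 * r3)
def segTP : QE :=
  qP * (segVP
    - int 2 * srP * (.cst 1 3 * s3 + .cst 3 4 * (qP * s2 * .vR) + .cst 3 5 * (q2 * .vS * r2)
        + .cst 1 6 * (q3 * r3))
    + srP * srP * (.cst 1 4 * s3 + .cst 3 5 * (qP * s2 * .vR) + .cst 1 2 * (q2 * .vS * r2)
        + .cst 1 7 * (q3 * r3)))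
def lineIP : QE :=
  s3 + .cst 3 2 * (qP * s2 * .vR) + q2 * .vS * r2 + .cst 1 4 * (q3 * r3)
def lineVP : QE :=
  s2 * s2 + int 2 * (qP * s3 * .vR) + int 2 * (q2 * s2 * r2) + q3 * .vS * r3
    + .cst 1 5 * (q2 * q2 * (r2 * r2))
def capVP : QE := int 1 - .cst 2 3 * qP + .cst 1 5 * q2
def serUP (u : QE) : QE :=
  int 1 - .cst 1 2 * u + .cst 3 40 * (u * u) + .cst 1 112 * (u * u * u)
    + .cst 1 144 * (u * u * (u * u))
def serLP (u : QE) : QE :=
  int 1 - .cst 1 2 * u + .cst 3 40 * (u * u) + .cst 1 112 * (u * u * u)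
    + .cst 1 384 * (u * u * (u * u))
def s5 : QE := s3 * s2
def serCP : QE := s5 * (.cst 1 5 + .cst 1 14 * s2 + .cst 1 24 * (s2 * s2) + .cst 5 176 * (s3 * s3))
def avg3P (a : QE) : QE :=
  .cst 1 4 * (a * a * a + a * a * yP + a * (yP * yP) + yP * yP * yP)
def avg4P (a : QE) : QE :=
  .cst 1 5 * (a * a * a * a + a * a * a * yP + a * a * (yP * yP) + a * (yP * yP * yP)
    + yP * yP * (yP * yP))

/-- The lower and the upper bound for `P`, then `Q` and `T`. -/
def pLo : QE := .cst 50929 10000 * segIP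
def pHi : QE := .cst 50930 10000 * segIP
def qQ : QE := .cst 15 2 * segVP
def tT : QE := .cst 105 2 * segTP

/-- The envelopes. -/
inductive Md where
  | circ
  | flat
  | chord
  | node (x z : ℤ)

/-- Bound of the product with `√(1 - s²)`: orientation and slack. -/
structure Mul1 where
  pos : Bool
  e : ℤ

/-- Parameters of the bounds for the state. -/
structure Env where
  md : Md
  al : ℤ
  be : ℤ
  nh : ℤ
  cap : Option ℤ
  m4 : Mul1
  m3l : Mul1
  m3h : Mul1
  ym : ℤ
  L : ℤ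

namespace Env

variable (E : Env)

/-- Lower bound for `√(1 - s²)`. -/
def bLo : QE := par E.al + par E.be * s2
/-- Upper bound for `√(1 - s²)`. -/
def bHi : QE := .cst 1 2 * (par E.nh + .cst 1000000 E.nh.toNat * qP)

/-- Lower bound for `√(1 - s²) * D`. -/
def mLo (m : Mul1) (D : QE) : QE :=
  (if m.pos then E.bLo else E.bHi) * D - (E.bHi - E.bLo) * par m.e
/-- Upper bound for `√(1 - s²) * D`. -/
def mHi (m : Mul1) (D : QE) : QE :=
  (if m.pos then E.bHi else E.bLo) * D + (E.bHi - E.bLo) * par m.e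
/-- The condition for both. -/
def mTest (m : Mul1) (D : QE) : QE := if m.pos then D + par m.e else par m.e - D

/-- The coefficient of `√(1 - s²)` in `J₄`. -/
def d4 : QE :=
  match E.md with
  | .circ => oneP * (int 1 - .cst 2 3 * (qP * (oneP * oneP))
      + .cst 1 5 * (qP * (oneP * oneP) * (qP * (oneP * oneP))))
  | .flat => oneP * (yP * yP * (yP * yP))
  | .chord => oneP * avg4P (int 1)
  | .node _ z => oneP * avg4P (par z)
/-- The rest of `J₄`. -/
def c4 : QE :=
  match E.md with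
  | .node x z => par x * (int 1 - .cst 2 3 * (par x * par x)
      + .cst 1 5 * (par x * par x * (par x * par x)) - avg4P (par z))
  | _ => int 0
/-- The coefficient of `√(1 - s²)` in `J₃`, from below or above. -/
def d3 (ser : QE → QE) : QE :=
  match E.md with
  | .circ => oneP * ser (qP * (oneP * oneP))
  | .flat => oneP * (yP * yP * yP)
  | .chord => oneP * avg3P (int 1)
  | .node _ z => oneP * avg3P (par z)
/-- The rest of `J₃`. -/
def c3 (ser : QE → QE) : QE :=
  match E.md with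
  | .node x z => par x * (ser (par x * par x) - avg3P (par z))
  | _ => int 0

/-- The factor of `√(1 - s²)` in `8/15 (v - 1)`. -/
def fV : QE := E.d4 + srP * lineVP - capVP
/-- The factor of `√(1 - s²)` in `i`, from below. -/
def fIl : QE :=
  match E.cap with
  | none => E.d3 serLP + srP * lineIP - serUP qP
  | some _ => E.d3 serLP + srP * lineIP
/-- The factor of `√(1 - s²)` in `i`, from above. -/
def fIh : QE :=
  match E.cap with
  | none => E.d3 serUP + srP * lineIP - serLP qP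
  | some _ => E.d3 serUP + srP * lineIP
/-- The part of the cap in `i`, from below. -/
def capLoP : QE :=
  match E.cap with
  | none => .cst (3 * 3141592) 16000000
  | some _ => serCP
/-- The part of the cap in `i`, from above. -/
def capHiP : QE :=
  match E.cap with
  | none => .cst (3 * 3141593) 16000000
  | some T => serCP + par T * .cst 35 1664 * (s5 * s5 * s3)

/-- Lower bound for `i` at the envelope. -/
def iLo : QE := .cst 16000000 9424779 * (E.mLo E.m3l E.fIl + E.c3 serLP + E.capLoP)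
/-- Upper bound for `i` at the envelope. -/
def iHi : QE := .cst 16000000 9424776 * (E.mHi E.m3h E.fIh + E.c3 serUP + E.capHiP)
/-- Lower bound for `v` at the envelope. -/
def vLo : QE := int 1 + .cst 15 8 * (E.mLo E.m4 E.fV + E.c4)
/-- Upper bound for `v` at the envelope. -/
def vHi : QE := int 1 + .cst 15 8 * (E.mHi E.m4 E.fV + E.c4)

/-- `(al + be x) / 10⁶ ≤ √(1 - x)` at `x = (A / 16384)²`. -/
def chordOk (A : ℤ) : Bool :=
  let w := E.al * 268435456 + E.be * A ^ 2
  w ≤ 0 || w ^ 2 ≤ 1000000000000 * 268435456 * (268435456 - A ^ 2)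

/-- The conditions on `ym` and `L`, and on the node. -/
def mdOk (X : Box) : Bool :=
  0 ≤ E.ym && match E.md with
    | .circ => E.ym * 16384 ≤ X.A * 1000000 && 1000000 ≤ E.L
    | .flat => nn X (yP - par E.ym) && nn X (par E.L - yP)
    | .chord =>
        E.ym ≤ 1000000 && 1000000 ≤ E.L && nn X (yP - par E.ym) && nn X (par E.L - yP)
    | .node x z => E.ym ≤ z && 1000000 ≤ E.L && 0 ≤ x && x ≤ 1000000 &&
        x ^ 2 + z ^ 2 ≤ 1000000000000 && nn X (yP - par E.ym) && nn X (par E.L - yP) &&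
        nn X (E.bLo * oneP - par x)

/-- The cap bound. -/
def capOk (X : Box) : Bool :=
  match E.cap with
  | none => true
  | some T => 0 ≤ T && 1000000 * 268435456 ≤ T * (268435456 - X.B ^ 2)

/-- The conditions for the bounds of the state. -/
def ok (X : Box) : Bool :=
  X.ok && 0 < E.nh && E.chordOk X.A && E.chordOk X.B && E.mdOk X && E.capOk X &&
    0 ≤ E.m4.e && 0 ≤ E.m3l.e && 0 ≤ E.m3h.e &&
    nn X (mTest E.m4 E.fV) && nn X (mTest E.m3l E.fIl) && nn X (mTest E.m3h E.fIh)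

end Env

/-- `10^(6 k)`. -/
def pu (k : ℕ) : ℤ := 1000000 ^ k

/-- `a ≤ x^(2/5)`. -/
def aOk (x a : ℤ) : Bool := 0 ≤ a && a ^ 5 ≤ x ^ 2 * pu 3
/-- `x^(-1/4) ≤ e`. -/
def eOk (x e : ℤ) : Bool := 0 ≤ e && pu 5 ≤ e ^ 4 * x
/-- `b ≤ x^(-3/4)`. -/
def bOk (x b : ℤ) : Bool := 0 ≤ b && b ^ 4 * x ^ 3 ≤ pu 7
/-- `x^(-7/4) ≤ w`. -/
def wOk (x w : ℤ) : Bool := 0 ≤ w && pu 11 ≤ w ^ 4 * x ^ 7
/-- `c ≤ x^(1/3)`. -/
def cOk (x c : ℤ) : Bool := 0 ≤ c && c ^ 3 ≤ x * pu 2
/-- `d ≤ x^(13/15)`. -/
def dOk (x d : ℤ) : Bool := 0 ≤ d && d ^ 15 ≤ x ^ 13 * pu 2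
/-- `x^(4/3) ≤ X`. -/
def xOk (x X : ℤ) : Bool := 0 ≤ X && x ^ 4 ≤ X ^ 3 * pu 1

/-- `chd x₁ x₂ a c z`. -/
def chdP (x1 x2 : ℤ) (a c z : QE) : QE :=
  .cst 1000000 (x2 - x1).toNat * (par x2 * a - par x1 * c + z * (c - a))

/-- `lowEnd` with the lower bound of `P`. -/
def lowEndP (b a e f : QE) : QE :=
  (.cst 2823 200 + int 3 * b) * pLo
    + (.cst 7 5 * a - .cst 8469 800 * e - .cst 9 4 * f) * qQ - tT

/-- A reciprocal. -/
def invP (x : ℤ) : QE := .cst 1000000 x.toNat

/-- The value of the tangent of `v^(-3/4)` at `k⁴`, evaluated at `x`. -/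
def tanP (k x : ℤ) : QE :=
  (int 7 * (par k * par k * (par k * par k)) - int 3 * par x) *
    .cst (pu 7) (4 * k ^ 7).toNat

/-- The coefficient of `P` in `derHigh`. -/
def highP (c d : ℤ) : QE := .cst 86 5 * par c + .cst 28 15 * par d

/-- Constants of one interval of the first derivative. -/
structure Seg where
  x1 : ℤ
  x2 : ℤ
  k : ℤ
  a1 : ℤ
  a2 : ℤ
  e1 : ℤ
  e2 : ℤ
  b2 : ℤ

/-- Their validity. -/
def Seg.ok (S : Seg) : Bool :=
  1000000 ≤ S.x1 && S.x1 < S.x2 && 0 < S.k &&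
    0 ≤ 2823 * 4 * S.k ^ 7 + 600 * (7 * S.k ^ 4 * pu 3 - 3 * S.x1 * pu 6) &&
    0 ≤ 2823 * 4 * S.k ^ 7 + 600 * (7 * S.k ^ 4 * pu 3 - 3 * S.x2 * pu 6) &&
    aOk S.x1 S.a1 && aOk S.x2 S.a2 && eOk S.x1 S.e1 && eOk S.x2 S.e2 && bOk S.x2 S.b2

/-- The affine lower bound with the given last powers. -/
def Seg.sP (S : Seg) (f1 f2 z : QE) : QE :=
  chdP S.x1 S.x2 (lowEndP (tanP S.k S.x1) (par S.a1) (par S.e1) f1)
    (lowEndP (tanP S.k S.x2) (par S.a2) (par S.e2) f2) z

/-- The test at the right end, with monotonicity. -/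
def Seg.endP (S : Seg) : QE := lowEndP (par S.b2) (par S.a2) (par S.e2) (invP S.x2)

/-- `P ≤ 2 Q`, which makes the bound monotone in `v`. -/
def monoP : QE := int 2 * qQ - pHi

/-- Data for the excess relation. -/
structure Exc where
  h : ℤ
  sig : ℤ
  mh : Mul1

/-- Leaves of the first derivative. -/
inductive LeafA where
  | crude
  | start (x a e b : ℤ) (E : Option Env)
  | lam (E : Env) (S : Seg) (X : Exc) (k0 w : ℤ)
  | rel (E : Env) (S : Seg) (w1 w2 I1 : ℤ)

/-- Leaves of the second derivative. -/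
inductive LeafB where
  | start (x c d : ℤ) (E : Option Env)
  | weight (E : Env) (x1 x2 c1 c2 d1 d2 X1 X2 w : ℤ)

/-- The factor for `v` if `g 0 = h`. -/
def hTop (h : ℤ) : QE := oneP * avg4P (par h) + srP * lineVP - capVP

/-- The check of a leaf of the first derivative. -/
def LeafA.ok (X : Box) : LeafA → Bool
  | .crude => X.ok && nn X (lowEndP (int 0) (int 1) (int 1) (int 1))
  | .start x a e b E => X.ok && 1000000 ≤ x && aOk x a && eOk x e && bOk x b &&
      nn X monoP && nn X (lowEndP (par b) (par a) (par e) (invP x)) &&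
      match E with
      | none => x == 1000000
      | some E => E.ok X && nn X (E.vLo - par x)
  | .lam E S Z k0 w => E.ok X && S.ok && nn X monoP && nn X S.endP &&
      nn X (E.vLo - par S.x1) && 0 ≤ k0 && 0 ≤ w && 0 ≤ Z.sig && E.L ≤ Z.h && 0 < Z.h &&
      Z.sig * (Z.h + E.L) * (Z.h ^ 2 + E.L ^ 2) ≤ pu 2 * (Z.h ^ 2 + Z.h * E.L + E.L ^ 2) &&
      (2250000 ≤ Z.h || (0 ≤ Z.mh.e && nn X (Env.mTest Z.mh (hTop Z.h)) &&
        nn X (int 1 + .cst 15 8 * E.mLo Z.mh (hTop Z.h) - par S.x2))) &&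
      (let kk := .cst (16000000 * 8) (9424779 * 15) * par Z.sig
       let k4 := .cst 1 3 * (par k0 * par k0 * (par k0 * par k0))
       let T := fun z i : QE => S.sP (invP S.x1) (invP S.x2) z
          + par w * (.cst 4 3 * par k0 * i - k4 - z)
       nn X (T E.vLo E.iLo) && nn X (T E.vHi E.iLo) &&
         nn X (T (par S.x2) (E.iLo + kk * (par S.x2 - E.vHi))))
  | .rel E S w1 w2 I1 => E.ok X && S.ok && nn X monoP && nn X S.endP &&
      nn X (E.vLo - par S.x1) && 0 < E.ym && 0 ≤ I1 && nn X (E.iLo - par I1) &&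
      wOk S.x1 w1 && wOk S.x2 w2 &&
      (let ri : QE := .cst (16000000 * 2 * 1000000) (9424776 * 5 * E.ym.toNat)
       let T := fun z i : QE =>
          S.sP (par I1 * par w1 - par w1 * par I1) (par I1 * par w2 - par w1 * par I1) z
            - .cst 9 4 * par w1 * i * qQ
       nn X (T E.vLo E.iHi) && nn X (T E.vHi E.iHi) &&
         nn X (T (par S.x2) (E.iHi + ri * (par S.x2 - E.vLo))))

/-- The check of a leaf of the second derivative. -/
def LeafB.ok (X : Box) : LeafB → Bool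
  | .start x c d E => X.ok && 1000000 ≤ x && cOk x c && dOk x d &&
      nn X (highP c d * pLo - .cst 129 10 * qQ - tT) &&
      match E with
      | none => x == 1000000
      | some E => E.ok X && nn X (E.iLo - par x)
  | .weight E x1 x2 c1 c2 d1 d2 X1 X2 w => E.ok X && 1000000 ≤ x1 && x1 < x2 &&
      cOk x1 c1 && cOk x2 c2 && dOk x1 d1 && dOk x2 d2 && xOk x1 X1 && xOk x2 X2 && 0 ≤ w &&
      nn X (E.iLo - par x1) &&
      (let H := fun c d : ℤ => highP c d * pLo - .cst 129 10 * qQ - tT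
       let rho := .cst (5 * 9424776 * E.ym) (2 * 16000000 * 1000000)
       let S := fun z : QE => chdP x1 x2 (H c1 d1) (H c2 d2) z
       let V := fun z : QE => E.vLo - chdP x1 x2 (par X1) (par X2) z
       nn X (H c2 d2) && nn X (S E.iLo + par w * V E.iLo) &&
         nn X (S E.iHi + par w * V E.iHi) &&
         nn X (S (par x2) + par w * (E.vLo + rho * (par x2 - E.iHi) - par X2)))

/-- Partition trees. -/
inductive Tree (α : Type) where
  | leaf (a : α)
  | outT
  | outY
  | sS (l r : Tree α)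
  | sR (l r : Tree α)

/-- The checker. -/
def Tree.check {α : Type} (ok : Box → α → Bool) : Tree α → Box → Bool
  | .leaf a, X => ok X a
  | .outT, X => 268435456 < X.A * X.A' && 0 ≤ X.A && 0 ≤ X.A'
  | .outY, X => 9 * 4398046511104 < 4 * (X.A * 268435456 + (268435456 - X.A ^ 2) * X.A') &&
      9 * 4398046511104 < 4 * (X.B * 268435456 + (268435456 - X.B ^ 2) * X.A') &&
      0 ≤ X.A' && X.A ≤ X.B && 0 ≤ X.A && X.B ≤ 16384
  | .sS l g, X => l.check ok { X with B := (X.A + X.B) / 2 } &&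
      g.check ok { X with A := (X.A + X.B) / 2 }
  | .sR l g, X => l.check ok { X with B' := (X.A' + X.B') / 2 } &&
      g.check ok { X with A' := (X.A' + X.B') / 2 }

end Vale.Agent.P237.Five.Cert
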