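import Vale.Agent.P237.Five.CertGlue
import Vale.Agent.P237.Five.CertData

/-!
# P237, `n = 5`: Petty's inequality with its equality case
-/

namespace Vale.Agent.P237.Five

open MeasureTheory Set
open scoped RealInnerProductSpace

/-- `KeyFive` holds. -/
theorem keyFive : KeyFive := keyFive_of_data Cert.data_ok

/-- Petty's projection-volume conjecture in dimension five, with the equality case. -/
theorem petty_five_full (K : Set (E 5)) (hc : Convex ℝ K) (hk : IsCompact K)
    (hi : (interior K).Nonempty) :
    (∀ u : E 5, ‖u‖ = 1 →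
      IsGreatest ((fun y => ⟪y, u⟫) '' ProjectionBody K) (shadow K u)) ∧
    3375 * Real.pi ^ 4 / 16384 * (volume K).toReal ^ 4 ≤ (volume (ProjectionBody K)).toReal ∧
    ((volume (ProjectionBody K)).toReal = 3375 * Real.pi ^ 4 / 16384 * (volume K).toReal ^ 4 ↔
      IsEllipsoid5 K) :=
  petty_five_of_data Cert.data_ok K hc hk hi

end Vale.Agent.P237.Five
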