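import Vale.Agent.P237.Five.CertSpec

/-!
# P237, `n = 5`: a checked leaf of the second derivative is sound
-/

namespace Vale.Agent.P237.Five.Cert

open MeasureTheory Set Real

lemma val_segIP (s r : ℝ) : segIP.val s r = segI s r := by
  simp [segIP, segI, qP, q2, r2, srP, s2]; ring

lemma val_segVP (s r : ℝ) : segVP.val s r = segV s r := by
  simp [segVP, segV, qP, q2, q3, r2, r3, s2, s3]; ring

lemma val_segTP (s r : ℝ) : segTP.val s r = segT s r := by
  simp [segTP, segT, val_segVP, srP, qP, q2, q3, r2, r3, s2, s3]; ring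

lemma segI_nonneg {s r : ℝ} (hs : 0 ≤ s) (hs1 : s ≤ 1) (hr : 0 ≤ r) : 0 ≤ segI s r := by
  have h : (0 : ℝ) ≤ 1 - s ^ 2 := by nlinarith
  unfold segI; positivity

lemma val_pLo (s r : ℝ) : pLo.val s r = 50929 / 10000 * segI s r := by
  simp [pLo, val_segIP]

lemma pLo_le {s r : ℝ} (h : 0 ≤ segI s r) : pLo.val s r ≤ 16 / π * segI s r := by
  rw [val_pLo]
  refine mul_le_mul_of_nonneg_right ?_ h
  rw [div_le_div_iff₀ (by norm_num) Real.pi_pos]
  linarith [Real.pi_lt_d6]

lemma derHigh_eq (s r i : ℝ) :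
    derHigh s r i = dHigh (16 / π * segI s r) (15 / 2 * segV s r) (105 / 2 * segT s r) i := rfl

lemma val_H (s r : ℝ) (c d : ℤ) :
    (highP c d * pLo - .cst 129 10 * qQ - tT).val s r =
      highC (u6 c) (u6 d) * pLo.val s r - 129 / 10 * (15 / 2 * segV s r) - 105 / 2 * segT s r := by
  simp only [highP, highC, qQ, tT, val_segVP, val_segTP, val_sub, val_mul, val_add, val_par, QE.val]
  push_cast
  ring

lemma val_chdP (s r : ℝ) {x1 x2 : ℤ} (h : x1 < x2) (a c z : QE) :
    (chdP x1 x2 a c z).val s r =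
      chd (u6 x1) (u6 x2) (a.val s r) (c.val s r) (z.val s r) := by
  have hd : (((x2 - x1).toNat : ℕ) : ℝ) = (x2 : ℝ) - x1 := by
    have := Int.toNat_of_nonneg (sub_nonneg.2 h.le)
    exact_mod_cast this
  have hne : (x2 : ℝ) - x1 ≠ 0 := sub_ne_zero.2 (by exact_mod_cast h.ne')
  simp only [chdP, chd, val_mul, val_add, val_sub, val_par, QE.val, hd, u6]
  push_cast
  field_simp
  ring

lemma cOk_spec {x c : ℤ} (hx : 0 ≤ x) (h : cOk x c = true) :
    0 ≤ u6 c ∧ u6 c ≤ u6 x ^ (1 / 3 : ℝ) := by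
  simp only [cOk, Bool.and_eq_true, decide_eq_true_eq] at h
  simp only [pu] at h
  obtain ⟨h0, h1⟩ := h
  rify at h0 h1 hx
  have hc : 0 ≤ u6 c := div_nonneg h0 (by norm_num)
  have hX : 0 ≤ u6 x := div_nonneg hx (by norm_num)
  refine ⟨hc, le_of_pow_le_pow_left₀ three_ne_zero (rpow_nonneg hX _) ?_⟩
  rw [← rpow_natCast (u6 x ^ (1 / 3 : ℝ)), ← rpow_mul hX]
  norm_num
  simp only [div_pow]
  linarith

lemma dOk_spec {x d : ℤ} (hx : 0 ≤ x) (h : dOk x d = true) :
    0 ≤ u6 d ∧ u6 d ≤ u6 x ^ (13 / 15 : ℝ) := by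
  simp only [dOk, Bool.and_eq_true, decide_eq_true_eq] at h
  simp only [pu] at h
  obtain ⟨h0, h1⟩ := h
  rify at h0 h1 hx
  have hc : 0 ≤ u6 d := div_nonneg h0 (by norm_num)
  have hX : 0 ≤ u6 x := div_nonneg hx (by norm_num)
  refine ⟨hc, le_of_pow_le_pow_left₀ (show (15 : ℕ) ≠ 0 by norm_num) (rpow_nonneg hX _) ?_⟩
  rw [← rpow_natCast (u6 x ^ (13 / 15 : ℝ)), ← rpow_mul hX,
    show (13 / 15 : ℝ) * ((15 : ℕ) : ℝ) = ((13 : ℕ) : ℝ) by norm_num, rpow_natCast]
  simp only [u6, div_pow]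
  rw [div_le_div_iff₀ (by positivity) (by positivity)]
  linarith

lemma xOk_spec {x X : ℤ} (hx : 0 ≤ x) (h : xOk x X = true) :
    u6 x ^ (4 / 3 : ℝ) ≤ u6 X := by
  simp only [xOk, Bool.and_eq_true, decide_eq_true_eq] at h
  simp only [pu] at h
  obtain ⟨h0, h1⟩ := h
  rify at h0 h1 hx
  have hc : 0 ≤ u6 X := div_nonneg h0 (by norm_num)
  have hX : 0 ≤ u6 x := div_nonneg hx (by norm_num)
  refine le_of_pow_le_pow_left₀ three_ne_zero hc ?_
  rw [← rpow_natCast (u6 x ^ (4 / 3 : ℝ)), ← rpow_mul hX,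
    show (4 / 3 : ℝ) * ((3 : ℕ) : ℝ) = ((4 : ℕ) : ℝ) by norm_num, rpow_natCast]
  simp only [u6, div_pow]
  linarith

/-- A checked leaf of the second derivative is sound. -/
theorem high_sound (he : EnvSound) : HighSound := by
  intro l X s r g hl hX hD hV
  have hsI := segI_nonneg hD.s0.le hD.s1 hD.r0
  have hP : pLo.val s r ≤ 16 / π * segI s r := pLo_le hsI
  have hP0 : 0 ≤ pLo.val s r := by rw [val_pLo]; positivity
  have hi1 : 1 ≤ gI s r g :=
    (state_bounds hD.s0.le hD.s1 hD.r0 hD.sr hD.head hD.s0 hD.top).1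
  rw [derHigh_eq]
  cases l with
  | start x c d E =>
    simp only [LeafB.ok, Bool.and_eq_true, decide_eq_true_eq] at hl
    obtain ⟨⟨⟨⟨⟨ho, hx⟩, hc⟩, hd⟩, ht⟩, hE⟩ := hl
    have hx0 : 0 ≤ x := by omega
    obtain ⟨hc0, hc1⟩ := cOk_spec hx0 hc
    obtain ⟨hd0, hd1⟩ := dOk_spec hx0 hd
    have ht := nn_sound hX ho ht
    rw [val_H] at ht
    have hxi : u6 x ≤ gI s r g := by
      cases E with
      | none =>
        simp only [beq_iff_eq] at hE
        subst hE
        simpa using hi1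
      | some E =>
        simp only [Bool.and_eq_true] at hE
        obtain ⟨il, vl, hS⟩ := he E X s r g hE.1 hX hD
        have := nn_sound hX ho hE.2
        simp only [val_sub, val_par, sub_nonneg] at this
        exact this.trans (hS.ilo.trans hS.i_ge)
    exact high_ok (div_nonneg (by exact_mod_cast hx0) (by norm_num)) hxi hP hP0 hc0 hd0 hc1 hd1 ht
  | weight E x1 x2 c1 c2 d1 d2 X1 X2 w =>
    simp only [LeafB.ok, Bool.and_eq_true, decide_eq_true_eq] at hl
    obtain ⟨⟨⟨⟨⟨⟨⟨⟨⟨⟨⟨hE, hx⟩, hlt⟩, hc1⟩, hc2⟩, hd1⟩, hd2⟩, hX1⟩, hX2⟩, hw⟩, hlo⟩,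
      ⟨⟨⟨t0, t1⟩, t2⟩, t3⟩⟩ := hl
    have ho : X.ok = true := by
      simp only [Env.ok, Bool.and_eq_true] at hE
      exact hE.1.1.1.1.1.1.1.1.1.1.1
    obtain ⟨il, vl, hS⟩ := he E X s r g hE hX hD
    have hym : (0 : ℝ) ≤ E.ym := by
      simp only [Env.ok, Env.mdOk, Bool.and_eq_true, decide_eq_true_eq] at hE
      exact_mod_cast hE.1.1.1.1.1.1.1.2.1
    have hx10 : 0 ≤ x1 := by omega
    have hx20 : 0 ≤ x2 := by omega
    obtain ⟨c10, c11⟩ := cOk_spec hx10 hc1
    obtain ⟨c20, c21⟩ := cOk_spec hx20 hc2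
    obtain ⟨d10, d11⟩ := dOk_spec hx10 hd1
    obtain ⟨d20, d21⟩ := dOk_spec hx20 hd2
    have hlo := nn_sound hX ho hlo
    simp only [val_sub, val_par, sub_nonneg] at hlo
    have t0 := nn_sound hX ho t0
    have t1 := nn_sound hX ho t1
    have t2 := nn_sound hX ho t2
    have t3 := nn_sound hX ho t3
    simp only [val_add, val_mul, val_sub, val_par, val_chdP _ _ hlt] at t1 t2 t3
    rw [val_H] at t0
    rcases le_total (u6 x2) (gI s r g) with h | h
    · exact high_ok (div_nonneg (by exact_mod_cast hx20) (by norm_num)) h hP hP0 c20 d20 c21 d21 t0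
    have hrho : (QE.cst (5 * 9424776 * E.ym) (2 * 16000000 * 1000000)).val s r *
        (gI s r g - il) ≤ gV s r g - vl := by
      have h1 := hS.rho
      have hd0 : 0 ≤ gI s r g - il := sub_nonneg.2 hS.i_ge
      have hpi := Real.pi_pos
      have h2 : 3 * π / 16 * (4 / 3 * u6 E.ym * (15 / 8) * (gI s r g - il)) ≤
          3 * π / 16 * (16 / (3 * π) * (gV s r g - vl)) :=
        mul_le_mul_of_nonneg_left h1 (by positivity)
      rw [← mul_assoc (3 * π / 16) (16 / (3 * π)),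
        show 3 * π / 16 * (16 / (3 * π)) = 1 by field_simp, one_mul] at h2
      refine le_trans ?_ h2
      simp only [QE.val, u6]
      push_cast
      linarith [mul_nonneg (mul_nonneg hym hd0) (sub_nonneg.2 Real.pi_gt_d6.le)]
    have e := val_H s r
    simp only [val_sub, val_mul] at e
    simp only [e] at t1 t2 t3
    rw [chd_right (show u6 x1 < u6 x2 by
      simp only [u6]; exact div_lt_div_of_pos_right (by exact_mod_cast hlt) (by norm_num))] at t3
    exact high_seg (vl := vl) hP hP0 (div_nonneg (by exact_mod_cast hx10) (by norm_num))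
      (div_lt_div_of_pos_right (by exact_mod_cast hlt) (by norm_num)) ⟨c11, c21⟩ ⟨d11, d21⟩
      ⟨c10, c20, d10, d20⟩ (xOk_spec hx10 hX1) (xOk_spec hx20 hX2) hV hlo hS.ilo hS.ihi hS.i_ge h
      hS.vlo (by simp only [QE.val]; push_cast; positivity) hrho
      (div_nonneg (by exact_mod_cast hw) (by norm_num)) t1 t2
      (by
        simp only [u6] at t3 ⊢
        rw [chd_right (div_lt_div_of_pos_right (by exact_mod_cast hlt) (by norm_num))]
        exact t3)

end Vale.Agent.P237.Five.Cert
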