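import Vale.Agent.P237.Five.CertSpec

/-!
# P237, `n = 5`: `KeyFive` from the certificate

The two trees cover `[0, 1] × [0, 3]`, which contains every `(s, r)` with `0 < s ≤ 1`, `0 ≤ r`,
`s r ≤ 1` and `s + (1 - s²) r ≤ 9/4`.
-/

namespace Vale.Agent.P237.Five.Cert

open Real

/-- A point outside the trees' `outT` and `outY` boxes lies in a leaf that checks. -/
lemma Tree.sound {α : Type} {ok : Box → α → Bool} {s r : ℝ} (hsr : s * r ≤ 1)
    (hy : endY s r ≤ 9 / 4) :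
    ∀ (T : Tree α) (X : Box), T.check ok X = true → X.Mem s r →
      ∃ a Y, ok Y a = true ∧ Y.Mem s r
  | .leaf a, X, h, hX => ⟨a, X, h, hX⟩
  | .outT, X, h, hX => by
    simp only [Tree.check, Bool.and_eq_true, decide_eq_true_eq] at h
    obtain ⟨⟨h1, h2⟩, h3⟩ := h
    have e1 : (268435456 : ℝ) < (X.A : ℝ) * (X.A' : ℝ) := by exact_mod_cast h1
    have e2 : (0 : ℝ) ≤ (X.A : ℝ) := by exact_mod_cast h2
    have e3 : (0 : ℝ) ≤ (X.A' : ℝ) := by exact_mod_cast h3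
    have e4 : (X.A : ℝ) * (X.A' : ℝ) ≤ (16384 * s) * (16384 * r) :=
      mul_le_mul hX.hA hX.hA' e3 (e2.trans hX.hA)
    linarith
  | .outY, X, h, hX => by
    simp only [Tree.check, Bool.and_eq_true, decide_eq_true_eq] at h
    obtain ⟨⟨⟨⟨⟨h1, h2⟩, h3⟩, h4⟩, h5⟩, h6⟩ := h
    have e1 : (39582418599936 : ℝ) <
        4 * ((X.A : ℝ) * 268435456 + (268435456 - (X.A : ℝ) ^ 2) * (X.A' : ℝ)) := by
      exact_mod_cast h1
    have e2 : (39582418599936 : ℝ) <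
        4 * ((X.B : ℝ) * 268435456 + (268435456 - (X.B : ℝ) ^ 2) * (X.A' : ℝ)) := by
      exact_mod_cast h2
    have e3 : (0 : ℝ) ≤ (X.A' : ℝ) := by exact_mod_cast h3
    have e5 : (0 : ℝ) ≤ (X.A : ℝ) := by exact_mod_cast h5
    have e6 : (X.B : ℝ) ≤ 16384 := by exact_mod_cast h6
    have hs2 : 0 ≤ 1 - s ^ 2 := by nlinarith [hX.hA, hX.hB]
    have hr := mul_le_mul_of_nonneg_left hX.hA' (show 0 ≤ 268435456 * (1 - s ^ 2) by positivity)
    set S := 16384 * s with hS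
    have e8 : (39582418599936 : ℝ) <
        4 * (S * 268435456 + (268435456 - S ^ 2) * (X.A' : ℝ)) := by
      rcases hX.hA.eq_or_lt with e | e
      · rw [hS, ← e]; exact e1
      have hAB : (X.A : ℝ) < (X.B : ℝ) := e.trans_le hX.hB
      have key : 0 ≤ (X.A' : ℝ) * ((S - (X.A : ℝ)) * ((X.B : ℝ) - S)) :=
        mul_nonneg e3 (mul_nonneg (by linarith [hX.hA]) (by linarith [hX.hB]))
      by_contra hh
      nlinarith [mul_lt_mul_of_pos_left e1 (show (0 : ℝ) < (X.B : ℝ) - X.A by linarith),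
        mul_le_mul_of_nonneg_left e1.le (sub_nonneg.2 hX.hB),
        mul_le_mul_of_nonneg_left e2.le (sub_nonneg.2 hX.hA)]
    unfold endY at hy
    rw [hS] at e8
    nlinarith
  | .sS l g, X, h, hX => by
    simp only [Tree.check, Bool.and_eq_true] at h
    rcases le_total (16384 * s) (((X.A + X.B) / 2 : ℤ) : ℝ) with e | e
    · exact Tree.sound hsr hy l _ h.1 ⟨hX.hA, e, hX.hA', hX.hB'⟩
    · exact Tree.sound hsr hy g _ h.2 ⟨e, hX.hB, hX.hA', hX.hB'⟩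
  | .sR l g, X, h, hX => by
    simp only [Tree.check, Bool.and_eq_true] at h
    rcases le_total (16384 * r) (((X.A' + X.B') / 2 : ℤ) : ℝ) with e | e
    · exact Tree.sound hsr hy l _ h.1 ⟨hX.hA, hX.hB, hX.hA', e⟩
    · exact Tree.sound hsr hy g _ h.2 ⟨hX.hA, hX.hB, e, hX.hB'⟩

lemma root_mem {s r : ℝ} (h0 : 0 < s) (h1 : s ≤ 1) (hr : 0 ≤ r) (hsr : s * r ≤ 1)
    (hy : endY s r ≤ 9 / 4) : Box.Mem ⟨0, 16384, 0, 49152⟩ s r := by
  have hr3 : r ≤ 3 := by
    rcases le_total (1 / 2) s with e | e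
    · nlinarith
    · unfold endY at hy
      nlinarith [mul_nonneg hr (show 0 ≤ (1 / 4 : ℝ) - s ^ 2 by nlinarith)]
  refine ⟨?_, ?_, ?_, ?_⟩ <;> push_cast <;> linarith

/-- `KeyFive` from sound leaves and checked trees. -/
theorem keyFive_of (hL : LowSound) (hH : HighSound) (hd : DataOk) : KeyFive := by
  intro s r g h0 h1 hr hsr hy hg
  have hX := root_mem h0 h1 hr hsr hy
  have D : Dom s r g := ⟨h0, h1, hr, hsr, hy, hg⟩
  obtain ⟨⟨TA, hA⟩, TB, hB⟩ := hd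
  obtain ⟨a, Y, ha, hY⟩ := Tree.sound hsr hy TA _ hA hX
  obtain ⟨c, Z, hc, hZ⟩ := Tree.sound hsr hy TB _ hB hX
  exact ⟨fun e => hL a Y s r g ha hY D e, fun e => hH c Z s r g hc hZ D e⟩

end Vale.Agent.P237.Five.Cert
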