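import Vale.Agent.P237.Five.CertSpec

/-!
# P237, `n = 5`: soundness of the leaves of the first derivative

Where `P ≤ 2 Q` the lower bound of `derLow` that uses only `i ≤ v^(3/4)` is nondecreasing in `v`,
so a test at one point covers everything to the right of it; on an interval the affine bounds of
`Core` are used.
-/

namespace Vale.Agent.P237.Five.Cert

open Real Set

/-- The lower bound of `derLow` that uses only `i ≤ v^(3/4)`. -/
noncomputable def lowF (P Q T v : ℝ) : ℝ :=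
  lowEnd (v ^ (-(3 / 4) : ℝ)) (v ^ (2 / 5 : ℝ)) (v ^ (-(1 / 4) : ℝ)) (v ^ (-1 : ℝ)) P Q T

lemma lowF_le {P Q T i v : ℝ} (hQ : 0 ≤ Q) (hi : 0 ≤ i) (hv : 0 < v)
    (hX : i ^ (4 / 3 : ℝ) ≤ v) : lowF P Q T v ≤ dLow P Q T i v := by
  have := mul_le_mul_of_nonneg_right (i_le_pow hi hv hX) hQ
  unfold lowF lowEnd dLow
  linarith

/-- The polynomial inequality behind the monotonicity. -/
lemma mono_key {u : ℝ} (hu : 1 ≤ u) :
    9 / 2 * u ≤ (14 / 25 + 8469 / 3200) * u ^ 3 + 9 / 4 := by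
  nlinarith [sq_nonneg (u - 1), mul_nonneg (mul_nonneg (sub_nonneg.2 hu) (sub_nonneg.2 hu))
    (zero_le_one.trans hu)]

lemma lowF_mono {P Q T x v : ℝ} (hQ : 0 ≤ Q) (hPQ : P ≤ 2 * Q) (hx : 1 ≤ x)
    (hxv : x ≤ v) : lowF P Q T x ≤ lowF P Q T v := by
  set D := fun w : ℝ => -(9 / 4) * w ^ (-(7 / 4) : ℝ) * P + (14 / 25 * w ^ (-(3 / 5) : ℝ)
      + 8469 / 3200 * w ^ (-(5 / 4) : ℝ) + 9 / 4 * w ^ (-2 : ℝ)) * Q with hD
  have hd : ∀ w : ℝ, 1 ≤ w → HasDerivAt (lowF P Q T) (D w) w := by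
    intro w hw
    have hp := fun p : ℝ => Real.hasDerivAt_rpow_const (x := w) (p := p) (Or.inl (by linarith))
    refine ((((((hp (-(3 / 4))).const_mul 3).const_add (2823 / 200)).mul_const P).add
      (((((hp (2 / 5)).const_mul (7 / 5)).sub ((hp (-(1 / 4))).const_mul
        (3 / 4 * (2823 / 200)))).sub ((hp (-1)).const_mul (9 / 4))).mul_const Q)).sub_const T
      ).congr_deriv ?_
    simp only [hD]
    norm_num
    ring
  have hD0 : ∀ w : ℝ, 1 ≤ w → 0 ≤ D w := by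
    intro w hw
    have hw0 : 0 < w := by linarith
    set u := w ^ (1 / 4 : ℝ) with hu
    have hu1 : 1 ≤ u := Real.one_le_rpow hw (by norm_num)
    have hu0 : 0 < u := by linarith
    have e7 : w ^ (-(7 / 4) : ℝ) = (u ^ 7)⁻¹ := by
      rw [hu, ← rpow_natCast, ← rpow_mul hw0.le, ← rpow_neg hw0.le]; norm_num
    have e5 : w ^ (-(5 / 4) : ℝ) = (u ^ 5)⁻¹ := by
      rw [hu, ← rpow_natCast, ← rpow_mul hw0.le, ← rpow_neg hw0.le]; norm_num
    have e8 : w ^ (-2 : ℝ) = (u ^ 8)⁻¹ := by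
      rw [hu, ← rpow_natCast, ← rpow_mul hw0.le, ← rpow_neg hw0.le]; norm_num
    have e35 : w ^ (-(5 / 4) : ℝ) ≤ w ^ (-(3 / 5) : ℝ) :=
      rpow_le_rpow_of_exponent_le hw (by norm_num)
    have key : 9 / 2 * w ^ (-(7 / 4) : ℝ) ≤ 14 / 25 * w ^ (-(3 / 5) : ℝ)
        + 8469 / 3200 * w ^ (-(5 / 4) : ℝ) + 9 / 4 * w ^ (-2 : ℝ) := by
      refine le_trans ?_ (add_le_add_left (add_le_add_left (mul_le_mul_of_nonneg_left e35
        (by norm_num)) _) _)
      rw [e7, e5, e8, show (u ^ 7)⁻¹ = u * (u ^ 8)⁻¹ by field_simp,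
        show (u ^ 5)⁻¹ = u ^ 3 * (u ^ 8)⁻¹ by field_simp]
      nlinarith [mul_le_mul_of_nonneg_right (mono_key hu1) (show 0 ≤ (u ^ 8)⁻¹ by positivity)]
    have h1 := mul_le_mul_of_nonneg_left hPQ
      (show 0 ≤ 9 / 4 * w ^ (-(7 / 4) : ℝ) by positivity)
    have h2 := mul_le_mul_of_nonneg_right key hQ
    simp only [hD]
    linarith
  refine monotoneOn_of_hasDerivWithinAt_nonneg (D := Ici (1 : ℝ)) (f' := D) (convex_Ici _)
    (fun w hw => (hd w hw).continuousAt.continuousWithinAt)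
    (fun w hw => (hd w (interior_subset hw)).hasDerivWithinAt)
    (fun w hw => hD0 w (interior_subset hw)) hx (hx.trans hxv) hxv

/-- The test at `x` covers every `v ≥ x`. -/
lemma tail_pos {P Pl Q T i v x b a e : ℝ} (hP : Pl ≤ P) (hPl : 0 ≤ Pl) (hQ : 0 ≤ Q)
    (hPQ : P ≤ 2 * Q) (hi : 0 ≤ i) (hX : i ^ (4 / 3 : ℝ) ≤ v) (hx : 1 ≤ x) (hxv : x ≤ v)
    (hb0 : 0 ≤ b) (hb : b ≤ x ^ (-(3 / 4) : ℝ)) (ha : a ≤ x ^ (2 / 5 : ℝ))
    (he : x ^ (-(1 / 4) : ℝ) ≤ e) (t : 0 ≤ lowEnd b a e (1 / x) Pl Q T) : 0 ≤ dLow P Q T i v := by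
  refine le_trans ?_ ((lowF_mono hQ hPQ hx hxv).trans
    (lowF_le hQ hi (by linarith) hX))
  have d1 : (2823 / 200 + 3 * b) * Pl ≤ (2823 / 200 + 3 * x ^ (-(3 / 4) : ℝ)) * P :=
    mul_le_mul (by linarith) hP hPl (by linarith [rpow_nonneg (zero_le_one.trans hx) (-(3 / 4) : ℝ)])
  have d2 := mul_le_mul_of_nonneg_right (show 7 / 5 * a - 3 / 4 * (2823 / 200) * e - 9 / 4 * (1 / x)
      ≤ 7 / 5 * x ^ (2 / 5 : ℝ) - 3 / 4 * (2823 / 200) * x ^ (-(1 / 4) : ℝ)
        - 9 / 4 * x ^ (-1 : ℝ) by rw [rpow_neg_one, one_div]; linarith) hQ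
  unfold lowF lowEnd at *
  linarith

/-- The test that uses nothing. -/
lemma crude_pos {P Pl Q T i v : ℝ} (hP : Pl ≤ P) (hPl : 0 ≤ Pl) (hQ : 0 ≤ Q) (hi : 0 ≤ i)
    (hv : 1 ≤ v) (hX : i ^ (4 / 3 : ℝ) ≤ v) (t : 0 ≤ lowEnd 0 1 1 1 Pl Q T) :
    0 ≤ dLow P Q T i v := by
  refine le_trans ?_ (lowF_le hQ hi (by linarith) hX)
  have d1 : (2823 / 200 + 3 * (0 : ℝ)) * Pl ≤ (2823 / 200 + 3 * v ^ (-(3 / 4) : ℝ)) * P :=
    mul_le_mul (by linarith [rpow_nonneg (zero_le_one.trans hv) (-(3 / 4) : ℝ)]) hP hPl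
      (by linarith [rpow_nonneg (zero_le_one.trans hv) (-(3 / 4) : ℝ)])
  have d2 := mul_le_mul_of_nonneg_right (show 7 / 5 * (1 : ℝ) - 3 / 4 * (2823 / 200) * 1 - 9 / 4 * 1
      ≤ 7 / 5 * v ^ (2 / 5 : ℝ) - 3 / 4 * (2823 / 200) * v ^ (-(1 / 4) : ℝ)
        - 9 / 4 * v ^ (-1 : ℝ) by
    linarith [one_le_rpow hv (show (0 : ℝ) ≤ 2 / 5 by norm_num),
      rpow_le_one_of_one_le_of_nonpos hv (show (-(1 / 4) : ℝ) ≤ 0 by norm_num),
      rpow_le_one_of_one_le_of_nonpos hv (show (-1 : ℝ) ≤ 0 by norm_num)]) hQ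
  unfold lowF lowEnd at *
  linarith

/-- An integer inequality between powers gives the real one. -/
lemma le_rpow_of_pow {a x p : ℝ} (n : ℕ) (hn : n ≠ 0) (hx : 0 ≤ x)
    (h : a ^ n ≤ x ^ (p * n)) : a ≤ x ^ p := by
  refine le_of_pow_le_pow_left₀ hn (rpow_nonneg hx _) ?_
  rwa [← rpow_natCast (x ^ p), ← rpow_mul hx]

lemma rpow_le_of_pow {e x p : ℝ} (n : ℕ) (hn : n ≠ 0) (hx : 0 ≤ x) (he : 0 ≤ e)
    (h : x ^ (p * n) ≤ e ^ n) : x ^ p ≤ e := by
  refine le_of_pow_le_pow_left₀ hn he ?_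
  rwa [← rpow_natCast (x ^ p), ← rpow_mul hx]

lemma aOk_sound {x a : ℤ} (hx : 0 < x) (h : aOk x a = true) :
    u6 a ≤ u6 x ^ (2 / 5 : ℝ) := by
  simp only [aOk, pu, Bool.and_eq_true, decide_eq_true_eq] at h
  norm_num at h
  have hx' : (0 : ℝ) < x := by exact_mod_cast hx
  have e : (a : ℝ) ^ 5 ≤ (x : ℝ) ^ 2 * 1000000000000000000 := by exact_mod_cast h.2
  refine le_rpow_of_pow 5 (by norm_num) (by unfold u6; positivity) ?_
  rw [show (2 / 5 : ℝ) * ((5 : ℕ) : ℝ) = ((2 : ℕ) : ℝ) by norm_num, rpow_natCast]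
  unfold u6
  rw [div_pow, div_pow, div_le_div_iff₀ (by positivity) (by positivity)]
  nlinarith

lemma eOk_sound {x e : ℤ} (hx : 0 < x) (h : eOk x e = true) :
    u6 x ^ (-(1 / 4) : ℝ) ≤ u6 e := by
  simp only [eOk, pu, Bool.and_eq_true, decide_eq_true_eq] at h
  norm_num at h
  have hx' : (0 : ℝ) < x := by exact_mod_cast hx
  have he : (0 : ℝ) ≤ e := by exact_mod_cast h.1
  have h2 : (1000000000000000000000000000000 : ℝ) ≤ (e : ℝ) ^ 4 * x := by exact_mod_cast h.2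
  refine rpow_le_of_pow 4 (by norm_num) (by unfold u6; positivity) (by unfold u6; positivity) ?_
  unfold u6
  rw [show (-(1 / 4) : ℝ) * ((4 : ℕ) : ℝ) = -((1 : ℕ) : ℝ) by norm_num, rpow_neg (div_nonneg hx'.le (by norm_num)), rpow_natCast]
  rw [pow_one, inv_div, div_pow, div_le_div_iff₀ hx' (by positivity)]
  nlinarith

lemma bOk_sound {x b : ℤ} (hx : 0 < x) (h : bOk x b = true) :
    0 ≤ u6 b ∧ u6 b ≤ u6 x ^ (-(3 / 4) : ℝ) := by
  simp only [bOk, pu, Bool.and_eq_true, decide_eq_true_eq] at h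
  norm_num at h
  have hx' : (0 : ℝ) < x := by exact_mod_cast hx
  have hb : (0 : ℝ) ≤ b := by exact_mod_cast h.1
  have h2 : (b : ℝ) ^ 4 * (x : ℝ) ^ 3 ≤ 1000000000000000000000000000000000000000000 := by
    exact_mod_cast h.2
  refine ⟨by unfold u6; positivity,
    le_rpow_of_pow 4 (by norm_num) (by unfold u6; positivity) ?_⟩
  unfold u6
  rw [show (-(3 / 4) : ℝ) * ((4 : ℕ) : ℝ) = -((3 : ℕ) : ℝ) by norm_num, rpow_neg (div_nonneg hx'.le (by norm_num)), rpow_natCast]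
  rw [div_pow, div_pow, inv_div, div_le_div_iff₀ (by positivity) (by positivity)]
  nlinarith

lemma wOk_sound {x w : ℤ} (hx : 0 < x) (h : wOk x w = true) :
    u6 x ^ (-(7 / 4) : ℝ) ≤ u6 w := by
  simp only [wOk, pu, Bool.and_eq_true, decide_eq_true_eq] at h
  norm_num at h
  have hx' : (0 : ℝ) < x := by exact_mod_cast hx
  have hw : (0 : ℝ) ≤ w := by exact_mod_cast h.1
  have h2 : (1000000000000000000000000000000000000000000000000000000000000000000 : ℝ) ≤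
      (w : ℝ) ^ 4 * (x : ℝ) ^ 7 := by exact_mod_cast h.2
  refine rpow_le_of_pow 4 (by norm_num) (by unfold u6; positivity) (by unfold u6; positivity) ?_
  unfold u6
  rw [show (-(7 / 4) : ℝ) * ((4 : ℕ) : ℝ) = -((7 : ℕ) : ℝ) by norm_num, rpow_neg (div_nonneg hx'.le (by norm_num)), rpow_natCast]
  rw [div_pow, div_pow, inv_div, div_le_div_iff₀ (by positivity) (by positivity)]
  nlinarith

lemma val_tanP {k : ℤ} (hk : 0 < k) (s r : ℝ) (x : ℤ) :
    (tanP k x).val s r = (7 * u6 k ^ 4 - 3 * u6 x) / (4 * u6 k ^ 7) := by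
  have h : ((4 * k ^ 7).toNat : ℤ) = 4 * k ^ 7 := Int.toNat_of_nonneg (by positivity)
  have h' : (((4 * k ^ 7).toNat : ℕ) : ℝ) = 4 * (k : ℝ) ^ 7 := by exact_mod_cast h
  have hk' : (0 : ℝ) < k := by exact_mod_cast hk
  simp only [tanP, val_mul, val_sub, val_par, val_int, QE.val, h', u6, pu]
  push_cast
  field_simp
  try ring

lemma val_invP {x : ℤ} (hx : 0 < x) (s r : ℝ) : (invP x).val s r = 1 / u6 x := by
  have h : ((x.toNat : ℕ) : ℝ) = (x : ℝ) := by exact_mod_cast Int.toNat_of_nonneg hx.le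
  simp only [invP, QE.val, h, u6]
  push_cast
  field_simp

lemma val_chdP_low {x1 x2 : ℤ} (h : x1 < x2) (s r : ℝ) (a c z : QE) :
    (chdP x1 x2 a c z).val s r =
      chd (u6 x1) (u6 x2) (a.val s r) (c.val s r) (z.val s r) := by
  have hd : (((x2 - x1).toNat : ℕ) : ℝ) = (x2 : ℝ) - x1 := by
    exact_mod_cast Int.toNat_of_nonneg (sub_nonneg.2 h.le)
  have hne : (x2 : ℝ) - x1 ≠ 0 := sub_ne_zero.2 (by exact_mod_cast h.ne')
  simp only [chdP, val_mul, val_add, val_sub, val_par, QE.val, hd, u6, chd]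
  push_cast
  field_simp
  ring

/-- The values of the ingredients. -/
lemma seg_vals (s r : ℝ) :
    pLo.val s r = 50929 / 10000 * segI s r ∧ pHi.val s r = 50930 / 10000 * segI s r ∧
      qQ.val s r = 15 / 2 * segV s r ∧ tT.val s r = 105 / 2 * segT s r := by
  refine ⟨?_, ?_, ?_, ?_⟩ <;>
  · simp [pLo, pHi, qQ, tT, segIP, segVP, segTP, qP, srP, s2, s3, q2, q3, r2, r3, segI, segV, segT]
    try ring

lemma val_lowEndP (s r : ℝ) (b a e f : QE) :
    (lowEndP b a e f).val s r = lowEnd (b.val s r) (a.val s r) (e.val s r) (f.val s r)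
      (pLo.val s r) (qQ.val s r) (tT.val s r) := by
  simp only [lowEndP, lowEnd, val_sub, val_int, QE.val]
  push_cast
  ring

/-- The real form of `Seg.ok`. -/
lemma Seg.sound {S : Seg} (h : S.ok = true) (s r : ℝ) :
    SegOk (u6 S.x1) (u6 S.x2) ((tanP S.k S.x1).val s r) ((tanP S.k S.x2).val s r) (u6 S.a1)
      (u6 S.a2) (u6 S.e1) (u6 S.e2) := by
  simp only [Seg.ok, Bool.and_eq_true, decide_eq_true_eq] at h
  obtain ⟨⟨⟨⟨⟨⟨⟨⟨⟨h1, h2⟩, h3⟩, h4⟩, h5⟩, h6⟩, h7⟩, h8⟩, h9⟩, -⟩ := h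
  have hx1 : 0 < S.x1 := lt_of_lt_of_le (by norm_num) h1
  have hk : (0 : ℝ) < S.k := by exact_mod_cast h3
  have h1' : (1000000 : ℝ) ≤ S.x1 := by exact_mod_cast h1
  have h2' : (S.x1 : ℝ) < S.x2 := by exact_mod_cast h2
  have hku : 0 < u6 S.k := by unfold u6; positivity
  have hnn : ∀ x : ℤ, 0 ≤ 2823 * 4 * S.k ^ 7 + 600 * (7 * S.k ^ 4 * pu 3 - 3 * x * pu 6) →
      0 ≤ 2823 / 200 + 3 * ((tanP S.k x).val s r) := by
    intro x hx
    have hx' : (0 : ℝ) ≤ 2823 * 4 * (S.k : ℝ) ^ 7 + 600 * (7 * (S.k : ℝ) ^ 4 * 1000000 ^ 3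
        - 3 * (x : ℝ) * 1000000 ^ 6) := by
      simp only [pu] at hx; exact_mod_cast hx
    rw [val_tanP h3]
    unfold u6
    have e : 2823 / 200 + 3 * ((7 * ((S.k : ℝ) / 1000000) ^ 4 - 3 * ((x : ℝ) / 1000000)) /
        (4 * ((S.k : ℝ) / 1000000) ^ 7)) = (2823 * 4 * (S.k : ℝ) ^ 7 + 600 * (7 * (S.k : ℝ) ^ 4
        * 1000000 ^ 3 - 3 * (x : ℝ) * 1000000 ^ 6)) / (800 * (S.k : ℝ) ^ 7) := by
      field_simp
      ring
    rw [e]
    positivity
  refine ⟨?_, ?_, ⟨fun v hv1 hv2 => ?_⟩, hnn _ h4, hnn _ h5, aOk_sound hx1 h6,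
    aOk_sound (hx1.trans h2) h7, eOk_sound hx1 h8, eOk_sound (hx1.trans h2) h9⟩
  · unfold u6; linarith
  · unfold u6; linarith
  · have hlt : u6 S.x1 < u6 S.x2 := by unfold u6; linarith
    have hv : 0 < v := lt_of_lt_of_le (by unfold u6; positivity) hv1
    refine le_trans (le_of_eq ?_) (neg34_tangent hv hku)
    rw [val_tanP h3, val_tanP h3, chd]
    have : u6 S.x2 - u6 S.x1 ≠ 0 := (sub_pos.2 hlt).ne'
    field_simp
    ring

/-- The bounds for `√(1 - s²)` in an environment. -/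
lemma sqrt_bounds {E : Env} {X : Box} {s r : ℝ} (h : E.ok X = true) (hX : X.Mem s r)
    (hs0 : 0 ≤ s) (hs1 : s ≤ 1) :
    E.bLo.val s r ≤ √(1 - s ^ 2) ∧ √(1 - s ^ 2) ≤ E.bHi.val s r := by
  simp only [Env.ok, Box.ok, Bool.and_eq_true, decide_eq_true_eq] at h
  obtain ⟨⟨⟨⟨⟨⟨⟨⟨⟨⟨⟨⟨⟨⟨hAB, -⟩, hA0⟩, hB1⟩, hn⟩, hcA⟩, hcB⟩, -⟩, -⟩, -⟩, -⟩, -⟩, -⟩, -⟩, -⟩ := h
  set q := √(1 - s ^ 2) with hq
  have hq0 : 0 ≤ q := sqrt_nonneg _
  have hq2 : q ^ 2 = 1 - s ^ 2 := sq_sqrt (by nlinarith)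
  constructor
  · have hc : ∀ A : ℤ, E.chordOk A = true → 0 ≤ A → A ≤ 16384 →
        (E.al : ℝ) / 1000000 + E.be / 1000000 * ((A : ℝ) / 16384) ^ 2 ≤
          √(1 - ((A : ℝ) / 16384) ^ 2) := by
      intro A hA h0 h1
      simp only [Env.chordOk, Bool.or_eq_true, decide_eq_true_eq] at hA
      have h1' : (A : ℝ) ≤ 16384 := by exact_mod_cast h1
      have h0' : (0 : ℝ) ≤ A := by exact_mod_cast h0
      rcases hA with hA | hA
      · have : (E.al : ℝ) * 268435456 + E.be * (A : ℝ) ^ 2 ≤ 0 := by exact_mod_cast hA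
        linarith [sqrt_nonneg (1 - ((A : ℝ) / 16384) ^ 2)]
      · refine le_sqrt_of_sq_le ?_
        have : ((E.al : ℝ) * 268435456 + E.be * (A : ℝ) ^ 2) ^ 2 ≤
            1000000000000 * 268435456 * (268435456 - (A : ℝ) ^ 2) := by exact_mod_cast hA
        nlinarith
    have hAB' : (X.A : ℝ) < X.B := by exact_mod_cast hAB
    have hB1' : (X.B : ℝ) ≤ 16384 := by exact_mod_cast hB1
    have hA0' : (0 : ℝ) ≤ X.A := by exact_mod_cast hA0
    have cA := hc X.A hcA hA0 (by omega)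
    have cB := hc X.B hcB (by omega) hB1
    set a2 := ((X.A : ℝ) / 16384) ^ 2 with ha2
    set b2 := ((X.B : ℝ) / 16384) ^ 2 with hb2
    have hab : a2 < b2 := pow_lt_pow_left₀ (by linarith) (by positivity) two_ne_zero
    have h1 : a2 ≤ s ^ 2 := pow_le_pow_left₀ (by positivity) (by linarith [hX.hA]) 2
    have h2 : s ^ 2 ≤ b2 := pow_le_pow_left₀ hs0 (by linarith [hX.hB]) 2
    obtain ⟨w1, w2, w3, w4⟩ := weights h1 h2 hab
    have hb21 : b2 ≤ 1 :=
      pow_le_one₀ (div_nonneg (hA0'.trans hAB'.le) (by norm_num)) (by linarith)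
    have := (Real.strictConcaveOn_sqrt.concaveOn).2 (mem_Ici.2 (show 0 ≤ 1 - a2 by linarith))
      (mem_Ici.2 (show 0 ≤ 1 - b2 by linarith)) w1 w2 w3
    simp only [smul_eq_mul] at this
    rw [show (b2 - s ^ 2) / (b2 - a2) * (1 - a2) + (s ^ 2 - a2) / (b2 - a2) * (1 - b2) = 1 - s ^ 2
      by linear_combination w3 - w4] at this
    simp only [Env.bLo, s2, val_add, val_par, QE.val, u6]
    refine le_trans (le_of_eq ?_) ((add_le_add (mul_le_mul_of_nonneg_left cA w1)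
      (mul_le_mul_of_nonneg_left cB w2)).trans this)
    linear_combination -((E.al : ℝ) / 1000000) * w3 - (E.be : ℝ) / 1000000 * w4
  · have hn' : (0 : ℝ) < E.nh := by exact_mod_cast hn
    have hd : ((E.nh.toNat : ℕ) : ℝ) = (E.nh : ℝ) := by exact_mod_cast Int.toNat_of_nonneg hn.le
    simp only [Env.bHi, qP, val_sub, val_mul, val_par, val_int, QE.val, hd, u6]
    push_cast
    rw [← sub_nonneg]
    have e : (1 : ℝ) / 2 * ((E.nh : ℝ) / 1000000 + 1000000 / (E.nh : ℝ) * (1 - s * s)) - q =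
        ((E.nh : ℝ) / 1000000 - q) ^ 2 / (2 * ((E.nh : ℝ) / 1000000)) := by
      field_simp
      linear_combination -hq2 * 1000000000000
    rw [e]
    positivity

/-- A product with `√(1 - s²)` from below. -/
lemma mLo_le_low {E : Env} {X : Box} {s r : ℝ} (h : E.ok X = true) (hX : X.Mem s r) (hs0 : 0 ≤ s)
    (hs1 : s ≤ 1) {m : Mul1} (he : 0 ≤ m.e) {D : QE} (ht : 0 ≤ (Env.mTest m D).val s r) :
    (E.mLo m D).val s r ≤ √(1 - s ^ 2) * D.val s r := by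
  obtain ⟨hl, hu⟩ := sqrt_bounds h hX hs0 hs1
  have he' : (0 : ℝ) ≤ u6 m.e := by
    have : (0 : ℝ) ≤ m.e := by exact_mod_cast he
    unfold u6; positivity
  unfold Env.mTest at ht
  unfold Env.mLo
  split_ifs at ht ⊢ with hp
  · simp only [val_add, val_par] at ht
    simp only [val_sub, val_mul, val_par]
    nlinarith [mul_nonneg (sub_nonneg.2 hl) ht, mul_nonneg (sub_nonneg.2 hu) he']
  · simp only [val_sub, val_par] at ht
    simp only [val_sub, val_mul, val_par]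
    nlinarith [mul_nonneg (sub_nonneg.2 hu) ht, mul_nonneg (sub_nonneg.2 hl) he']

lemma L_nonneg {E : Env} {X : Box} {s r : ℝ} (h : E.ok X = true) (hX : X.Mem s r) (hs0 : 0 ≤ s)
    (hs1 : s ≤ 1) (hr : 0 ≤ r) : 0 ≤ u6 E.L := by
  simp only [Env.ok, Bool.and_eq_true] at h
  have hm := h.1.1.1.1.1.1.1.2
  have hb := h.1.1.1.1.1.1.1.1.1.1.1
  have key : 1000000 ≤ E.L → 0 ≤ u6 E.L := fun hL => by
    have : (1000000 : ℝ) ≤ E.L := by exact_mod_cast hL
    unfold u6; linarith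
  unfold Env.mdOk at hm
  cases hmd : E.md with
  | flat =>
    simp only [hmd, Bool.and_eq_true] at hm
    have := nn_sound hX hb hm.2.2
    have hy : 0 ≤ (1 - s * s) * r := mul_nonneg (by nlinarith) hr
    simp [yP, qP] at this ⊢
    linarith
  | circ => simp only [hmd, Bool.and_eq_true, decide_eq_true_eq] at hm; exact key hm.2.2
  | chord => simp only [hmd, Bool.and_eq_true, decide_eq_true_eq] at hm; exact key hm.2.1.1.2
  | node x z =>
    simp only [hmd, Bool.and_eq_true, decide_eq_true_eq] at hm; exact key hm.2.1.1.1.1.1.1.2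

/-- The facts about a point used by every leaf. -/
structure Pt (X : Box) (s r i v : ℝ) : Prop where
  i0 : 0 ≤ i
  v1 : 1 ≤ v
  P : 50929 / 10000 * segI s r ≤ 16 / π * segI s r
  Pl : 0 ≤ 50929 / 10000 * segI s r
  Q : 0 ≤ 15 / 2 * segV s r
  mono : X.ok = true → nn X monoP = true → 16 / π * segI s r ≤ 2 * (15 / 2 * segV s r)

lemma pt_facts {X : Box} {s r : ℝ} {g : ℝ → ℝ} (hX : X.Mem s r) (D : Dom s r g) :
    Pt X s r (gI s r g) (gV s r g) := by
  obtain ⟨hs0, hs1, hr, hsr, hy, hH⟩ := D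
  obtain ⟨hi1, hv1, -⟩ := state_bounds hs0.le hs1 hr hsr hH hs0 hy
  obtain ⟨-, eP', eQ, -⟩ := seg_vals s r
  have hq : 0 ≤ 1 - s ^ 2 := by nlinarith
  have hsI : 0 ≤ segI s r := by unfold segI; positivity
  refine ⟨zero_le_one.trans hi1, hv1, mul_le_mul_of_nonneg_right (by
      rw [le_div_iff₀ pi_pos]; linarith [pi_lt_d6]) hsI, mul_nonneg (by norm_num) hsI,
    by unfold segV; positivity, fun hb h => ?_⟩
  have hPu : 16 / π * segI s r ≤ 50930 / 10000 * segI s r :=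
    mul_le_mul_of_nonneg_right (by
      rw [div_le_iff₀ pi_pos]; linarith [pi_gt_d6]) hsI
  have := nn_sound hX hb h
  simp only [monoP, val_sub, val_mul, val_int, eQ, eP'] at this
  push_cast at this
  linarith

lemma leaf_start (he : EnvSound) (x a e b : ℤ) (E : Option Env) {X : Box} {s r : ℝ} {g : ℝ → ℝ}
    (hok : (LeafA.start x a e b E).ok X = true) (hX : X.Mem s r) (D : Dom s r g)
    (hcon : gI s r g ^ (4 / 3 : ℝ) ≤ gV s r g) :
    0 ≤ dLow (16 / π * segI s r) (15 / 2 * segV s r) (105 / 2 * segT s r)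
      (gI s r g) (gV s r g) := by
  obtain ⟨hi0, hv1, hP, hPl, hQ, hmono⟩ := pt_facts hX D
  obtain ⟨hs0, hs1, hr, hsr, hy, hH⟩ := D
  obtain ⟨eP, -, eQ, eT⟩ := seg_vals s r
  set i := gI s r g with hi
  set v := gV s r g with hv
  simp only [LeafA.ok, Bool.and_eq_true, decide_eq_true_eq] at hok
  obtain ⟨⟨⟨⟨⟨⟨⟨hb, hx⟩, ha⟩, hee⟩, hbb⟩, hm⟩, ht⟩, hE⟩ := hok
  have hx0 : 0 < x := lt_of_lt_of_le (by norm_num) hx
  have t := nn_sound hX hb ht
  rw [val_lowEndP, eP, eQ, eT] at t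
  simp only [val_par, val_invP hx0] at t
  obtain ⟨hb0, hbx⟩ := bOk_sound hx0 hbb
  have hxv : u6 x ≤ v := by
    cases E with
    | none =>
      simp only [beq_iff_eq] at hE
      subst hE
      simpa using hv1
    | some E =>
      simp only [Bool.and_eq_true] at hE
      obtain ⟨il, vl, S⟩ := he E X s r g hE.1 hX ⟨hs0, hs1, hr, hsr, hy, hH⟩
      have h2 := nn_sound hX hb hE.2
      simp only [val_sub, val_par] at h2
      linarith [S.vlo, S.v_ge]
  have hx1 : 1 ≤ u6 x := by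
    have : (1000000 : ℝ) ≤ x := by exact_mod_cast hx
    unfold u6; linarith
  exact tail_pos hP hPl hQ (hmono hb hm) hi0 hcon hx1 hxv hb0 hbx (aOk_sound hx0 ha)
    (eOk_sound hx0 hee) t

lemma leaf_lam (he : EnvSound) (E : Env) (S : Seg) (Z : Exc) (k0 w : ℤ) {X : Box} {s r : ℝ} {g : ℝ → ℝ}
    (hok : (LeafA.lam E S Z k0 w).ok X = true) (hX : X.Mem s r) (D : Dom s r g)
    (hcon : gI s r g ^ (4 / 3 : ℝ) ≤ gV s r g) :
    0 ≤ dLow (16 / π * segI s r) (15 / 2 * segV s r) (105 / 2 * segT s r)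
      (gI s r g) (gV s r g) := by
  obtain ⟨hi0, hv1, hP, hPl, hQ, hmono⟩ := pt_facts hX D
  obtain ⟨hs0, hs1, hr, hsr, hy, hH⟩ := D
  obtain ⟨eP, -, eQ, eT⟩ := seg_vals s r
  set i := gI s r g with hi
  set v := gV s r g with hv
  simp only [LeafA.ok, Bool.and_eq_true, Bool.or_eq_true, decide_eq_true_eq] at hok
  obtain ⟨⟨⟨⟨⟨⟨⟨⟨⟨⟨⟨⟨hE, hS⟩, hm⟩, hend⟩, hx1⟩, hk0⟩, hw⟩, hsg⟩, hLh⟩, hh0⟩, hsig⟩, htop⟩,
    ⟨ht1, ht2⟩, ht3⟩ := hok
  have hb : X.ok = true := by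
    simp only [Env.ok, Bool.and_eq_true] at hE; exact hE.1.1.1.1.1.1.1.1.1.1.1
  have hS' := hS
  simp only [Seg.ok, Bool.and_eq_true, decide_eq_true_eq] at hS'
  obtain ⟨⟨⟨⟨⟨⟨⟨⟨⟨q1, q2⟩, q3⟩, -⟩, -⟩, -⟩, qa⟩, -⟩, qe⟩, qb⟩ := hS'
  have x10 : 0 < S.x1 := lt_of_lt_of_le (by norm_num) q1
  have x20 : 0 < S.x2 := x10.trans q2
  have hseg := S.sound hS s r
  have hPQ := hmono hb hm
  have tend := nn_sound hX hb hend
  rw [Seg.endP, val_lowEndP, eP, eQ, eT] at tend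
  simp only [val_par, val_invP x20] at tend
  obtain ⟨hb0, hbx⟩ := bOk_sound x20 qb
  rcases le_total (u6 S.x2) v with e | e
  · exact tail_pos hP hPl hQ hPQ hi0 hcon (hseg.pos.trans hseg.lt.le) e hb0 hbx
      (aOk_sound x20 qa) (eOk_sound x20 qe) tend
  obtain ⟨il, vl, St⟩ := he E X s r g hE hX ⟨hs0, hs1, hr, hsr, hy, hH⟩
  have hk0' : (0 : ℝ) ≤ k0 := by exact_mod_cast hk0
  have hw' : (0 : ℝ) ≤ w := by exact_mod_cast hw
  have hsg' : (0 : ℝ) ≤ Z.sig := by exact_mod_cast hsg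
  have hh0' : (0 : ℝ) < Z.h := by exact_mod_cast hh0
  have hLh' : u6 E.L ≤ u6 Z.h := by
    have : (E.L : ℝ) ≤ Z.h := by exact_mod_cast hLh
    unfold u6; linarith
  have hL0 := L_nonneg hE hX hs0.le hs1 hr
  have hhu : 0 < u6 Z.h := by unfold u6; positivity
  by_cases hg : g 0 ≤ u6 Z.h
  · have hr1 := St.sig (u6 Z.h) hg hLh' hhu
    have hsg2 : u6 Z.sig ≤ sigma (u6 Z.h) (u6 E.L) := by
      rw [sigma, le_div_iff₀ (by positivity)]
      have h3 : (Z.sig : ℝ) * (Z.h + E.L) * ((Z.h : ℝ) ^ 2 + (E.L : ℝ) ^ 2) ≤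
          1000000000000 * ((Z.h : ℝ) ^ 2 + Z.h * E.L + (E.L : ℝ) ^ 2) := by
        simp only [pu] at hsig; exact_mod_cast hsig
      unfold u6
      linear_combination h3 / 1000000000000000000000000
    set kk := 16000000 * 8 / (9424779 * 15) * u6 Z.sig with hkk
    have hkk0 : 0 ≤ kk := by rw [hkk]; unfold u6; positivity
    have hrel : kk * (v - vl) ≤ i - il := by
      refine le_trans (mul_le_mul_of_nonneg_right ?_ (sub_nonneg.2 St.v_ge)) hr1
      have hc : (16000000 * 8 / (9424779 * 15) : ℝ) ≤ 16 / (3 * π) * (8 / 15) := by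
        rw [div_mul_div_comm, div_le_div_iff₀ (by norm_num) (by positivity)]
        linarith [pi_lt_d6]
      calc kk ≤ 16 / (3 * π) * (8 / 15) * sigma (u6 Z.h) (u6 E.L) :=
            mul_le_mul hc hsg2 (by unfold u6; positivity) (by positivity)
        _ = _ := by ring
    have hx1' := nn_sound hX hb hx1
    simp only [val_sub, val_par] at hx1'
    have u1 := nn_sound hX hb ht1
    have u2 := nn_sound hX hb ht2
    have u3 := nn_sound hX hb ht3
    simp only [Seg.sP, val_sub, val_chdP_low q2, val_lowEndP, val_par,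
      val_invP x10, val_invP x20, eP, eQ, eT, QE.val] at u1 u2 u3
    push_cast at u1 u2 u3
    refine seg_lam (k0 := u6 k0) (lam := u6 w) hseg hP hPl hQ hcon St.ilo hi0
      (by linarith) St.vlo St.vhi St.v_ge e hkk0 hrel (by unfold u6; positivity)
      (by unfold u6; positivity) ?_ ?_ ?_
    · linear_combination u1
    · linear_combination u2
    · rw [hkk]; linear_combination u3
  · -- the chord from `h` already puts `v` beyond `x2`
    rcases htop with htop | ⟨⟨hme, hmt⟩, hbd⟩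
    · exfalso
      have : (2250000 : ℝ) ≤ Z.h := by exact_mod_cast htop
      have := hH.le_top
      simp only [u6, not_le] at hg
      linarith
    have hj := j4_ge hs0.le hs1 hr hsr hH hhu.le (le_of_lt (not_le.1 hg))
    have hmt' := nn_sound hX hb hmt
    have hm1 := mLo_le_low hE hX hs0.le hs1 hme hmt'
    have hbd' := nn_sound hX hb hbd
    simp only [val_sub, val_par, val_int, QE.val] at hbd'
    push_cast at hbd'
    have hval : (hTop Z.h).val s r = (1 - s * r) * avg4 (u6 Z.h) (endY s r) + s * r * lineV s r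
        - (1 - 2 * (1 - s ^ 2) / 3 + (1 - s ^ 2) ^ 2 / 5) := by
      simp [hTop, oneP, srP, avg4P, lineVP, capVP, yP, qP, s2, s3, Cert.q2, Cert.q3, r2, r3, avg4, lineV,
        endY]
      ring
    rw [hval] at hm1
    rw [footT] at hj
    have hv2 : u6 S.x2 ≤ v := by
      rw [hv, gV, stateV, footT, capV]
      linarith
    exact tail_pos hP hPl hQ hPQ hi0 hcon (hseg.pos.trans hseg.lt.le) hv2 hb0 hbx
      (aOk_sound x20 qa) (eOk_sound x20 qe) tend

lemma leaf_rel (he : EnvSound) (E : Env) (S : Seg) (w1 w2 I1 : ℤ) {X : Box} {s r : ℝ} {g : ℝ → ℝ}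
    (hok : (LeafA.rel E S w1 w2 I1).ok X = true) (hX : X.Mem s r) (D : Dom s r g)
    (hcon : gI s r g ^ (4 / 3 : ℝ) ≤ gV s r g) :
    0 ≤ dLow (16 / π * segI s r) (15 / 2 * segV s r) (105 / 2 * segT s r)
      (gI s r g) (gV s r g) := by
  obtain ⟨hi0, hv1, hP, hPl, hQ, hmono⟩ := pt_facts hX D
  obtain ⟨hs0, hs1, hr, hsr, hy, hH⟩ := D
  obtain ⟨eP, -, eQ, eT⟩ := seg_vals s r
  set i := gI s r g with hi
  set v := gV s r g with hv
  simp only [LeafA.ok, Bool.and_eq_true, decide_eq_true_eq] at hok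
  obtain ⟨⟨⟨⟨⟨⟨⟨⟨⟨⟨hE, hS⟩, hm⟩, hend⟩, hx1⟩, hym⟩, hI0⟩, hI1⟩, hw1⟩, hw2⟩,
    ⟨ht1, ht2⟩, ht3⟩ := hok
  have hb : X.ok = true := by
    simp only [Env.ok, Bool.and_eq_true] at hE; exact hE.1.1.1.1.1.1.1.1.1.1.1
  have hS' := hS
  simp only [Seg.ok, Bool.and_eq_true, decide_eq_true_eq] at hS'
  obtain ⟨⟨⟨⟨⟨⟨⟨⟨⟨q1, q2⟩, q3⟩, -⟩, -⟩, -⟩, qa⟩, -⟩, qe⟩, qb⟩ := hS'
  have x10 : 0 < S.x1 := lt_of_lt_of_le (by norm_num) q1
  have x20 : 0 < S.x2 := x10.trans q2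
  have hseg := S.sound hS s r
  have hPQ := hmono hb hm
  have tend := nn_sound hX hb hend
  rw [Seg.endP, val_lowEndP, eP, eQ, eT] at tend
  simp only [val_par, val_invP x20] at tend
  obtain ⟨hb0, hbx⟩ := bOk_sound x20 qb
  rcases le_total (u6 S.x2) v with e | e
  · exact tail_pos hP hPl hQ hPQ hi0 hcon (hseg.pos.trans hseg.lt.le) e hb0 hbx
      (aOk_sound x20 qa) (eOk_sound x20 qe) tend
  obtain ⟨il, vl, St⟩ := he E X s r g hE hX ⟨hs0, hs1, hr, hsr, hy, hH⟩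
  have hym' : (0 : ℝ) < E.ym := by exact_mod_cast hym
  have hI0' : (0 : ℝ) ≤ I1 := by exact_mod_cast hI0
  have hI1' := nn_sound hX hb hI1
  simp only [val_sub, val_par] at hI1'
  have hx1' := nn_sound hX hb hx1
  simp only [val_sub, val_par] at hx1'
  have hd : (((9424776 * 5 * E.ym.toNat : ℕ)) : ℝ) = 9424776 * 5 * (E.ym : ℝ) := by
    have h : ((E.ym.toNat : ℕ) : ℝ) = (E.ym : ℝ) := by
      exact_mod_cast Int.toNat_of_nonneg hym.le
    rw [Nat.cast_mul, h]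
    norm_num
  set ri := 16000000 * 2 * 1000000 / (9424776 * 5 * (E.ym : ℝ)) with hri
  have hri0 : 0 ≤ ri := by rw [hri]; positivity
  have hrel : i - il ≤ ri * (v - vl) := by
    have h1 := St.rho
    have hdv : 0 ≤ v - vl := sub_nonneg.2 St.v_ge
    rw [← hi, ← hv] at h1
    unfold u6 at h1
    rw [hri, div_mul_eq_mul_div, le_div_iff₀ (by positivity)]
    have h2 : 16 / (3 * π) * (v - vl) ≤ 16000000 / 9424776 * (v - vl) := by
      refine mul_le_mul_of_nonneg_right ?_ hdv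
      rw [div_le_div_iff₀ (by positivity) (by norm_num)]
      linarith [pi_gt_d6]
    linarith
  have u1 := nn_sound hX hb ht1
  have u2 := nn_sound hX hb ht2
  have u3 := nn_sound hX hb ht3
  simp only [Seg.sP, val_sub, val_chdP_low q2, val_lowEndP, val_par,
    eP, eQ, eT, QE.val, hd] at u1 u2 u3
  push_cast at u1 u2 u3
  refine seg_R (I1 := u6 I1) (w1 := u6 w1) (w2 := u6 w2) hseg hP hPl hQ
    ((show u6 I1 ≤ E.iLo.val s r by linarith).trans St.ilo) (by unfold u6; positivity)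
    St.i_ge St.ihi (by linarith) St.vlo St.vhi St.v_ge e hri0 hrel
    (wOk_sound x10 hw1) (wOk_sound x20 hw2) ?_ ?_ ?_
  · linear_combination u1
  · linear_combination u2
  · rw [hri]; linear_combination u3

/-- The leaves of the first derivative are sound, given the state bounds. -/
theorem low_sound (he : EnvSound) : LowSound := by
  intro l X s r g hok hX D hcon
  change 0 ≤ dLow (16 / π * segI s r) (15 / 2 * segV s r) (105 / 2 * segT s r)
    (gI s r g) (gV s r g)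
  cases l with
  | crude =>
    obtain ⟨hi0, hv1, hP, hPl, hQ, -⟩ := pt_facts hX D
    obtain ⟨eP, -, eQ, eT⟩ := seg_vals s r
    simp only [LeafA.ok, Bool.and_eq_true] at hok
    have t := nn_sound hX hok.1 hok.2
    rw [val_lowEndP, eP, eQ, eT] at t
    simp only [val_int, Int.cast_zero, Int.cast_one] at t
    exact crude_pos hP hPl hQ hi0 hv1 hcon t
  | start x a e b E => exact leaf_start he x a e b E hok hX D hcon
  | lam E S Z k0 w => exact leaf_lam he E S Z k0 w hok hX D hcon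
  | rel E S w1 w2 I1 => exact leaf_rel he E S w1 w2 I1 hok hX D hcon

end Vale.Agent.P237.Five.Cert
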