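import Vale.Agent.P237.Five.CertSpec

/-!
# P237, `n = 5`: the checks of an environment give the bounds for the state
-/

namespace Vale.Agent.P237.Five.Cert

open MeasureTheory Set Real intervalIntegral

/-- The point of a domain in an environment, with the derived facts used below. -/
lemma box_unit {X : Box} {s r : ℝ} (ho : X.ok = true) (hX : X.Mem s r) :
    0 ≤ (X.A : ℝ) ∧ (X.B : ℝ) ≤ 16384 ∧ (X.A : ℝ) ≤ 16384 * s ∧ 16384 * s ≤ (X.B : ℝ) := by
  simp only [Box.ok, Bool.and_eq_true, decide_eq_true_eq] at ho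
  exact ⟨by exact_mod_cast ho.1.2, by exact_mod_cast ho.2, hX.hA, hX.hB⟩

/-- A point below the circle. -/
lemma chord_point {w A : ℤ} (_hA : 0 ≤ 1 - ((A : ℝ) / 16384) ^ 2)
    (h : w ≤ 0 ∨ w ^ 2 ≤ 1000000000000 * 268435456 * (268435456 - A ^ 2)) :
    (w : ℝ) / (268435456 * 1000000) ≤ √(1 - ((A : ℝ) / 16384) ^ 2) := by
  rcases h with h | h
  · exact le_trans (div_nonpos_of_nonpos_of_nonneg (by exact_mod_cast h) (by norm_num))
      (sqrt_nonneg _)
  · refine le_sqrt_of_sq_le ?_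
    rify at h
    rw [div_pow, div_le_iff₀ (by norm_num)]
    linarith

lemma bLo_le {E : Env} {X : Box} {s r : ℝ} (ho : X.ok = true) (hX : X.Mem s r)
    (hA : E.chordOk X.A = true) (hB : E.chordOk X.B = true) :
    E.bLo.val s r ≤ √(1 - s ^ 2) := by
  obtain ⟨a0, b1, as, sb⟩ := box_unit ho hX
  simp only [Env.chordOk, Bool.or_eq_true, decide_eq_true_eq] at hA hB
  set a := (X.A : ℝ) / 16384 with ha
  set c := (X.B : ℝ) / 16384 with hc
  have ha0 : 0 ≤ a := by rw [ha]; linarith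
  have has : a ≤ s := by rw [ha]; linarith
  have hsc : s ≤ c := by rw [hc]; linarith
  have hc1 : c ≤ 1 := by rw [hc]; linarith
  have qa : 0 ≤ 1 - a ^ 2 := by nlinarith
  have qc : 0 ≤ 1 - c ^ 2 := by nlinarith
  have qs : 0 ≤ 1 - s ^ 2 := by nlinarith
  have pa := chord_point qa hA
  have pc := chord_point qc hB
  push_cast at pa pc
  have ea : ((E.al : ℝ) * 268435456 + E.be * (X.A : ℝ) ^ 2) / (268435456 * 1000000) =
      u6 E.al + u6 E.be * a ^ 2 := by rw [ha]; simp only [u6]; ring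
  have ec : ((E.al : ℝ) * 268435456 + E.be * (X.B : ℝ) ^ 2) / (268435456 * 1000000) =
      u6 E.al + u6 E.be * c ^ 2 := by rw [hc]; simp only [u6]; ring
  rw [ea] at pa
  rw [ec] at pc
  have hv : E.bLo.val s r = u6 E.al + u6 E.be * s ^ 2 := by
    simp [Env.bLo, s2, sq]
  rw [hv]
  rcases (pow_le_pow_left₀ ha0 (has.trans hsc) 2).eq_or_lt with e | e
  · have : s ^ 2 = a ^ 2 := le_antisymm ((pow_le_pow_left₀ (ha0.trans has) hsc 2).trans e.ge)
      (pow_le_pow_left₀ ha0 has 2)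
    rw [this]; exact pa
  obtain ⟨w1, w2, w3, w4⟩ := weights (pow_le_pow_left₀ ha0 has 2)
    (pow_le_pow_left₀ (ha0.trans has) hsc 2) e
  set θ := (c ^ 2 - s ^ 2) / (c ^ 2 - a ^ 2)
  set φ := (s ^ 2 - a ^ 2) / (c ^ 2 - a ^ 2)
  have h1 : u6 E.al + u6 E.be * s ^ 2 ≤ θ * √(1 - a ^ 2) + φ * √(1 - c ^ 2) :=
    calc u6 E.al + u6 E.be * s ^ 2
        = θ * (u6 E.al + u6 E.be * a ^ 2) + φ * (u6 E.al + u6 E.be * c ^ 2) := by
          linear_combination (-(u6 E.al)) * w3 - u6 E.be * w4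
      _ ≤ _ := add_le_add (mul_le_mul_of_nonneg_left pa w1) (mul_le_mul_of_nonneg_left pc w2)
  refine h1.trans (le_sqrt_of_sq_le ?_)
  have e2 : φ = 1 - θ := by linarith
  have key : (θ * √(1 - a ^ 2) + φ * √(1 - c ^ 2)) ^ 2 ≤
      θ * √(1 - a ^ 2) ^ 2 + φ * √(1 - c ^ 2) ^ 2 := by
    rw [e2] at w2 ⊢
    nlinarith [mul_nonneg (mul_nonneg w1 w2) (sq_nonneg (√(1 - a ^ 2) - √(1 - c ^ 2)))]
  rw [sq_sqrt qa, sq_sqrt qc] at key
  linear_combination key + w3 - w4

lemma le_bHi {E : Env} {s r : ℝ} (h : 0 < E.nh) (hs : s ^ 2 ≤ 1) :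
    √(1 - s ^ 2) ≤ E.bHi.val s r := by
  have hn : (0 : ℝ) < (E.nh : ℝ) := by exact_mod_cast h
  have hd : ((E.nh.toNat : ℝ)) = (E.nh : ℝ) := by
    have := Int.toNat_of_nonneg h.le
    exact_mod_cast this
  have hv : E.bHi.val s r =
      1 / 2 * ((E.nh : ℝ) / 1000000 + 1000000 / (E.nh : ℝ) * (1 - s ^ 2)) := by
    simp [Env.bHi, qP, hd, sq]
  rw [hv]
  set ν := (E.nh : ℝ) / 1000000 with hν
  have hν0 : 0 < ν := by positivity
  have e : 1000000 / (E.nh : ℝ) = 1 / ν := by rw [hν, one_div_div]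
  rw [e]
  have hq := sq_sqrt (show 0 ≤ 1 - s ^ 2 by linarith)
  set b := √(1 - s ^ 2)
  rw [← hq]
  have h2 : 0 ≤ (ν - b) ^ 2 / ν := by positivity
  have : (ν - b) ^ 2 / ν = ν + 1 / ν * b ^ 2 - 2 * b := by field_simp; ring
  linarith

section prod

variable {E : Env} {m : Mul1} {D : QE} {s r b : ℝ}

lemma mLo_le (hm : 0 ≤ m.e) (hl : E.bLo.val s r ≤ b) (hh : b ≤ E.bHi.val s r)
    (ht : 0 ≤ (Env.mTest m D).val s r) : (E.mLo m D).val s r ≤ b * D.val s r := by
  obtain ⟨p, e⟩ := m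
  have he : (0 : ℝ) ≤ u6 e := div_nonneg (by exact_mod_cast hm) (by norm_num)
  cases p <;> simp only [Env.mTest, Bool.false_eq_true, if_false, if_true, val_add, val_sub,
    val_par] at ht <;>
    simp only [Env.mLo, Bool.false_eq_true, if_false, if_true, val_sub, val_mul, val_par]
  · nlinarith [mul_nonneg (sub_nonneg.2 hh) ht, mul_nonneg (sub_nonneg.2 hl) he]
  · nlinarith [mul_nonneg (sub_nonneg.2 hl) ht, mul_nonneg (sub_nonneg.2 hh) he]

lemma le_mHi (hm : 0 ≤ m.e) (hl : E.bLo.val s r ≤ b) (hh : b ≤ E.bHi.val s r)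
    (ht : 0 ≤ (Env.mTest m D).val s r) : b * D.val s r ≤ (E.mHi m D).val s r := by
  obtain ⟨p, e⟩ := m
  have he : (0 : ℝ) ≤ u6 e := div_nonneg (by exact_mod_cast hm) (by norm_num)
  cases p <;> simp only [Env.mTest, Bool.false_eq_true, if_false, if_true, val_add, val_sub,
    val_par] at ht <;>
    simp only [Env.mHi, Bool.false_eq_true, if_false, if_true, val_add, val_sub, val_mul, val_par]
  · nlinarith [mul_nonneg (sub_nonneg.2 hl) ht, mul_nonneg (sub_nonneg.2 hh) he]
  · nlinarith [mul_nonneg (sub_nonneg.2 hh) ht, mul_nonneg (sub_nonneg.2 hl) he]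

end prod

/-- A larger `L` keeps the relations. -/
lemma Low.mono_L {j3 j4 J3 J4 ym L L' g0 : ℝ} (h : Low j3 j4 J3 J4 ym L g0) (hL : 0 ≤ L)
    (hLL : L ≤ L') : Low j3 j4 J3 J4 ym L' g0 := by
  refine ⟨h.le3, h.le4, h.rho, fun x hg hx hx0 => le_trans ?_ (h.sig x hg (hLL.trans hx) hx0)⟩
  refine mul_le_mul_of_nonneg_right ?_ (sub_nonneg.2 h.le4)
  have hL' : 0 ≤ L' := hL.trans hLL
  rw [sigma, sigma, div_le_div_iff₀ (by positivity) (by positivity)]
  have := sigma_step hL hL' hx0.le hLL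
  linarith

/-- The values of the integrals at the envelope in terms of `b = √(1 - s²)`. -/
structure EnvJ (E : Env) (s r : ℝ) (g : ℝ → ℝ) (J3 J4 : ℝ) : Prop where
  low : Low (∫ z in (0 : ℝ)..footT s r, g z ^ 3) (∫ z in (0 : ℝ)..footT s r, g z ^ 4) J3 J4
    (u6 E.ym) (u6 E.L) (g 0)
  nonneg : 0 ≤ J3
  j4 : J4 = √(1 - s ^ 2) * E.d4.val s r + E.c4.val s r
  lo : √(1 - s ^ 2) * (E.d3 serLP).val s r + (E.c3 serLP).val s r ≤ J3
  hi : J3 ≤ √(1 - s ^ 2) * (E.d3 serUP).val s r + (E.c3 serUP).val s r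

lemma val_serUP (s r : ℝ) (u : QE) : (serUP u).val s r = serU (u.val s r) := by
  simp only [serUP, serU, val_add, val_sub, val_mul, val_int, QE.val]
  push_cast
  ring

lemma val_serLP (s r : ℝ) (u : QE) : (serLP u).val s r = serL (u.val s r) := by
  simp only [serLP, serL, val_add, val_sub, val_mul, val_int, QE.val]
  push_cast
  ring

lemma val_yP (s r : ℝ) : yP.val s r = endY s r := by
  simp only [yP, qP, endY, val_add, val_sub, val_mul, val_int, QE.val]
  push_cast
  ring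

lemma val_oneP (s r : ℝ) : oneP.val s r = 1 - s * r := by simp [oneP, srP]

lemma val_qP (s r : ℝ) : qP.val s r = 1 - s ^ 2 := by simp [qP]; ring

lemma val_avg3P (s r : ℝ) (a : QE) : (avg3P a).val s r = avg3 (a.val s r) (endY s r) := by
  simp only [avg3P, avg3, val_yP, val_add, val_mul, QE.val]
  push_cast
  ring

lemma val_avg4P (s r : ℝ) (a : QE) : (avg4P a).val s r = avg4 (a.val s r) (endY s r) := by
  simp only [avg4P, avg4, val_yP, val_add, val_mul, QE.val]
  push_cast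
  ring

lemma avg3_nonneg {a c : ℝ} (ha : 0 ≤ a) (hc : 0 ≤ c) : 0 ≤ avg3 a c := by
  unfold avg3; positivity

lemma circU_nonneg {x : ℝ} (hx : 0 ≤ x) : 0 ≤ circU x :=
  intervalIntegral.integral_nonneg hx fun z _ => by positivity

lemma envJ {E : Env} {X : Box} {s r : ℝ} {g : ℝ → ℝ} (ho : X.ok = true) (hX : X.Mem s r)
    (hD : Dom s r g) (hm : E.mdOk X = true) (hl : E.bLo.val s r ≤ √(1 - s ^ 2)) :
    ∃ J3 J4, EnvJ E s r g J3 J4 := by
  obtain ⟨a0, -, as, -⟩ := box_unit ho hX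
  have hs := hD.s0.le
  obtain ⟨h0, htb, hb1⟩ := foot_mem hs hD.s1 hD.r0 hD.sr
  obtain ⟨hsy, hy0⟩ := endY_ge hs hD.s1 hD.r0
  have hq : 0 ≤ 1 - s ^ 2 := by nlinarith [hD.s1]
  have hone : 0 ≤ 1 - s * r := by linarith [hD.sr]
  have ht : footT s r = √(1 - s ^ 2) * (1 - s * r) := rfl
  have ht2 : footT s r ^ 2 = (1 - s ^ 2) * ((1 - s * r) * (1 - s * r)) := by
    rw [ht, mul_pow, sq_sqrt hq]; ring
  obtain ⟨md, al, be, nh, cap, m4, m3l, m3h, ym, L⟩ := E
  simp only [Env.mdOk, Bool.and_eq_true, decide_eq_true_eq] at hm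
  obtain ⟨hym, hm⟩ := hm
  have hy : (0 : ℝ) ≤ u6 ym := div_nonneg (by exact_mod_cast hym) (by norm_num)
  cases md with
  | circ =>
    simp only [Bool.and_eq_true, decide_eq_true_eq] at hm
    obtain ⟨h1, h2⟩ := hm
    rify at h1 h2
    have hys : u6 ym ≤ s := by simp only [u6]; linarith
    have hL : (1 : ℝ) ≤ u6 L := by simp only [u6]; linarith
    refine ⟨circU (footT s r), circV (footT s r),
      (low_circ hs hD.s1 hD.r0 hD.sr hD.head hy hys).mono_L zero_le_one hL, circU_nonneg h0,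
      ?_, ?_, ?_⟩
    · simp only [circV, Env.d4, Env.c4, val_int, val_mul, val_add, val_sub, val_oneP, val_qP,
        QE.val]
      rw [show footT s r ^ 5 = footT s r * (footT s r ^ 2) ^ 2 by ring,
        show footT s r ^ 3 = footT s r * footT s r ^ 2 by ring, ht2, ht]
      push_cast
      ring
    · refine le_of_eq_of_le ?_ (circU_ge h0 (htb.trans hb1))
      simp only [Env.d3, Env.c3, val_int, val_mul, val_serLP, val_oneP, val_qP, ht2]
      rw [ht]; push_cast; ring
    · refine (circU_le h0 (htb.trans hb1)).trans_eq ?_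
      simp only [Env.d3, Env.c3, val_int, val_mul, val_serUP, val_oneP, val_qP, ht2]
      rw [ht]; push_cast; ring
  | flat =>
    simp only [Bool.and_eq_true] at hm
    have h1 := nn_sound hX ho hm.1
    have h2 := nn_sound hX ho hm.2
    simp only [val_sub, val_yP, val_par, sub_nonneg] at h1 h2
    refine ⟨_, _, low_flat hs hD.s1 hD.r0 hD.sr hD.head hy h1 h2,
      mul_nonneg h0 (pow_nonneg hy0 3), ?_, le_of_eq ?_, le_of_eq ?_⟩ <;>
    · simp only [Env.d4, Env.c4, Env.d3, Env.c3, val_int, val_mul, val_oneP, val_yP]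
      rw [ht]; push_cast; ring
  | chord =>
    simp only [Bool.and_eq_true, decide_eq_true_eq] at hm
    obtain ⟨⟨⟨h1, h2⟩, h3⟩, h4⟩ := hm
    have h3 := nn_sound hX ho h3
    have h4 := nn_sound hX ho h4
    simp only [val_sub, val_yP, val_par, sub_nonneg] at h3 h4
    rify at h1 h2
    have h1' : u6 ym ≤ 1 := by simp only [u6]; linarith
    have h2' : 1 ≤ u6 L := by simp only [u6]; linarith
    refine ⟨(footT s r - 0) * avg3 1 (endY s r), (footT s r - 0) * avg4 1 (endY s r),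
      low_seg hs hD.s1 hD.r0 hD.sr hD.head le_rfl h0 hD.head.one_le hy h1' h3 h2' h4,
      mul_nonneg (by linarith) (avg3_nonneg zero_le_one hy0), ?_, le_of_eq ?_, le_of_eq ?_⟩ <;>
    · simp only [Env.d4, Env.c4, Env.d3, Env.c3, val_int, val_mul, val_oneP, val_avg3P, val_avg4P,
        Int.cast_one, Int.cast_zero, sub_zero, add_zero]
      rw [ht]; ring
  | node x z =>
    simp only [Bool.and_eq_true, decide_eq_true_eq] at hm
    obtain ⟨⟨⟨⟨⟨⟨⟨h1, h2⟩, h3⟩, h4⟩, h5⟩, h6⟩, h7⟩, h8⟩ := hm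
    have h6 := nn_sound hX ho h6
    have h7 := nn_sound hX ho h7
    have h8 := nn_sound hX ho h8
    simp only [val_sub, val_mul, val_yP, val_oneP, val_par, sub_nonneg] at h6 h7 h8
    rify at h1 h2 h3 h4 h5
    have h1' : u6 ym ≤ u6 z := by simp only [u6]; linarith
    have h2' : 1 ≤ u6 L := by simp only [u6]; linarith
    have hx0 : 0 ≤ u6 x := by simp only [u6]; linarith
    have hx1 : u6 x ≤ 1 := by simp only [u6]; linarith
    have hxz : u6 x ^ 2 + u6 z ^ 2 ≤ 1 := by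
      simp only [u6, div_pow]; linarith
    have hxt : u6 x ≤ footT s r := h8.trans (mul_le_mul_of_nonneg_right hl hone)
    refine ⟨_, _, low_node hs hD.s1 hD.r0 hD.sr hD.head hx0 hxt (hy.trans h1') hxz hy h1' h6 h2' h7,
      add_nonneg (circU_nonneg hx0)
        (mul_nonneg (sub_nonneg.2 hxt) (avg3_nonneg (hy.trans h1') hy0)), ?_, ?_, ?_⟩
    · simp only [circV, Env.d4, Env.c4, val_int, val_mul, val_add, val_sub, val_oneP, val_par,
        val_avg4P, QE.val]
      rw [ht]; push_cast; ring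
    · refine le_trans (le_of_eq ?_) (add_le_add (circU_ge hx0 hx1) le_rfl)
      simp only [Env.d3, Env.c3, val_mul, val_sub, val_serLP, val_oneP, val_par, val_avg3P]
      rw [ht]; ring
    · refine (add_le_add (circU_le hx0 hx1) le_rfl).trans (le_of_eq ?_)
      simp only [Env.d3, Env.c3, val_mul, val_sub, val_serUP, val_oneP, val_par, val_avg3P]
      rw [ht]; ring

lemma val_serCP (s r : ℝ) : serCP.val s r = serC s := by
  simp [serCP, s5, s3, s2, serC]; ring

lemma val_lineIP (s r : ℝ) : lineIP.val s r = lineI s r := by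
  simp [lineIP, lineI, qP, q2, q3, s2, s3, r2, r3]; ring

lemma val_lineVP (s r : ℝ) : lineVP.val s r = lineV s r := by
  simp [lineVP, lineV, qP, q2, q3, s2, s3, r2, r3]; ring

lemma val_srP (s r : ℝ) : srP.val s r = s * r := by simp [srP]

lemma lineI_nonneg {s r : ℝ} (hs : 0 ≤ s) (hs1 : s ≤ 1) (hr : 0 ≤ r) : 0 ≤ lineI s r := by
  have h : (0 : ℝ) ≤ 1 - s ^ 2 := by nlinarith
  unfold lineI; positivity

lemma capI_nonneg' {s : ℝ} : 0 ≤ capI s :=
  intervalIntegral.integral_nonneg (Real.sqrt_le_one.2 (by nlinarith [sq_nonneg s]))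
    fun x _ => by positivity

/-- The scaling of `i` by rational bounds of `16/(3π)`. -/
lemma scale_bounds {lo M hi : ℝ} (h1 : lo ≤ M) (h2 : M ≤ hi) (h0 : 0 ≤ M) :
    16000000 / 9424779 * lo ≤ 16 / (3 * π) * M ∧
      16 / (3 * π) * M ≤ 16000000 / 9424776 * hi := by
  have hpi := Real.pi_pos
  constructor
  · refine (mul_le_mul_of_nonneg_left h1 (by norm_num)).trans
      (mul_le_mul_of_nonneg_right ?_ h0)
    rw [div_le_div_iff₀ (by norm_num) (by positivity)]
    linarith [Real.pi_lt_d6]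
  · refine le_trans (mul_le_mul_of_nonneg_right ?_ h0) (mul_le_mul_of_nonneg_left h2 (by norm_num))
    rw [div_le_div_iff₀ (by positivity) (by norm_num)]
    linarith [Real.pi_gt_d6]

/-- The checks of an environment give the bounds for the state. -/
theorem env_sound : EnvSound := by
  intro E X s r g hE hX hD
  simp only [Env.ok, Bool.and_eq_true, decide_eq_true_eq] at hE
  obtain ⟨⟨⟨⟨⟨⟨⟨⟨⟨⟨⟨ho, hnh⟩, hcA⟩, hcB⟩, hmd⟩, hcap⟩, he4⟩, he3l⟩, he3h⟩, ht4⟩, ht3l⟩, ht3h⟩ := hE
  have hs := hD.s0.le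
  have hs2 : s ^ 2 ≤ 1 := by nlinarith [hD.s1]
  have hl := bLo_le ho hX hcA hcB
  have hh := le_bHi (E := E) (r := r) hnh hs2
  obtain ⟨J3, J4, hJ⟩ := envJ ho hX hD hmd hl
  have m4l := mLo_le he4 hl hh (nn_sound hX ho ht4)
  have m4h := le_mHi he4 hl hh (nn_sound hX ho ht4)
  have m3l := mLo_le he3l hl hh (nn_sound hX ho ht3l)
  have m3h := le_mHi he3h hl hh (nn_sound hX ho ht3h)
  set b := √(1 - s ^ 2) with hb
  set M := J3 + b * s * r * lineI s r + capI s with hM
  have hM0 : 0 ≤ M := by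
    have h1 := lineI_nonneg hs hD.s1 hD.r0
    have h2 := hD.r0
    have h3 : 0 ≤ b * s * r * lineI s r := by positivity
    linarith [hJ.nonneg, capI_nonneg' (s := s)]
  have hcapb : b * (E.d3 serLP).val s r + (E.c3 serLP).val s r + b * s * r * lineI s r +
      capI s ≤ M ∧ M ≤ b * (E.d3 serUP).val s r + (E.c3 serUP).val s r + b * s * r * lineI s r +
      capI s := ⟨by linarith [hJ.lo], by linarith [hJ.hi]⟩
  have hsum : (E.mLo E.m3l E.fIl).val s r + (E.c3 serLP).val s r + E.capLoP.val s r ≤ M ∧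
      M ≤ (E.mHi E.m3h E.fIh).val s r + (E.c3 serUP).val s r + E.capHiP.val s r := by
    rcases hT : E.cap with _ | T
    · have e1 : capI s = 3 * π / 16 - circU b := capI_eq s
      have hb1 : b ≤ 1 := sqrt_le_one.2 (by nlinarith)
      have hu := circU_le (sqrt_nonneg (1 - s ^ 2)) hb1
      have hl' := circU_ge (sqrt_nonneg (1 - s ^ 2)) hb1
      rw [sq_sqrt (by linarith), ← hb] at hu hl'
      simp only [Env.fIl, Env.fIh, hT, val_sub, val_add, val_mul, val_serUP, val_serLP, val_qP,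
        val_srP, val_lineIP] at m3l m3h
      simp only [Env.capLoP, Env.capHiP, Env.fIl, Env.fIh, hT, QE.val]
      push_cast
      constructor
      · linarith [hcapb.1, Real.pi_gt_d6]
      · linarith [hcapb.2, Real.pi_lt_d6]
    · simp only [Env.capOk, hT, Bool.and_eq_true, decide_eq_true_eq] at hcap
      obtain ⟨hT0, hT1⟩ := hcap
      rify at hT0 hT1
      obtain ⟨a0, -, as, sb⟩ := box_unit ho hX
      have hsB : s ^ 2 ≤ ((X.B : ℝ) / 16384) ^ 2 := pow_le_pow_left₀ hs (by linarith) 2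
      have hT' : (1 : ℝ) ≤ u6 T * (1 - s ^ 2) := by
        refine le_trans ?_ (mul_le_mul_of_nonneg_left (by linarith : 1 - ((X.B : ℝ) / 16384) ^ 2 ≤
          1 - s ^ 2) (by simp only [u6]; positivity))
        simp only [u6, div_pow]
        linarith
      have c1 := capI_ge hs hD.s1
      have c2 := capI_le hs hD.s1 hT'
      simp only [Env.fIl, Env.fIh, hT, val_add, val_mul, val_srP, val_lineIP] at m3l m3h
      simp only [Env.capLoP, Env.capHiP, Env.fIl, Env.fIh, hT, val_add, val_mul, val_par,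
        val_serCP]
      simp only [s5, s3, s2, val_mul, QE.val]
      push_cast
      constructor
      · linarith [hcapb.1]
      · linarith [hcapb.2]
  have hV : 1 + 15 / 8 * (b * E.fV.val s r + E.c4.val s r) =
      15 / 8 * (J4 + b * s * r * lineV s r + capV s) := by
    rw [hJ.j4, capV, ← hb]
    simp only [Env.fV, val_sub, val_add, val_mul, val_srP, val_lineVP, capVP, val_int, val_qP, q2,
      QE.val]
    push_cast
    ring
  refine ⟨16 / (3 * π) * M, 15 / 8 * (J4 + b * s * r * lineV s r + capV s),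
    ?_, ?_, ?_, ?_, ?_, ?_, ?_, fun h h1 h2 h3 => ?_⟩
  · simp only [Env.iLo, val_mul, val_add, QE.val]
    push_cast
    exact (scale_bounds hsum.1 le_rfl hM0).1
  · simp only [Env.iHi, val_mul, val_add, QE.val]
    push_cast
    exact (scale_bounds le_rfl hsum.2 hM0).2
  · rw [← hV]
    simp only [Env.vLo, val_mul, val_add, val_int, QE.val]
    push_cast
    linarith
  · rw [← hV]
    simp only [Env.vHi, val_mul, val_add, val_int, QE.val]
    push_cast
    linarith
  · rw [gI, stateI, ← hb, hM]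
    have := hJ.low.le3
    gcongr
  · rw [gV, stateV, ← hb]
    linarith [hJ.low.le4]
  · rw [gI, gV, stateI, stateV, ← hb, hM]
    have := mul_le_mul_of_nonneg_left hJ.low.rho
      (show (0 : ℝ) ≤ 15 / 8 * (16 / (3 * π)) by positivity)
    linarith
  · rw [gI, gV, stateI, stateV, ← hb, hM]
    have := mul_le_mul_of_nonneg_left (hJ.low.sig h h1 h2 h3)
      (show (0 : ℝ) ≤ 16 / (3 * π) by positivity)
    linarith

end Vale.Agent.P237.Five.Cert
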