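import Vale.Agent.P237.Five.Glue
import Vale.Agent.P237.Five.CertKey
import Vale.Agent.P237.Five.CertLow
import Vale.Agent.P237.Five.CertHigh
import Vale.Agent.P237.Five.CertState

/-!
# P237, `n = 5`: all modules composed, given only the data of the certificate
-/

namespace Vale.Agent.P237.Five

open MeasureTheory Set
open scoped RealInnerProductSpace

/-- `KeyFive` from checked trees. -/
theorem keyFive_of_data (hd : Cert.DataOk) : KeyFive :=
  Cert.keyFive_of (Cert.low_sound Cert.env_sound) (Cert.high_sound Cert.env_sound) hd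

/-- The public form, given checked trees. -/
theorem petty_five_of_data (hd : Cert.DataOk) (K : Set (E 5)) (hc : Convex ℝ K) (hk : IsCompact K)
    (hi : (interior K).Nonempty) :
    (∀ u : E 5, ‖u‖ = 1 →
      IsGreatest ((fun y => ⟪y, u⟫) '' ProjectionBody K) (shadow K u)) ∧
    3375 * Real.pi ^ 4 / 16384 * (volume K).toReal ^ 4 ≤ (volume (ProjectionBody K)).toReal ∧
    ((volume (ProjectionBody K)).toReal = 3375 * Real.pi ^ 4 / 16384 * (volume K).toReal ^ 4 ↔
      IsEllipsoid5 K) :=
  petty_five_of_key (keyFive_of_data hd) K hc hk hi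

end Vale.Agent.P237.Five
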