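import Vale.Agent.P237.Four.CertPoly

/-!
# P237, `n = 5`: the Bernstein test by Kronecker substitution

An expression is rewritten in the coordinates `s = (A + B x) / (D (1 + x))`, `r` likewise, with
`x, y ≥ 0`; the resulting integer polynomial is stored as the single integer that is its value at
`(2 ^ K, 2 ^ (32 K))`. If a bound for its coefficients is below `2 ^ (K - 1)` and no digit of that
integer has its top bit, all coefficients are nonnegative.
-/

namespace Vale.Agent.P237.Five.Cert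

open Four.Cert (rev rev_badd rev_bsmP rev_bmul badd bmul bsmP padd pmul psm padTo pev_padd pev_pmul
  pev_psm pev_padTo)
open OneDimCert (pev)

/-- Expressions with rational constants. -/
inductive QE where
  | cst (n : ℤ) (d : ℕ)
  | vS
  | vR
  | add (a b : QE)
  | sub (a b : QE)
  | mul (a b : QE)

instance : Add QE := ⟨.add⟩
instance : Sub QE := ⟨.sub⟩
instance : Mul QE := ⟨.mul⟩

/-- Value of an expression. -/
@[simp] noncomputable def QE.val (s r : ℝ) : QE → ℝ
  | .cst n d => (n : ℝ) / (d : ℝ)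
  | .vS => s
  | .vR => r
  | .add a b => a.val s r + b.val s r
  | .sub a b => a.val s r - b.val s r
  | .mul a b => a.val s r * b.val s r

@[simp] lemma val_add (s r : ℝ) (a b : QE) : (a + b).val s r = a.val s r + b.val s r := rfl
@[simp] lemma val_sub (s r : ℝ) (a b : QE) : (a - b).val s r = a.val s r - b.val s r := rfl
@[simp] lemma val_mul (s r : ℝ) (a b : QE) : (a * b).val s r = a.val s r * b.val s r := rfl

/-- A box in the unit `1 / 16384`. -/
structure Box where
  A : ℤ
  B : ℤ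
  A' : ℤ
  B' : ℤ

/-- The point lies in the box. -/
structure Box.Mem (X : Box) (s r : ℝ) : Prop where
  hA : (X.A : ℝ) ≤ 16384 * s
  hB : 16384 * s ≤ (X.B : ℝ)
  hA' : (X.A' : ℝ) ≤ 16384 * r
  hB' : 16384 * r ≤ (X.B' : ℝ)

/-- The box is nondegenerate. -/
def Box.ok (X : Box) : Bool := X.A < X.B && X.A' < X.B' && 0 ≤ X.A && X.B ≤ 16384

/-- Degree in `s`. -/
def QE.dS : QE → ℕ
  | .cst .. => 0
  | .vS => 1
  | .vR => 0
  | .add a b => max a.dS b.dS
  | .sub a b => max a.dS b.dS
  | .mul a b => a.dS + b.dS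

/-- Degree in `r`. -/
def QE.dR : QE → ℕ
  | .cst .. => 0
  | .vS => 0
  | .vR => 1
  | .add a b => max a.dR b.dR
  | .sub a b => max a.dR b.dR
  | .mul a b => a.dR + b.dR

/-- Denominator. -/
def QE.den : QE → ℕ
  | .cst _ d => if d = 0 then 1 else d
  | .vS => 16384
  | .vR => 16384
  | .add a b => Nat.lcm a.den b.den
  | .sub a b => Nat.lcm a.den b.den
  | .mul a b => a.den * b.den

/-- Bound for the sum of the absolute values of the coefficients. -/
def QE.nrm (X : Box) : QE → ℕ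
  | .cst n d => if d = 0 then 0 else n.natAbs
  | .vS => X.A.natAbs + X.B.natAbs
  | .vR => X.A'.natAbs + X.B'.natAbs
  | .add a b => (Nat.lcm a.den b.den / a.den) * 2 ^ (max a.dS b.dS - a.dS)
        * 2 ^ (max a.dR b.dR - a.dR) * a.nrm X
      + (Nat.lcm a.den b.den / b.den) * 2 ^ (max a.dS b.dS - b.dS)
        * 2 ^ (max a.dR b.dR - b.dR) * b.nrm X
  | .sub a b => (Nat.lcm a.den b.den / a.den) * 2 ^ (max a.dS b.dS - a.dS)
        * 2 ^ (max a.dR b.dR - a.dR) * a.nrm X
      + (Nat.lcm a.den b.den / b.den) * 2 ^ (max a.dS b.dS - b.dS)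
        * 2 ^ (max a.dR b.dR - b.dR) * b.nrm X
  | .mul a b => a.nrm X * b.nrm X

/-- `2 ^ 1024`. -/
def bX : ℕ := 2 ^ 1024

/-- `2 ^ (32 * 1024)`. -/
def bY : ℕ := 2 ^ 32768

/-- The encoded numerator. -/
def QE.enc (X : Box) : QE → ℤ
  | .cst n d => if d = 0 then 0 else n
  | .vS => X.A + X.B * (bX : ℤ)
  | .vR => X.A' + X.B' * (bY : ℤ)
  | .add a b => ((Nat.lcm a.den b.den / a.den * (1 + bX) ^ (max a.dS b.dS - a.dS)
        * (1 + bY) ^ (max a.dR b.dR - a.dR) : ℕ) : ℤ) * a.enc X
      + ((Nat.lcm a.den b.den / b.den * (1 + bX) ^ (max a.dS b.dS - b.dS)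
        * (1 + bY) ^ (max a.dR b.dR - b.dR) : ℕ) : ℤ) * b.enc X
  | .sub a b => ((Nat.lcm a.den b.den / a.den * (1 + bX) ^ (max a.dS b.dS - a.dS)
        * (1 + bY) ^ (max a.dR b.dR - a.dR) : ℕ) : ℤ) * a.enc X
      - ((Nat.lcm a.den b.den / b.den * (1 + bX) ^ (max a.dS b.dS - b.dS)
        * (1 + bY) ^ (max a.dR b.dR - b.dR) : ℕ) : ℤ) * b.enc X
  | .mul a b => a.enc X * b.enc X

/-- The top bit of each of the first `L` digits. -/
def mask (L : ℕ) : ℕ := 2 ^ 1023 * ((2 ^ (1024 * L) - 1) / (2 ^ 1024 - 1))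

/-- The kernel test. -/
def nn (X : Box) (e : QE) : Bool :=
  decide (e.dS < 32) && decide (e.nrm X < 2 ^ 1023) && decide (0 ≤ e.enc X) &&
    Nat.land (e.enc X).toNat (mask (32 * (e.dR + 1))) == 0

/-! ### The coefficients behind the encoding -/

/-- Powers. -/
def bpow (P : List (List ℤ)) : ℕ → List (List ℤ)
  | 0 => [[1]]
  | k + 1 => bmul P (bpow P k)

/-- Multiplication by `c (1 + x)^i (1 + y)^j`. -/
def lift (c : ℤ) (i j : ℕ) (P : List (List ℤ)) : List (List ℤ) :=
  bsmP [c] (bmul (bpow [[1, 1]] i) (bmul (bpow [[1], [1]] j) P))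

/-- The coefficients. -/
def QE.pol (X : Box) : QE → List (List ℤ)
  | .cst n d => if d = 0 then [] else [[n]]
  | .vS => [[X.A, X.B]]
  | .vR => [[X.A'], [X.B']]
  | .add a b => badd
      (lift ((Nat.lcm a.den b.den / a.den : ℕ) : ℤ) (max a.dS b.dS - a.dS) (max a.dR b.dR - a.dR)
        (a.pol X))
      (lift ((Nat.lcm a.den b.den / b.den : ℕ) : ℤ) (max a.dS b.dS - b.dS) (max a.dR b.dR - b.dR)
        (b.pol X))
  | .sub a b => badd
      (lift ((Nat.lcm a.den b.den / a.den : ℕ) : ℤ) (max a.dS b.dS - a.dS) (max a.dR b.dR - a.dR)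
        (a.pol X))
      (lift (-((Nat.lcm a.den b.den / b.den : ℕ) : ℤ)) (max a.dS b.dS - b.dS)
        (max a.dR b.dR - b.dR) (b.pol X))
  | .mul a b => bmul (a.pol X) (b.pol X)

lemma rev_bpow (x y : ℝ) (P : List (List ℤ)) : ∀ k, rev x y (bpow P k) = rev x y P ^ k
  | 0 => by simp [bpow, rev, pev]
  | k + 1 => by simp [bpow, rev_bmul, rev_bpow x y P k, pow_succ']

lemma rev_lift (x y : ℝ) (c : ℤ) (i j : ℕ) (P : List (List ℤ)) :
    rev x y (lift c i j P) = c * ((1 + x) ^ i * ((1 + y) ^ j * rev x y P)) := by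
  simp [lift, rev_bsmP, rev_bmul, rev_bpow, rev, pev]

lemma rev_enc (X : Box) : ∀ e : QE, rev (bX : ℝ) (bY : ℝ) (e.pol X) = (e.enc X : ℝ)
  | .cst n d => by
    rw [QE.pol, QE.enc]; generalize bX = u; generalize bY = w
    by_cases h : d = 0 <;> simp [h, rev, pev]
  | .vS => by
    rw [QE.pol, QE.enc]; generalize bX = u; generalize bY = w
    simp [rev, pev, mul_comm]
  | .vR => by
    rw [QE.pol, QE.enc]; generalize bX = u; generalize bY = w
    simp [rev, pev, mul_comm]
  | .add a b => by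
    rw [QE.pol, QE.enc, rev_badd, rev_lift, rev_lift, rev_enc X a, rev_enc X b]
    generalize bX = u; generalize bY = w
    push_cast
    ring
  | .sub a b => by
    rw [QE.pol, QE.enc, rev_badd, rev_lift, rev_lift, rev_enc X a, rev_enc X b]
    generalize bX = u; generalize bY = w
    push_cast
    ring
  | .mul a b => by
    rw [QE.pol, QE.enc, rev_bmul, rev_enc X a, rev_enc X b, Int.cast_mul]

lemma den_pos : ∀ e : QE, 0 < e.den
  | .cst n d => by by_cases h : d = 0 <;> simp [QE.den, h]; omega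
  | .vS => by simp [QE.den]
  | .vR => by simp [QE.den]
  | .add a b => Nat.pos_of_ne_zero (Nat.lcm_ne_zero (den_pos a).ne' (den_pos b).ne')
  | .sub a b => Nat.pos_of_ne_zero (Nat.lcm_ne_zero (den_pos a).ne' (den_pos b).ne')
  | .mul a b => Nat.mul_pos (den_pos a) (den_pos b)

lemma lift_val (a b : QE) (x y : ℝ) {p w : ℝ}
    (hp : p = a.den * (1 + x) ^ a.dS * (1 + y) ^ a.dR * w) :
    ((Nat.lcm a.den b.den / a.den : ℕ) : ℝ)
        * ((1 + x) ^ (max a.dS b.dS - a.dS) * ((1 + y) ^ (max a.dR b.dR - a.dR) * p)) =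
      (Nat.lcm a.den b.den : ℝ) * (1 + x) ^ max a.dS b.dS * (1 + y) ^ max a.dR b.dR * w := by
  have e1 : ((Nat.lcm a.den b.den / a.den : ℕ) : ℝ) * (a.den : ℝ) = (Nat.lcm a.den b.den : ℝ) := by
    exact_mod_cast Nat.div_mul_cancel (Nat.dvd_lcm_left _ _)
  have e2 : (1 + x) ^ (max a.dS b.dS - a.dS) * (1 + x) ^ a.dS = (1 + x) ^ max a.dS b.dS := by
    rw [← pow_add, Nat.sub_add_cancel (le_max_left _ _)]
  have e3 : (1 + y) ^ (max a.dR b.dR - a.dR) * (1 + y) ^ a.dR = (1 + y) ^ max a.dR b.dR := by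
    rw [← pow_add, Nat.sub_add_cancel (le_max_left _ _)]
  rw [hp, ← e1, ← e2, ← e3]
  ring

lemma rev_val (X : Box) {x y : ℝ} (hx : 0 ≤ x) (hy : 0 ≤ y) : ∀ e : QE,
    rev x y (e.pol X) = e.den * (1 + x) ^ e.dS * (1 + y) ^ e.dR *
      e.val ((X.A + X.B * x) / (16384 * (1 + x))) ((X.A' + X.B' * y) / (16384 * (1 + y)))
  | .cst n d => by
    rcases Nat.eq_zero_or_pos d with h | h
    · simp [QE.pol, QE.val, h, rev]
    · have : (d : ℝ) ≠ 0 := Nat.cast_ne_zero.2 h.ne'
      simp [QE.pol, QE.val, QE.den, QE.dS, QE.dR, h.ne', rev, pev]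
      field_simp
  | .vS => by
    have : (1 : ℝ) + x ≠ 0 := by positivity
    simp [QE.pol, QE.den, QE.dS, QE.dR, rev, pev]
    field_simp
  | .vR => by
    have : (1 : ℝ) + y ≠ 0 := by positivity
    simp [QE.pol, QE.den, QE.dS, QE.dR, rev, pev]
    field_simp
  | .add a b => by
    have e1 := lift_val a b x y (rev_val X hx hy a)
    have e2 := lift_val b a x y (rev_val X hx hy b)
    rw [Nat.lcm_comm b.den a.den, max_comm b.dS, max_comm b.dR] at e2
    simp only [QE.pol, QE.den, QE.dS, QE.dR, QE.val, rev_badd, rev_lift, Int.cast_natCast]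
    rw [e1, e2]; ring
  | .sub a b => by
    have e1 := lift_val a b x y (rev_val X hx hy a)
    have e2 := lift_val b a x y (rev_val X hx hy b)
    rw [Nat.lcm_comm b.den a.den, max_comm b.dS, max_comm b.dR] at e2
    simp only [QE.pol, QE.den, QE.dS, QE.dR, QE.val, rev_badd, rev_lift, Int.cast_natCast,
      Int.cast_neg, neg_mul]
    rw [e1, e2]; ring
  | .mul a b => by
    simp only [QE.pol, QE.den, QE.dS, QE.dR, QE.val, rev_bmul, rev_val X hx hy a,
      rev_val X hx hy b, Nat.cast_mul]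
    ring

/-- Sum of absolute values. -/
def l1 : List ℤ → ℕ
  | [] => 0
  | a :: p => a.natAbs + l1 p

/-- Sum of absolute values of a table. -/
def l2 : List (List ℤ) → ℕ
  | [] => 0
  | p :: P => l1 p + l2 P

lemma l1_padd : ∀ p q, l1 (padd p q) ≤ l1 p + l1 q
  | [], q => by simp [padd, l1]
  | a :: p, [] => by simp [padd, l1]
  | a :: p, b :: q => by
    have := l1_padd p q; have := Int.natAbs_add_le a b; simp only [padd, l1]; omega

lemma l1_psm (c : ℤ) : ∀ p, l1 (psm c p) = c.natAbs * l1 p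
  | [] => by simp [psm, l1]
  | a :: p => by simp [psm, l1, l1_psm c p, Int.natAbs_mul, mul_add]

lemma l1_pmul : ∀ p q, l1 (pmul p q) ≤ l1 p * l1 q
  | [], q => by simp [pmul, l1]
  | a :: p, q => by
    refine (l1_padd _ _).trans ?_
    have := l1_pmul p q
    simp only [l1_psm, l1, Int.natAbs_zero, zero_add, add_mul]; omega

lemma l2_badd : ∀ P Q, l2 (badd P Q) ≤ l2 P + l2 Q
  | [], Q => by simp [badd, l2]
  | p :: P, [] => by simp [badd, l2]
  | p :: P, q :: Q => by
    have := l2_badd P Q; have := l1_padd p q; simp only [badd, l2]; omega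

lemma l2_bsmP (c : List ℤ) : ∀ P, l2 (bsmP c P) ≤ l1 c * l2 P
  | [] => by simp [bsmP, l2]
  | p :: P => by
    have := l2_bsmP c P; have := l1_pmul c p; simp only [bsmP, l2, mul_add]; omega

lemma l2_bmul : ∀ P Q, l2 (bmul P Q) ≤ l2 P * l2 Q
  | [], Q => by simp [bmul, l2]
  | p :: P, Q => by
    refine (l2_badd _ _).trans ?_
    have := l2_bsmP p Q; have := l2_bmul P Q
    simp only [l2, l1, zero_add, add_mul]; omega

lemma l2_bpow {P : List (List ℤ)} (hP : l2 P = 2) : ∀ k, l2 (bpow P k) ≤ 2 ^ k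
  | 0 => by simp [bpow, l2, l1]
  | k + 1 => by
    refine (l2_bmul _ _).trans ?_
    rw [hP, pow_succ']; exact Nat.mul_le_mul_left _ (l2_bpow hP k)

lemma l2_lift (c : ℤ) (i j : ℕ) (P : List (List ℤ)) {N : ℕ} (h : l2 P ≤ N) :
    l2 (lift c i j P) ≤ c.natAbs * 2 ^ i * 2 ^ j * N := by
  refine (l2_bsmP _ _).trans ?_
  simp only [l1, add_zero, mul_assoc]
  refine Nat.mul_le_mul_left _ ((l2_bmul _ _).trans
    (Nat.mul_le_mul (l2_bpow (by simp [l2, l1]) i) ((l2_bmul _ _).trans
      (Nat.mul_le_mul (l2_bpow (by simp [l2, l1]) j) h))))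

lemma l2_pol (X : Box) : ∀ e : QE, l2 (e.pol X) ≤ e.nrm X
  | .cst n d => by by_cases h : d = 0 <;> simp [QE.pol, QE.nrm, h, l2, l1]
  | .vS => by simp [QE.pol, QE.nrm, l2, l1]
  | .vR => by simp [QE.pol, QE.nrm, l2, l1]
  | .add a b => (l2_badd _ _).trans (Nat.add_le_add
      ((l2_lift _ _ _ _ (l2_pol X a)).trans_eq (by rw [Int.natAbs_natCast]))
      ((l2_lift _ _ _ _ (l2_pol X b)).trans_eq (by rw [Int.natAbs_natCast])))
  | .sub a b => (l2_badd _ _).trans (Nat.add_le_add
      ((l2_lift _ _ _ _ (l2_pol X a)).trans_eq (by rw [Int.natAbs_natCast]))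
      ((l2_lift _ _ _ _ (l2_pol X b)).trans_eq (by rw [Int.natAbs_neg, Int.natAbs_natCast])))
  | .mul a b => (l2_bmul _ _).trans (Nat.mul_le_mul (l2_pol X a) (l2_pol X b))

/-- All rows have at most `n + 1` entries and there are at most `m + 1` rows. -/
def Shape (n m : ℕ) (P : List (List ℤ)) : Prop :=
  (∀ p ∈ P, p.length ≤ n + 1) ∧ P.length ≤ m + 1

lemma len_padd : ∀ p q, (padd p q).length = max p.length q.length
  | [], q => by simp [padd]
  | a :: p, [] => by simp [padd]
  | a :: p, b :: q => by simp [padd, len_padd p q]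

lemma len_psm (c : ℤ) : ∀ p, (psm c p).length = p.length
  | [] => rfl
  | a :: p => by simp [psm, len_psm c p]

lemma len_pmul {n k : ℕ} : ∀ p q, p.length ≤ n + 1 → q.length ≤ k + 1 →
    (pmul p q).length ≤ n + k + 1
  | [], q, _, _ => by simp [pmul]
  | a :: p, q, hp, hq => by
    simp only [List.length_cons] at hp
    simp only [pmul, len_padd, len_psm, List.length_cons]
    rcases p with _ | ⟨b, p'⟩
    · simp [pmul]; omega
    · have := len_pmul (n := n - 1) (k := k) (b :: p') q (by omega) hq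
      simp only [List.length_cons] at hp
      omega

lemma shape_badd {n m : ℕ} : ∀ P Q, Shape n m P → Shape n m Q → Shape n m (badd P Q)
  | [], Q, _, h => by simpa [badd] using h
  | p :: P, [], h, _ => by simpa [badd] using h
  | p :: P, q :: Q, h, h' => by
    obtain ⟨h1, h2⟩ := h; obtain ⟨h1', h2'⟩ := h'
    simp only [List.length_cons] at h2 h2'
    rcases m with _ | m
    · obtain rfl : P = [] := List.length_eq_zero_iff.1 (by omega)
      obtain rfl : Q = [] := List.length_eq_zero_iff.1 (by omega)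
      refine ⟨?_, by simp [badd]⟩
      simp [badd, len_padd, h1 p (by simp), h1' q (by simp)]
    · have := shape_badd (m := m) P Q ⟨fun x hx => h1 x (by simp [hx]), by omega⟩
        ⟨fun x hx => h1' x (by simp [hx]), by omega⟩
      refine ⟨?_, by simpa [badd] using this.2⟩
      simp only [badd, List.mem_cons, forall_eq_or_imp, len_padd]
      exact ⟨max_le (h1 p (by simp)) (h1' q (by simp)), this.1⟩

lemma shape_mono {n m n' m' : ℕ} {P : List (List ℤ)} (h : Shape n m P) (hn : n ≤ n')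
    (hm : m ≤ m') : Shape n' m' P :=
  ⟨fun p hp => (h.1 p hp).trans (by omega), h.2.trans (by omega)⟩

lemma shape_bsmP {n m k : ℕ} {c : List ℤ} (hc : c.length ≤ k + 1) : ∀ P, Shape n m P →
    Shape (k + n) m (bsmP c P)
  | [], _ => ⟨by simp [bsmP], by simp [bsmP]⟩
  | p :: P, h => by
    obtain ⟨h1, h2⟩ := h
    simp only [List.length_cons] at h2
    refine ⟨?_, ?_⟩
    · simp only [bsmP, List.mem_cons, forall_eq_or_imp]
      exact ⟨len_pmul _ _ hc (h1 p (by simp)),
        (shape_bsmP (m := m) hc P ⟨fun x hx => h1 x (by simp [hx]), by omega⟩).1⟩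
    · rcases m with _ | m
      · obtain rfl : P = [] := List.length_eq_zero_iff.1 (by omega)
        simp [bsmP]
      · have := (shape_bsmP (m := m) hc P ⟨fun x hx => h1 x (by simp [hx]), by omega⟩).2
        simp only [bsmP, List.length_cons]; omega

lemma shape_bmul {n m k l : ℕ} : ∀ P Q, Shape n m P → Shape k l Q →
    Shape (n + k) (m + l) (bmul P Q)
  | [], Q, _, _ => ⟨by simp [bmul], by simp [bmul]⟩
  | p :: P, Q, h, hQ => by
    obtain ⟨h1, h2⟩ := h
    simp only [List.length_cons] at h2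
    have a := shape_mono (shape_bsmP (h1 p (by simp)) Q hQ) le_rfl (show l ≤ m + l by omega)
    refine shape_badd _ _ a ?_
    rcases m with _ | m
    · obtain rfl : P = [] := List.length_eq_zero_iff.1 (by omega)
      exact ⟨by simp [bmul], by simp [bmul]⟩
    · have := shape_bmul (m := m) P Q ⟨fun x hx => h1 x (by simp [hx]), by omega⟩ hQ
      refine ⟨?_, ?_⟩
      · simp only [List.mem_cons, forall_eq_or_imp, List.length_nil]
        exact ⟨by omega, this.1⟩
      · have := this.2; simp only [List.length_cons]; omega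

lemma shape_bpow {n m : ℕ} {P : List (List ℤ)} (h : Shape n m P) :
    ∀ k, Shape (k * n) (k * m) (bpow P k)
  | 0 => ⟨by simp [bpow], by simp [bpow]⟩
  | k + 1 => shape_mono (shape_bmul _ _ h (shape_bpow h k)) (by ring_nf; omega) (by ring_nf; omega)

lemma shape_lift (c : ℤ) (i j : ℕ) {n m : ℕ} {P : List (List ℤ)} (h : Shape n m P) :
    Shape (i + n) (j + m) (lift c i j P) := by
  refine shape_mono (shape_bsmP (k := 0) (by simp) _ (shape_bmul _ _ (shape_bpow (n := 1) (m := 0)
    ⟨by simp, by simp⟩ i) (shape_bmul _ _ (shape_bpow (n := 0) (m := 1) ⟨by simp, by simp⟩ j) h))) ?_ ?_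
  all_goals simp

lemma shape_pol (X : Box) : ∀ e : QE, Shape e.dS e.dR (e.pol X)
  | .cst n d => by by_cases h : d = 0 <;> simp [QE.pol, QE.dS, QE.dR, h, Shape]
  | .vS => by simp [QE.pol, QE.dS, QE.dR, Shape]
  | .vR => by simp [QE.pol, QE.dS, QE.dR, Shape]
  | .add a b => shape_badd _ _
      (shape_mono (shape_lift _ _ _ (shape_pol X a)) (by simp [QE.dS]) (by simp [QE.dR]))
      (shape_mono (shape_lift _ _ _ (shape_pol X b)) (by simp [QE.dS]) (by simp [QE.dR]))
  | .sub a b => shape_badd _ _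
      (shape_mono (shape_lift _ _ _ (shape_pol X a)) (by simp [QE.dS]) (by simp [QE.dR]))
      (shape_mono (shape_lift _ _ _ (shape_pol X b)) (by simp [QE.dS]) (by simp [QE.dR]))
  | .mul a b => shape_bmul _ _ (shape_pol X a) (shape_pol X b)

/-! ### Digits -/

/-- The rows, padded and concatenated. -/
def flat : List (List ℤ) → List ℤ
  | [] => []
  | p :: P => padTo 32 p ++ flat P

lemma pev_append (x : ℝ) : ∀ p q : List ℤ, pev x (p ++ q) = pev x p + x ^ p.length * pev x q
  | [], q => by simp [pev]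
  | a :: p, q => by simp [pev, pev_append x p q, pow_succ]; ring

lemma len_padTo : ∀ n p, List.length p ≤ n → (padTo n p).length = n
  | n, [], _ => by simp [padTo]
  | 0, a :: p, h => by simp at h
  | n + 1, a :: p, h => by simp [padTo, len_padTo n p (by simpa using h)]

lemma l1_padTo : ∀ n p, l1 (padTo n p) = l1 p
  | n, [] => by
    simp only [padTo, l1]
    induction n with
    | zero => simp [l1]
    | succ n ih => simp [List.replicate_succ, l1, ih]
  | 0, a :: p => by simp [padTo]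
  | n + 1, a :: p => by simp [padTo, l1, l1_padTo n p]

lemma l1_append : ∀ p q, l1 (p ++ q) = l1 p + l1 q
  | [], q => by simp [l1]
  | a :: p, q => by simp [l1, l1_append p q, add_assoc]

lemma flat_spec (x : ℝ) : ∀ P : List (List ℤ), (∀ p ∈ P, p.length ≤ 32) →
    pev x (flat P) = rev x (x ^ 32) P ∧ (flat P).length = 32 * P.length ∧ l1 (flat P) = l2 P
  | [], _ => by simp [flat, rev, pev, l1, l2]
  | p :: P, h => by
    obtain ⟨e1, e2, e3⟩ := flat_spec x P fun q hq => h q (by simp [hq])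
    have hl := len_padTo 32 p (h p (by simp))
    refine ⟨?_, ?_, ?_⟩
    · simp [flat, rev, pev_append, pev_padTo, hl, e1]
    · simp [flat, hl, e2]; ring
    · simp [flat, l2, l1_append, l1_padTo, e3]

lemma flat_mem : ∀ (P : List (List ℤ)) (p : List ℤ) (a : ℤ), p ∈ P → a ∈ p → p.length ≤ 32 →
    a ∈ flat P
  | q :: P, p, a, hp, ha, hl => by
    simp only [flat, List.mem_append]
    rcases List.mem_cons.1 hp with rfl | hp
    · left
      suffices ∀ n p, a ∈ p → List.length p ≤ n → a ∈ padTo n p from this 32 p ha hl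
      intro n p
      induction n generalizing p with
      | zero => intro h1 h2; simp [List.length_eq_zero_iff.1 (Nat.le_zero.1 h2)] at h1
      | succ n ih =>
        intro h1 h2
        rcases p with _ | ⟨b, p⟩
        · simp at h1
        · rcases List.mem_cons.1 h1 with rfl | h1
          · simp [padTo]
          · simp [padTo, ih p h1 (by simpa using h2)]
    · exact Or.inr (flat_mem P p a hp ha hl)

/-- Evaluation at an integer. -/
def zev (B : ℤ) : List ℤ → ℤ
  | [] => 0
  | a :: t => a + B * zev B t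

lemma zev_cast (B : ℤ) : ∀ l, ((zev B l : ℤ) : ℝ) = pev (B : ℝ) l
  | [] => by simp [zev, pev]
  | a :: t => by simp [zev, pev, zev_cast B t]

/-- A number `V` without top bits in the digits has no negative digit. -/
lemma digits_nonneg : ∀ (l : List ℤ) (V : ℕ), zev (2 ^ 1024 : ℕ) l = (V : ℤ) →
    (∀ a ∈ l, a.natAbs < 2 ^ 1023) → (∀ k < l.length, V.testBit (1024 * k + 1023) = false) →
    ∀ a ∈ l, 0 ≤ a
  | [], _, _, _, _ => by simp
  | c :: t, V, hV, hb, hbit => by
    obtain ⟨H, hH⟩ : ∃ H : ℕ, H = 2 ^ 1023 := ⟨_, rfl⟩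
    have hB : (2 : ℕ) ^ 1024 = 2 * H := by rw [hH, ← pow_succ']
    have hc : c.natAbs < H := hH ▸ hb c (by simp)
    simp only [zev] at hV
    rw [hB] at hV
    have hmod : ((V % (2 * H) : ℕ) : ℤ) = c % ((2 * H : ℕ) : ℤ) := by
      rw [Int.natCast_emod, ← hV, Int.add_mul_emod_self_left]
    have h0 := hbit 0 (by simp)
    have hlt : V % (2 * H) < H := by
      by_contra hge
      have h1 : V % (2 * H) < 2 * H := Nat.mod_lt _ (by omega)
      have h2 : (V % 2 ^ 1024).testBit 1023 = true := by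
        rw [hB]
        exact Nat.testBit_of_two_pow_le_and_two_pow_add_one_gt (hH ▸ not_lt.1 hge) (by rw [hB]; exact h1)
      rw [Nat.testBit_mod_two_pow, h0] at h2
      simp at h2
    have hc0 : 0 ≤ c := by
      by_contra hn
      have : c % ((2 * H : ℕ) : ℤ) = c + (2 * H : ℕ) := by
        rw [← Int.add_emod_right, Int.emod_eq_of_lt (by omega) (by omega)]
      omega
    intro a ha
    rcases List.mem_cons.1 ha with rfl | ha
    · exact hc0
    refine digits_nonneg t (V / 2 ^ 1024) ?_ (fun a ha => hb a (by simp [ha])) (fun k hk => ?_) a ha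
    · rw [hB, Int.natCast_div, ← hV, Int.add_mul_ediv_left _ _ (by omega),
        Int.ediv_eq_zero_of_lt hc0 (by omega), zero_add]
    · rw [Nat.testBit_div_two_pow]
      have := hbit (k + 1) (by simpa using hk)
      rwa [show 1024 * (k + 1) + 1023 = 1024 * k + 1023 + 1024 by ring] at this

lemma geo_sum (B : ℕ) : ∀ L : ℕ, (∑ i ∈ Finset.range L, (B + 1) ^ i) * B + 1 = (B + 1) ^ L
  | 0 => by simp
  | L + 1 => by
    rw [Finset.sum_range_succ, add_mul, pow_succ (B + 1) L, add_right_comm, geo_sum B L]; ring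

lemma mask_testBit {L k : ℕ} (hk : k < L) : (mask L).testBit (1024 * k + 1023) = true := by
  obtain ⟨G, hG⟩ : ∃ G, G = (2 ^ (1024 * L) - 1) / (2 ^ 1024 - 1) := ⟨_, rfl⟩
  have geo : ∀ L : ℕ, (∑ i ∈ Finset.range L, (2 ^ 1024) ^ i) * ((2 : ℕ) ^ 1024 - 1) =
      2 ^ (1024 * L) - 1 := fun L => by
    have h1 : (2 : ℕ) ^ 1024 - 1 + 1 = 2 ^ 1024 := Nat.sub_add_cancel Nat.one_le_two_pow
    have := geo_sum ((2 : ℕ) ^ 1024 - 1) L
    rw [h1] at this
    rw [pow_mul, ← this, Nat.add_sub_cancel]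
  have hGs : G = ∑ i ∈ Finset.range L, ((2 : ℕ) ^ 1024) ^ i := by
    rw [hG, ← geo, Nat.mul_div_cancel _ (Nat.sub_pos_of_lt (Nat.one_lt_two_pow (by norm_num)))]
  rw [mask, ← hG, Nat.testBit_two_pow_mul, Nat.add_sub_cancel_right]
  simp only [Nat.le_add_left, decide_true, Bool.true_and]
  rw [hGs]
  clear hG hGs G geo
  induction L generalizing k with
  | zero => omega
  | succ L ih =>
    rw [Finset.sum_range_succ', pow_zero, Finset.sum_congr rfl
      (fun i _ => pow_succ ((2 : ℕ) ^ 1024) i), ← Finset.sum_mul]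
    rw [mul_comm, Nat.testBit_two_pow_mul_add _ (Nat.one_lt_two_pow (by norm_num))]
    rcases k with _ | k
    · rw [if_pos (by omega), Nat.mul_zero, Nat.testBit_zero]
      rfl
    · rw [if_neg (by omega), show 1024 * (k + 1) - 1024 = 1024 * k by omega]
      exact ih (by omega)

lemma nn_pol {X : Box} {e : QE} (h : nn X e = true) : ∀ p ∈ e.pol X, ∀ a ∈ p, 0 ≤ a := by
  simp only [nn, Bool.and_eq_true, decide_eq_true_eq, beq_iff_eq] at h
  obtain ⟨⟨⟨hd, hn⟩, hv⟩, hm⟩ := h
  obtain ⟨hr, hlen⟩ := shape_pol X e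
  have hr' : ∀ p ∈ e.pol X, p.length ≤ 32 := fun p hp => (hr p hp).trans (by omega)
  obtain ⟨e1, e2, e3⟩ := flat_spec ((2 ^ 1024 : ℕ) : ℝ) (e.pol X) hr'
  intro p hp a ha
  refine digits_nonneg (flat (e.pol X)) (e.enc X).toNat ?_ ?_ ?_ a (flat_mem _ p a hp ha (hr' p hp))
  · rw [Int.toNat_of_nonneg hv]
    have := rev_enc X e
    apply Int.cast_injective (α := ℝ)
    rw [zev_cast, Int.cast_natCast, e1, ← this]
    congr 1
    rw [bY, ← Nat.cast_pow, ← pow_mul]
  · intro b hb
    have : ∀ l : List ℤ, ∀ c ∈ l, c.natAbs ≤ l1 l := by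
      intro l
      induction l with
      | nil => simp
      | cons x l ih =>
        intro c hc
        rcases List.mem_cons.1 hc with rfl | hc
        · simp [l1]
        · have := ih c hc; simp only [l1]; omega
    calc b.natAbs ≤ l1 (flat (e.pol X)) := this _ b hb
      _ = l2 (e.pol X) := e3
      _ ≤ e.nrm X := l2_pol X e
      _ < _ := hn
  · intro k hk
    have hk' : k < 32 * (e.dR + 1) := by rw [e2] at hk; omega
    have h2 := Nat.testBit_and (e.enc X).toNat (mask (32 * (e.dR + 1))) (1024 * k + 1023)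
    rw [mask_testBit hk', Bool.and_true] at h2
    rw [← h2, show (e.enc X).toNat &&& mask (32 * (e.dR + 1)) = 0 from hm, Nat.zero_testBit]

lemma QE.continuous_val : ∀ e : QE, Continuous fun p : ℝ × ℝ => e.val p.1 p.2
  | .cst _ _ => continuous_const
  | .vS => continuous_fst
  | .vR => continuous_snd
  | .add a b => (QE.continuous_val a).add (QE.continuous_val b)
  | .sub a b => (QE.continuous_val a).sub (QE.continuous_val b)
  | .mul a b => (QE.continuous_val a).mul (QE.continuous_val b)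

lemma pev_nonneg' {x : ℝ} (hx : 0 ≤ x) : ∀ p : List ℤ, (∀ a ∈ p, 0 ≤ a) → 0 ≤ pev x p
  | [], _ => le_rfl
  | a :: t, h => add_nonneg (by exact_mod_cast h a (by simp))
      (mul_nonneg hx (pev_nonneg' hx t fun b hb => h b (by simp [hb])))

lemma rev_nonneg {x y : ℝ} (hx : 0 ≤ x) (hy : 0 ≤ y) :
    ∀ P : List (List ℤ), (∀ p ∈ P, ∀ a ∈ p, 0 ≤ a) → 0 ≤ rev x y P
  | [], _ => le_rfl
  | p :: P, h => add_nonneg (pev_nonneg' hx p (h p (by simp)))
      (mul_nonneg hy (rev_nonneg hx hy P fun q hq => h q (by simp [hq])))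

lemma nn_sound {X : Box} {s r : ℝ} (hX : X.Mem s r) (ho : X.ok = true) {e : QE}
    (h : nn X e = true) : 0 ≤ e.val s r := by
  simp only [Box.ok, Bool.and_eq_true, decide_eq_true_eq] at ho
  have hAB : (X.A : ℝ) / 16384 < X.B / 16384 :=
    div_lt_div_of_pos_right (by exact_mod_cast ho.1.1.1) (by norm_num)
  have hAB' : (X.A' : ℝ) / 16384 < X.B' / 16384 :=
    div_lt_div_of_pos_right (by exact_mod_cast ho.1.1.2) (by norm_num)
  have hsub : Set.Ioo ((X.A : ℝ) / 16384) (X.B / 16384) ×ˢ Set.Ioo ((X.A' : ℝ) / 16384) (X.B' / 16384)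
      ⊆ {p : ℝ × ℝ | 0 ≤ e.val p.1 p.2} := by
    rintro ⟨u, w⟩ ⟨⟨hu1, hu2⟩, hw1, hw2⟩
    simp only [Set.mem_setOf_eq]
    rw [div_lt_iff₀ (by norm_num)] at hu1 hw1
    rw [lt_div_iff₀ (by norm_num)] at hu2 hw2
    obtain ⟨x, hx⟩ : ∃ x, x = (16384 * u - X.A) / (X.B - 16384 * u) := ⟨_, rfl⟩
    obtain ⟨y, hy⟩ : ∃ y, y = (16384 * w - X.A') / (X.B' - 16384 * w) := ⟨_, rfl⟩
    have hxB : 0 < (X.B : ℝ) - 16384 * u := by linarith
    have hyB : 0 < (X.B' : ℝ) - 16384 * w := by linarith
    have hx0 : 0 ≤ x := hx ▸ div_nonneg (by linarith) hxB.le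
    have hy0 : 0 ≤ y := hy ▸ div_nonneg (by linarith) hyB.le
    have hu : ((X.A : ℝ) + X.B * x) / (16384 * (1 + x)) = u := by
      rw [div_eq_iff (by positivity)]
      have : x * (X.B - 16384 * u) = 16384 * u - X.A := by rw [hx, div_mul_cancel₀ _ hxB.ne']
      linarith
    have hw : ((X.A' : ℝ) + X.B' * y) / (16384 * (1 + y)) = w := by
      rw [div_eq_iff (by positivity)]
      have : y * (X.B' - 16384 * w) = 16384 * w - X.A' := by rw [hy, div_mul_cancel₀ _ hyB.ne']
      linarith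
    have := rev_nonneg hx0 hy0 _ (nn_pol h)
    rw [rev_val X hx0 hy0, hu, hw] at this
    exact nonneg_of_mul_nonneg_right this
      (by have := den_pos e; positivity)
  have hc := closure_minimal hsub (isClosed_le continuous_const e.continuous_val)
  rw [closure_prod_eq, closure_Ioo hAB.ne, closure_Ioo hAB'.ne] at hc
  have hm : (s, r) ∈ Set.Icc ((X.A : ℝ) / 16384) (X.B / 16384) ×ˢ
      Set.Icc ((X.A' : ℝ) / 16384) (X.B' / 16384) :=
    ⟨⟨by rw [div_le_iff₀] <;> linarith [hX.hA], by rw [le_div_iff₀] <;> linarith [hX.hB]⟩,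
      ⟨by rw [div_le_iff₀] <;> linarith [hX.hA'], by rw [le_div_iff₀] <;> linarith [hX.hB']⟩⟩
  exact hc hm

attribute [irreducible] nn

end Vale.Agent.P237.Five.Cert
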