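import Vale.Agent.P237.Five.CertExpr

/-!
# P237, `n = 5`: what the modules of the certificate prove to each other
-/

namespace Vale.Agent.P237.Five.Cert

open MeasureTheory Real intervalIntegral

/-- The normalised `∫F³` of the profile. -/
noncomputable def gI (s r : ℝ) (g : ℝ → ℝ) : ℝ :=
  stateI s r (∫ z in (0 : ℝ)..footT s r, g z ^ 3)

/-- The normalised `∫F⁴` of the profile. -/
noncomputable def gV (s r : ℝ) (g : ℝ → ℝ) : ℝ :=
  stateV s r (∫ z in (0 : ℝ)..footT s r, g z ^ 4)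

/-- A point of the domain. -/
structure Dom (s r : ℝ) (g : ℝ → ℝ) : Prop where
  s0 : 0 < s
  s1 : s ≤ 1
  r0 : 0 ≤ r
  sr : s * r ≤ 1
  top : endY s r ≤ 9 / 4
  head : Head s r g

/-- The values `il`, `vl` at the envelope and the relations of the excesses. -/
structure State (E : Env) (s r : ℝ) (g : ℝ → ℝ) (il vl : ℝ) : Prop where
  ilo : E.iLo.val s r ≤ il
  ihi : il ≤ E.iHi.val s r
  vlo : E.vLo.val s r ≤ vl
  vhi : vl ≤ E.vHi.val s r
  i_ge : il ≤ gI s r g
  v_ge : vl ≤ gV s r g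
  rho : 4 / 3 * u6 E.ym * (15 / 8) * (gI s r g - il) ≤ 16 / (3 * π) * (gV s r g - vl)
  sig : ∀ h, g 0 ≤ h → u6 E.L ≤ h → 0 < h →
    16 / (3 * π) * sigma h (u6 E.L) * (8 / 15) * (gV s r g - vl) ≤ gI s r g - il

/-- To be proved in `CertState`: the checks of an environment give the state bounds. -/
def EnvSound : Prop :=
  ∀ (E : Env) (X : Box) (s r : ℝ) (g : ℝ → ℝ), E.ok X = true → X.Mem s r → Dom s r g →
    ∃ il vl, State E s r g il vl

/-- To be proved in `CertLow`: a leaf of the first derivative is sound. -/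
def LowSound : Prop :=
  ∀ (l : LeafA) (X : Box) (s r : ℝ) (g : ℝ → ℝ), l.ok X = true → X.Mem s r → Dom s r g →
    gI s r g ^ (4 / 3 : ℝ) ≤ gV s r g → 0 ≤ derLow s r (gI s r g) (gV s r g)

/-- To be proved in `CertHigh`: a leaf of the second derivative is sound. -/
def HighSound : Prop :=
  ∀ (l : LeafB) (X : Box) (s r : ℝ) (g : ℝ → ℝ), l.ok X = true → X.Mem s r → Dom s r g →
    gV s r g ≤ gI s r g ^ (4 / 3 : ℝ) → 0 ≤ derHigh s r (gI s r g)

/-- To be proved in `CertData`: both trees check on `[0, 1] × [0, 3]`. -/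
def DataOk : Prop :=
  (∃ T : Tree LeafA, T.check LeafA.ok ⟨0, 16384, 0, 49152⟩ = true) ∧
    ∃ T : Tree LeafB, T.check LeafB.ok ⟨0, 16384, 0, 49152⟩ = true

end Vale.Agent.P237.Five.Cert
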