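import Vale.Agent.P237.Five.Key

/-!
# P237, `n = 5`: chord envelopes of the profile on `[0, T]`

For `a ≤ g 0` and `b ≤ g T` the chord `lo` from `(0, a)` to `(T, b)` lies below `g`; the
differences `∫ g⁴ - ∫ lo⁴` and `∫ g³ - ∫ lo³` control each other.
-/

namespace Vale.Agent.P237.Five

open MeasureTheory Set Real intervalIntegral

/-- The chord. -/
noncomputable def chord (a b T z : ℝ) : ℝ := a + (b - a) * (z / T)

/-- The mean of the cube of the chord. -/
noncomputable def avgThree (a b : ℝ) : ℝ := (a ^ 3 + a ^ 2 * b + a * b ^ 2 + b ^ 3) / 4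

/-- The mean of the fourth power of the chord. -/
noncomputable def avgFour (a b : ℝ) : ℝ :=
  (a ^ 4 + a ^ 3 * b + a ^ 2 * b ^ 2 + a * b ^ 3 + b ^ 4) / 5

lemma avgThree_self (a : ℝ) : avgThree a a = a ^ 3 := by unfold avgThree; ring

lemma avgFour_self (a : ℝ) : avgFour a a = a ^ 4 := by unfold avgFour; ring

variable {a b T : ℝ}

lemma integral_chord_three (hT : 0 ≤ T) :
    ∫ z in (0 : ℝ)..T, chord a b T z ^ 3 = T * avgThree a b := by
  rcases hT.eq_or_lt with h | h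
  · subst h; simp
  have e : ∀ z ∈ uIcc 0 T, HasDerivAt (fun z => a ^ 3 * z + 3 / 2 * a ^ 2 * ((b - a) / T) * z ^ 2
      + a * ((b - a) / T) ^ 2 * z ^ 3 + ((b - a) / T) ^ 3 / 4 * z ^ 4) (chord a b T z ^ 3) z := by
    intro z _
    refine ((((hasDerivAt_id z).const_mul _).fun_add
      ((hasDerivAt_pow 2 z).const_mul _)).fun_add ((hasDerivAt_pow 3 z).const_mul _)).fun_add
      ((hasDerivAt_pow 4 z).const_mul _) |>.congr_deriv ?_
    unfold chord
    norm_num
    ring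
  rw [integral_eq_sub_of_hasDerivAt e
    ((by unfold chord; fun_prop : Continuous fun z => chord a b T z ^ 3).intervalIntegrable 0 T)]
  unfold avgThree
  field_simp
  ring

lemma integral_chord_four (hT : 0 ≤ T) :
    ∫ z in (0 : ℝ)..T, chord a b T z ^ 4 = T * avgFour a b := by
  rcases hT.eq_or_lt with h | h
  · subst h; simp
  have e : ∀ z ∈ uIcc 0 T, HasDerivAt (fun z => a ^ 4 * z + 2 * a ^ 3 * ((b - a) / T) * z ^ 2
      + 2 * a ^ 2 * ((b - a) / T) ^ 2 * z ^ 3 + a * ((b - a) / T) ^ 3 * z ^ 4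
      + ((b - a) / T) ^ 4 / 5 * z ^ 5) (chord a b T z ^ 4) z := by
    intro z _
    refine (((((hasDerivAt_id z).const_mul _).fun_add
      ((hasDerivAt_pow 2 z).const_mul _)).fun_add ((hasDerivAt_pow 3 z).const_mul _)).fun_add
      ((hasDerivAt_pow 4 z).const_mul _)).fun_add
      ((hasDerivAt_pow 5 z).const_mul _) |>.congr_deriv ?_
    unfold chord
    norm_num
    ring
  rw [integral_eq_sub_of_hasDerivAt e
    ((by unfold chord; fun_prop : Continuous fun z => chord a b T z ^ 4).intervalIntegrable 0 T)]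
  unfold avgFour
  field_simp
  ring

/-- `(g⁴ - l⁴)/(g³ - l³) ≥ (4/3) l` for `0 ≤ l ≤ g`. -/
lemma diff_four_ge {g l ρ : ℝ} (hl : 0 ≤ l) (hg : l ≤ g) (hρ : ρ ≤ 4 / 3 * l) :
    ρ * (g ^ 3 - l ^ 3) ≤ g ^ 4 - l ^ 4 := by
  have h3 : l ^ 3 ≤ g ^ 3 := pow_le_pow_left₀ hl hg 3
  have h : 4 / 3 * l * (g ^ 3 - l ^ 3) ≤ g ^ 4 - l ^ 4 := by
    have hp : (0 : ℝ) ≤ 3 * g ^ 2 + 2 * g * l + l ^ 2 :=
      add_nonneg (add_nonneg (by positivity) (mul_nonneg (by linarith) hl)) (sq_nonneg l)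
    nlinarith [mul_nonneg (mul_nonneg (sub_nonneg.2 hg) (sub_nonneg.2 hg)) hp]
  exact (mul_le_mul_of_nonneg_right hρ (sub_nonneg.2 h3)).trans h

/-- The mean slope `(g⁴ - l⁴)/(g³ - l³)` increases in `g`. -/
lemma ratio_mono {g G l : ℝ} (hg : 0 ≤ g) (hG : g ≤ G) (hl : 0 ≤ l) :
    (g + l) * (g ^ 2 + l ^ 2) * (G ^ 2 + G * l + l ^ 2) ≤
      (G + l) * (G ^ 2 + l ^ 2) * (g ^ 2 + g * l + l ^ 2) := by
  have hG0 : 0 ≤ G := hg.trans hG
  have := mul_nonneg (sub_nonneg.2 hG)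
    (by positivity : 0 ≤ G ^ 2 * g ^ 2 + G * g * (G + g) * l + (G ^ 2 + G * g + g ^ 2) * l ^ 2)
  linarith

/-- `σ (g⁴ - l⁴) ≤ g³ - l³` for `l ≤ g ≤ G`, `l ≤ L` and `σ` at most the reciprocal mean slope at
`(G, L)`. -/
lemma diff_four_le {g l G L σ : ℝ} (hl : 0 ≤ l) (hg : l ≤ g) (hgG : g ≤ G) (hlL : l ≤ L)
    (hσ : 0 ≤ σ) (h : σ * ((G + L) * (G ^ 2 + L ^ 2)) ≤ G ^ 2 + G * L + L ^ 2) :
    σ * (g ^ 4 - l ^ 4) ≤ g ^ 3 - l ^ 3 := by
  have hg0 : 0 ≤ g := hl.trans hg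
  have hG0 : 0 ≤ G := hg0.trans hgG
  have hL0 : 0 ≤ L := hl.trans hlL
  rcases hg.eq_or_lt with rfl | hlt
  · simp
  have hgp : 0 < g := hl.trans_lt hlt
  have hGp : 0 < G := hgp.trans_le hgG
  set Dg := g ^ 2 + g * l + l ^ 2 with hDg
  set DM := G ^ 2 + G * l + l ^ 2 with hDM
  set DG := G ^ 2 + G * L + L ^ 2 with hDG
  have hDg0 : 0 ≤ Dg := by positivity
  have hDMp : 0 < DM := by positivity
  have hDGp : 0 < DG := by positivity
  have e1 := ratio_mono hg0 hgG hl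
  have e2 := ratio_mono (g := l) (G := L) (l := G) hl hlL hG0
  have e3 : (g + l) * (g ^ 2 + l ^ 2) * DG ≤ (G + L) * (G ^ 2 + L ^ 2) * Dg := by
    refine le_of_mul_le_mul_left ?_ hDMp
    calc DM * ((g + l) * (g ^ 2 + l ^ 2) * DG)
        = (g + l) * (g ^ 2 + l ^ 2) * (G ^ 2 + G * l + l ^ 2) * DG := by rw [hDM]; ring
      _ ≤ (G + l) * (G ^ 2 + l ^ 2) * Dg * DG := mul_le_mul_of_nonneg_right e1 hDGp.le
      _ = (l + G) * (l ^ 2 + G ^ 2) * (L ^ 2 + L * G + G ^ 2) * Dg := by rw [hDG]; ring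
      _ ≤ (L + G) * (L ^ 2 + G ^ 2) * (l ^ 2 + l * G + G ^ 2) * Dg :=
          mul_le_mul_of_nonneg_right e2 hDg0
      _ = DM * ((G + L) * (G ^ 2 + L ^ 2) * Dg) := by rw [hDM]; ring
  have e4 : σ * ((g + l) * (g ^ 2 + l ^ 2)) ≤ Dg := by
    refine le_of_mul_le_mul_right ?_ hDGp
    calc σ * ((g + l) * (g ^ 2 + l ^ 2)) * DG = σ * ((g + l) * (g ^ 2 + l ^ 2) * DG) := by ring
      _ ≤ σ * ((G + L) * (G ^ 2 + L ^ 2) * Dg) := mul_le_mul_of_nonneg_left e3 hσ
      _ = σ * ((G + L) * (G ^ 2 + L ^ 2)) * Dg := by ring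
      _ ≤ DG * Dg := mul_le_mul_of_nonneg_right h hDg0
      _ = Dg * DG := by ring
  calc σ * (g ^ 4 - l ^ 4) = (g - l) * (σ * ((g + l) * (g ^ 2 + l ^ 2))) := by ring
    _ ≤ (g - l) * Dg := mul_le_mul_of_nonneg_left e4 (sub_nonneg.2 hg)
    _ = g ^ 3 - l ^ 3 := by rw [hDg]; ring

variable {s r : ℝ} {g : ℝ → ℝ}

lemma footT_nonneg (hsr : s * r ≤ 1) : 0 ≤ footT s r :=
  mul_nonneg (Real.sqrt_nonneg _) (by linarith)

lemma chord_mem {z : ℝ} (hT : 0 ≤ T) (hz : z ∈ Icc 0 T) :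
    min a b ≤ chord a b T z ∧ chord a b T z ≤ max a b := by
  have h0 : 0 ≤ z / T := div_nonneg hz.1 hT
  have h1 : z / T ≤ 1 := div_le_one_of_le₀ hz.2 hT
  rcases le_total a b with h | h
  · rw [min_eq_left h, max_eq_right h]
    unfold chord
    constructor <;> nlinarith
  · rw [min_eq_right h, max_eq_left h]
    unfold chord
    constructor <;> nlinarith

namespace Head

lemma le_zero (hH : Head s r g) {z : ℝ} (hz : z ∈ Icc 0 (footT s r)) : g z ≤ g 0 :=
  hH.anti ⟨le_rfl, hz.1.trans hz.2⟩ hz hz.1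

lemma nonneg (hH : Head s r g) {z : ℝ} (hz : z ∈ Icc 0 (footT s r)) : 0 ≤ g z :=
  (Real.sqrt_nonneg _).trans (hH.circle z hz)

lemma end_le_all (hH : Head s r g) {z : ℝ} (hz : z ∈ Icc 0 (footT s r)) : endY s r ≤ g z :=
  hH.end_le.trans (hH.anti hz ⟨hz.1.trans hz.2, le_rfl⟩ hz.2)

lemma chord_le (hH : Head s r g) (ha : a ≤ g 0) (hb : b ≤ g (footT s r)) {z : ℝ}
    (hz : z ∈ Icc 0 (footT s r)) : chord a b (footT s r) z ≤ g z := by
  set T := footT s r with hTdef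
  have hT : 0 ≤ T := hz.1.trans hz.2
  rcases hT.eq_or_lt with h | h
  · have hz0 : z = 0 := le_antisymm (h ▸ hz.2) hz.1
    subst hz0
    simpa [chord] using ha
  have h0 : 0 ≤ z / T := div_nonneg hz.1 hT
  have h1 : z / T ≤ 1 := div_le_one_of_le₀ hz.2 hT
  have hc := hH.conc.2 (show (0 : ℝ) ∈ Icc 0 T from ⟨le_rfl, hT⟩)
    (show T ∈ Icc 0 T from ⟨hT, le_rfl⟩) (show 0 ≤ 1 - z / T by linarith) h0 (sub_add_cancel 1 _)
  simp only [smul_eq_mul, mul_zero, zero_add, div_mul_cancel₀ z h.ne'] at hc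
  refine le_trans ?_ hc
  unfold chord
  linarith [mul_le_mul_of_nonneg_left ha (by linarith : 0 ≤ 1 - z / T),
    mul_le_mul_of_nonneg_left hb h0]

lemma pow_integrable (hH : Head s r g) (hsr : s * r ≤ 1) (k : ℕ) :
    IntervalIntegrable (fun z => g z ^ k) volume 0 (footT s r) := by
  refine AntitoneOn.intervalIntegrable ?_
  rw [uIcc_of_le (footT_nonneg hsr)]
  exact fun x hx y hy hxy => pow_le_pow_left₀ (hH.nonneg hy) (hH.anti hx hy hxy) k

lemma integral_ge_three (hH : Head s r g) (hsr : s * r ≤ 1) (ha0 : 0 ≤ a) (hb0 : 0 ≤ b)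
    (ha : a ≤ g 0) (hb : b ≤ g (footT s r)) :
    footT s r * avgThree a b ≤ ∫ z in (0 : ℝ)..footT s r, g z ^ 3 := by
  have hT := footT_nonneg hsr
  rw [← integral_chord_three hT]
  refine integral_mono_on hT (Continuous.intervalIntegrable (by unfold chord; fun_prop) _ _)
    (hH.pow_integrable hsr 3) fun z hz => ?_
  exact pow_le_pow_left₀ ((le_min ha0 hb0).trans (chord_mem hT hz).1) (hH.chord_le ha hb hz) 3

lemma integral_ge_four (hH : Head s r g) (hsr : s * r ≤ 1) (ha0 : 0 ≤ a) (hb0 : 0 ≤ b)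
    (ha : a ≤ g 0) (hb : b ≤ g (footT s r)) :
    footT s r * avgFour a b ≤ ∫ z in (0 : ℝ)..footT s r, g z ^ 4 := by
  have hT := footT_nonneg hsr
  rw [← integral_chord_four hT]
  refine integral_mono_on hT (Continuous.intervalIntegrable (by unfold chord; fun_prop) _ _)
    (hH.pow_integrable hsr 4) fun z hz => ?_
  exact pow_le_pow_left₀ ((le_min ha0 hb0).trans (chord_mem hT hz).1) (hH.chord_le ha hb hz) 4

lemma integral_le_top (hH : Head s r g) (hsr : s * r ≤ 1) {h' : ℝ} (h : g 0 ≤ h') (k : ℕ) :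
    ∫ z in (0 : ℝ)..footT s r, g z ^ k ≤ footT s r * h' ^ k := by
  have := integral_mono_on (footT_nonneg hsr) (hH.pow_integrable hsr k)
    (intervalIntegrable_const (c := h' ^ k))
    fun z hz => pow_le_pow_left₀ (hH.nonneg hz) ((hH.le_zero hz).trans h) k
  simpa using this

lemma integral_ge_end (hH : Head s r g) (hsr : s * r ≤ 1) (hy : 0 ≤ endY s r) (k : ℕ) :
    footT s r * endY s r ^ k ≤ ∫ z in (0 : ℝ)..footT s r, g z ^ k := by
  have := integral_mono_on (footT_nonneg hsr) (intervalIntegrable_const (c := endY s r ^ k))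
    (hH.pow_integrable hsr k) fun z hz => pow_le_pow_left₀ hy (hH.end_le_all hz) k
  simpa using this

/-- The excess over the chord in fourth powers dominates `ρ` times the excess in cubes. -/
lemma excess_four_ge (hH : Head s r g) (hsr : s * r ≤ 1) (ha0 : 0 ≤ a) (hb0 : 0 ≤ b)
    (ha : a ≤ g 0) (hb : b ≤ g (footT s r)) {ρ : ℝ} (hρ : ρ ≤ 4 / 3 * min a b) :
    ρ * ((∫ z in (0 : ℝ)..footT s r, g z ^ 3) - footT s r * avgThree a b) ≤
      (∫ z in (0 : ℝ)..footT s r, g z ^ 4) - footT s r * avgFour a b := by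
  have hT := footT_nonneg hsr
  have c3 : IntervalIntegrable (fun z => chord a b (footT s r) z ^ 3) volume 0 (footT s r) :=
    Continuous.intervalIntegrable (by unfold chord; fun_prop) _ _
  have c4 : IntervalIntegrable (fun z => chord a b (footT s r) z ^ 4) volume 0 (footT s r) :=
    Continuous.intervalIntegrable (by unfold chord; fun_prop) _ _
  rw [← integral_chord_three hT, ← integral_chord_four hT,
    ← intervalIntegral.integral_sub (hH.pow_integrable hsr 3) c3,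
    ← intervalIntegral.integral_sub (hH.pow_integrable hsr 4) c4,
    ← intervalIntegral.integral_const_mul]
  refine integral_mono_on hT (((hH.pow_integrable hsr 3).sub c3).const_mul ρ)
    ((hH.pow_integrable hsr 4).sub c4) fun z hz => ?_
  obtain ⟨h1, -⟩ := chord_mem (a := a) (b := b) hT hz
  exact diff_four_ge ((le_min ha0 hb0).trans h1) (hH.chord_le ha hb hz)
    (hρ.trans (by linarith))

/-- The excess over the chord in cubes dominates `σ` times the excess in fourth powers. -/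
lemma excess_three_ge (hH : Head s r g) (hsr : s * r ≤ 1) (ha0 : 0 ≤ a) (hb0 : 0 ≤ b)
    (ha : a ≤ g 0) (hb : b ≤ g (footT s r)) {h' L σ : ℝ} (hh : g 0 ≤ h') (hL : max a b ≤ L)
    (hσ : 0 ≤ σ) (hσ' : σ * ((h' + L) * (h' ^ 2 + L ^ 2)) ≤ h' ^ 2 + h' * L + L ^ 2) :
    σ * ((∫ z in (0 : ℝ)..footT s r, g z ^ 4) - footT s r * avgFour a b) ≤
      (∫ z in (0 : ℝ)..footT s r, g z ^ 3) - footT s r * avgThree a b := by
  have hT := footT_nonneg hsr
  have c3 : IntervalIntegrable (fun z => chord a b (footT s r) z ^ 3) volume 0 (footT s r) :=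
    Continuous.intervalIntegrable (by unfold chord; fun_prop) _ _
  have c4 : IntervalIntegrable (fun z => chord a b (footT s r) z ^ 4) volume 0 (footT s r) :=
    Continuous.intervalIntegrable (by unfold chord; fun_prop) _ _
  rw [← integral_chord_three hT, ← integral_chord_four hT,
    ← intervalIntegral.integral_sub (hH.pow_integrable hsr 3) c3,
    ← intervalIntegral.integral_sub (hH.pow_integrable hsr 4) c4,
    ← intervalIntegral.integral_const_mul]
  refine integral_mono_on hT (((hH.pow_integrable hsr 4).sub c4).const_mul σ)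
    ((hH.pow_integrable hsr 3).sub c3) fun z hz => ?_
  obtain ⟨h1, h2⟩ := chord_mem (a := a) (b := b) hT hz
  exact diff_four_le ((le_min ha0 hb0).trans h1) (hH.chord_le ha hb hz)
    ((hH.le_zero hz).trans hh) (h2.trans hL) hσ hσ'

end Head

end Vale.Agent.P237.Five
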