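import Vale.Agent.P237.OneDim

/-!
# P237, `n = 5`: statements shared by the modules

The one-dimensional lemma `OneDimFive` (profile of a five-dimensional body at a contact point) and
`KeyFive`, the inequality in `(s, r)` and the unknown part `g` of the profile on `[0, t]` that makes
the two potentials nondecreasing along the tangent homotopy.
-/

namespace Vale.Agent.P237.Five

open MeasureTheory Set Real

/-- The one-dimensional lemma: with `i, v, τ` the integrals of `f³`, `f⁴`, `t² f⁴` divided by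
their values for the circle, `i^(4/3) ≤ v` implies `τ ≤ v^(7/5)`. -/
def OneDimFive : Prop :=
  ∀ f : ℝ → ℝ, ConcaveOn ℝ (Icc (-1 : ℝ) 1) f → (∀ t, f (-t) = f t) → f 0 ≤ 9 / 4 →
    (∀ t ∈ Icc (-1 : ℝ) 1, √(1 - t ^ 2) ≤ f t) →
    ((∫ t in (-1 : ℝ)..1, f t ^ 3) / (3 * π / 8)) ^ (4 / 3 : ℝ) ≤
      (∫ t in (-1 : ℝ)..1, f t ^ 4) / (16 / 15) →
    (∫ t in (-1 : ℝ)..1, t ^ 2 * f t ^ 4) / (16 / 105) ≤
      ((∫ t in (-1 : ℝ)..1, f t ^ 4) / (16 / 15)) ^ (7 / 5 : ℝ)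

/-- The foot of the segment on which the tangent at `√(1 - s²)` is active. -/
noncomputable def footT (s r : ℝ) : ℝ := √(1 - s ^ 2) * (1 - s * r)

/-- The height of the tangent at the foot. -/
def endY (s r : ℝ) : ℝ := s + (1 - s ^ 2) * r

/-- `∫₀¹ σ (s + (1 - s²) r σ)² dσ`. -/
noncomputable def segI (s r : ℝ) : ℝ :=
  s ^ 2 / 2 + 2 * (1 - s ^ 2) * s * r / 3 + (1 - s ^ 2) ^ 2 * r ^ 2 / 4

/-- `∫₀¹ σ (s + (1 - s²) r σ)³ dσ`. -/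
noncomputable def segV (s r : ℝ) : ℝ :=
  s ^ 3 / 2 + (1 - s ^ 2) * s ^ 2 * r + 3 * (1 - s ^ 2) ^ 2 * s * r ^ 2 / 4
    + (1 - s ^ 2) ^ 3 * r ^ 3 / 5

/-- `(1 - s²) ∫₀¹ σ (s + (1 - s²) r σ)³ (1 - s r σ)² dσ`. -/
noncomputable def segT (s r : ℝ) : ℝ :=
  (1 - s ^ 2) * (segV s r
    - 2 * s * r * (s ^ 3 / 3 + 3 * (1 - s ^ 2) * s ^ 2 * r / 4
        + 3 * (1 - s ^ 2) ^ 2 * s * r ^ 2 / 5 + (1 - s ^ 2) ^ 3 * r ^ 3 / 6)
    + s ^ 2 * r ^ 2 * (s ^ 3 / 4 + 3 * (1 - s ^ 2) * s ^ 2 * r / 5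
        + (1 - s ^ 2) ^ 2 * s * r ^ 2 / 2 + (1 - s ^ 2) ^ 3 * r ^ 3 / 7))

/-- `∫₀¹ (s + (1 - s²) r σ)³ dσ`. -/
noncomputable def lineI (s r : ℝ) : ℝ :=
  s ^ 3 + 3 * (1 - s ^ 2) * s ^ 2 * r / 2 + (1 - s ^ 2) ^ 2 * s * r ^ 2
    + (1 - s ^ 2) ^ 3 * r ^ 3 / 4

/-- `∫₀¹ (s + (1 - s²) r σ)⁴ dσ`. -/
noncomputable def lineV (s r : ℝ) : ℝ :=
  s ^ 4 + 2 * (1 - s ^ 2) * s ^ 3 * r + 2 * (1 - s ^ 2) ^ 2 * s ^ 2 * r ^ 2
    + (1 - s ^ 2) ^ 3 * s * r ^ 3 + (1 - s ^ 2) ^ 4 * r ^ 4 / 5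

/-- `∫_b^1 (1 - x²)^(3/2)` at `b = √(1 - s²)`. -/
noncomputable def capI (s : ℝ) : ℝ := ∫ x in √(1 - s ^ 2)..1, √(1 - x ^ 2) ^ 3

/-- `∫_b^1 (1 - x²)²` at `b = √(1 - s²)`. -/
noncomputable def capV (s : ℝ) : ℝ :=
  8 / 15 - √(1 - s ^ 2) * (1 - 2 * (1 - s ^ 2) / 3 + (1 - s ^ 2) ^ 2 / 5)

/-- The normalised `∫F³`, if the part on `[0, t]` is `j`. -/
noncomputable def stateI (s r j : ℝ) : ℝ :=
  16 / (3 * π) * (j + √(1 - s ^ 2) * s * r * lineI s r + capI s)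

/-- The normalised `∫F⁴`, if the part on `[0, t]` is `j`. -/
noncomputable def stateV (s r j : ℝ) : ℝ :=
  15 / 8 * (j + √(1 - s ^ 2) * s * r * lineV s r + capV s)

/-- Derivative of `v^(7/5) + (A + B v^(-3/4)) (i - v^(3/4)) - τ`, up to a positive factor. -/
noncomputable def derLow (s r i v : ℝ) : ℝ :=
  (2823 / 200 + 3 * v ^ (-(3 / 4) : ℝ)) * (16 / π * segI s r)
    + (7 / 5 * v ^ (2 / 5 : ℝ) - 3 / 4 * (2823 / 200) * v ^ (-(1 / 4) : ℝ)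
        - 9 / 4 * i * v ^ (-(7 / 4) : ℝ)) * (15 / 2 * segV s r)
    - 105 / 2 * segT s r

/-- Derivative of `i^(28/15) + m (i^(4/3) - v) - τ`, up to a positive factor. -/
noncomputable def derHigh (s r i : ℝ) : ℝ :=
  (129 / 10 * (4 / 3) * i ^ (1 / 3 : ℝ) + 28 / 15 * i ^ (13 / 15 : ℝ)) * (16 / π * segI s r)
    - 129 / 10 * (15 / 2 * segV s r) - 105 / 2 * segT s r

/-- What is known about the profile on `[0, t]`. -/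
structure Head (s r : ℝ) (g : ℝ → ℝ) : Prop where
  conc : ConcaveOn ℝ (Icc 0 (footT s r)) g
  anti : AntitoneOn g (Icc 0 (footT s r))
  one_le : 1 ≤ g 0
  le_top : g 0 ≤ 9 / 4
  end_le : endY s r ≤ g (footT s r)
  circle : ∀ z ∈ Icc 0 (footT s r), √(1 - z ^ 2) ≤ g z

/-- The certified inequality. -/
def KeyFive : Prop :=
  ∀ (s r : ℝ) (g : ℝ → ℝ), 0 < s → s ≤ 1 → 0 ≤ r → s * r ≤ 1 → endY s r ≤ 9 / 4 →
    Head s r g →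
    let i := stateI s r (∫ z in (0 : ℝ)..footT s r, g z ^ 3)
    let v := stateV s r (∫ z in (0 : ℝ)..footT s r, g z ^ 4)
    (i ^ (4 / 3 : ℝ) ≤ v → 0 ≤ derLow s r i v) ∧ (v ≤ i ^ (4 / 3 : ℝ) → 0 ≤ derHigh s r i)

end Vale.Agent.P237.Five
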